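import Mathlib

set_option autoImplicit false

namespace Crest.Agent.R168

open Finset Matrix

/-- Cauchy-Binet formula, for an inner sum over a finite set `E`. -/
theorem cauchy_binet {ι α R : Type*} [Fintype ι] [DecidableEq ι] [DecidableEq α] [CommRing R]
    (E : Finset α) (M : ι → α → R) (N : α → ι → R) (c : Finset α → R)
    (hc0 : ∀ A ∈ E.powerset, A.card ≠ Fintype.card ι → c A = 0)
    (hc : ∀ f : ι → α, Function.Injective f → (∀ i, f i ∈ E) →
      c (univ.image f) = det (Matrix.of fun i j => M i (f j)) * det (Matrix.of fun i j => N (f i) j)) :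
    det (Matrix.of fun i j => ∑ e ∈ E, M i e * N e j) = ∑ A ∈ E.powerset, c A := by
  have h1 : det (Matrix.of fun i j => ∑ e ∈ E, M i e * N e j) =
      ∑ f ∈ Fintype.piFinset (fun _ : ι => E),
        (∏ j, N (f j) j) * det (Matrix.of fun i j => M i (f j)) := by
    simp only [det_apply', Matrix.of_apply, prod_univ_sum, mul_sum]
    rw [Finset.sum_comm]
    refine sum_congr rfl fun f _ => sum_congr rfl fun σ _ => ?_
    rw [prod_mul_distrib]; ring
  rw [h1, ← sum_fiberwise_of_maps_to (g := fun f : ι → α => univ.image f) (t := E.powerset)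
    (fun f hf => mem_powerset.2 fun a ha => by
      obtain ⟨i, -, rfl⟩ := mem_image.1 ha
      exact Fintype.mem_piFinset.1 hf i)]
  refine sum_congr rfl fun A hA => ?_
  by_cases hcard : A.card = Fintype.card ι
  · obtain ⟨e⟩ : Nonempty (ι ≃ A) := Fintype.card_eq.1 (by simp [hcard])
    set f0 : ι → α := fun i => (e i : α) with hf0
    have hinj : Function.Injective f0 := Subtype.val_injective.comp e.injective
    have himg : univ.image f0 = A := by
      ext a
      simp only [mem_image, mem_univ, true_and]
      constructor
      · rintro ⟨i, rfl⟩; exact (e i).2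
      · intro ha; exact ⟨e.symm ⟨a, ha⟩, by simp [hf0]⟩
    have hmem : ∀ i, f0 i ∈ E := fun i => mem_powerset.1 hA (e i).2
    rw [← himg, hc f0 hinj hmem, himg, det_apply' (Matrix.of fun i j => N (f0 i) j), mul_sum]
    symm
    refine sum_bij (fun σ _ => f0 ∘ σ) (fun σ _ => ?_) (fun σ _ τ _ h => ?_) (fun f hf => ?_)
      (fun σ _ => ?_)
    · refine mem_filter.2 ⟨Fintype.mem_piFinset.2 fun i => hmem _, ?_⟩
      rw [← himg, ← image_image, image_univ_equiv]
    · exact Equiv.ext fun i => hinj (congrFun h i)
    · obtain ⟨-, hf2⟩ := mem_filter.1 hf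
      have hfA : ∀ i, f i ∈ A := fun i => hf2 ▸ mem_image_of_mem f (mem_univ i)
      have hfinj : Function.Injective f := by
        have : (univ.image f).card = (univ : Finset ι).card := by rw [hf2, hcard]; rfl
        have := card_image_iff.1 this
        intro i j hij
        exact this (mem_coe.2 (mem_univ i)) (mem_coe.2 (mem_univ j)) hij
      have hg : Function.Injective fun i => e.symm ⟨f i, hfA i⟩ := by
        intro i j hij
        exact hfinj (congrArg Subtype.val (e.symm.injective hij))
      refine ⟨Equiv.ofBijective _ (Finite.injective_iff_bijective.1 hg), mem_univ _, ?_⟩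
      funext i
      simp [hf0]
    · have h2 := det_permute' σ (Matrix.of fun i j => M i (f0 j))
      have h3 : (Matrix.of fun i j => M i (f0 j)).submatrix id σ =
          Matrix.of fun i j => M i ((f0 ∘ σ) j) := rfl
      rw [← h3, h2]
      simp only [Matrix.of_apply, Function.comp_apply]
      ring
  · rw [hc0 A hA hcard]
    refine sum_eq_zero fun f hf => ?_
    obtain ⟨-, hf2⟩ := mem_filter.1 hf
    have hninj : ¬ Function.Injective f := fun h => hcard (by
      rw [← hf2, card_image_of_injective _ h]; rfl)
    obtain ⟨i, j, hij, hne⟩ := Function.not_injective_iff.1 hninj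
    rw [det_zero_of_column_eq hne (fun k => by simp [hij]), mul_zero]

end Crest.Agent.R168
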