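import Mathlib
import Crest.Prelude.Def_Labels
import Crest.Prelude.Def_SpanningTrees
import Crest.Prelude.Def_GraphTables
import Crest.Prelude.Def_StronglyRayleigh

/-!
Row 168 (factor of iid for strongly Rayleigh laws and the free uniform spanning forest):
the definitions shared by all helper modules.

Idea. `X ~ ν` on `V → Bool`, `Z` iid two-sided exponential noise, `I_s = s X + Z`. The posterior of `X`
given `I_s = y` on a finite window is `ν` tilted by the field `phi s (y j) = |y j| - |y j - s|`.
The posterior means are Lipschitz for the sup norm of the field, so the equation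
`dy/ds = E[X | I_s = y]` has a canonical solution (limit of Euler schemes) which carries the law
of `Z` to the law of `I_T`; the sign of `y(T) - T/2` for large `T` recovers a sample of `ν`.
-/

set_option autoImplicit false

namespace Crest.Agent.R168

open MeasureTheory Filter Topology

/-- The `0/1` real value of a Boolean. -/
def chi (b : Bool) : ℝ := if b = true then 1 else 0

section Tilt
variable {V : Type*}

/-- Partition function of the tilt by the field `h` on the window `F`, written through the
inclusion numbers `q T` (for a law `ν`, `q T = ν (T ⊆ X)`): it is `E[exp (∑ j ∈ F, h j X j)]`. -/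
noncomputable def tiltZ (q : Finset V → ℝ) (F : Finset V) (h : V → ℝ) : ℝ :=
  ∑ T ∈ F.powerset, q T * ∏ j ∈ T, (Real.exp (h j) - 1)

/-- Numerator `E[X i exp (∑ j ∈ F, h j X j)]` written through the inclusion numbers. -/
noncomputable def tiltN [DecidableEq V] (q : Finset V → ℝ) (F : Finset V) (i : V) (h : V → ℝ) : ℝ :=
  ∑ T ∈ F.powerset, q (insert i T) * ∏ j ∈ T, (Real.exp (h j) - 1)

/-- Mean of `X i` under the tilt by the field `h` on the window `F`. -/
noncomputable def tiltMean [DecidableEq V] (q : Finset V → ℝ) (F : Finset V) (i : V)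
    (h : V → ℝ) : ℝ :=
  tiltN q F i h / tiltZ q F h

/-- Inclusion numbers of a law on configurations. -/
noncomputable def incl (ν : Measure (V → Bool)) (T : Finset V) : ℝ :=
  ν.real {x | ∀ j ∈ T, x j = true}

/-- All tilted means are `L`-Lipschitz in the sup norm of the field. -/
def LipTilt [DecidableEq V] (q : Finset V → ℝ) (L : ℝ) : Prop :=
  ∀ (F : Finset V) (i : V) (h h' : V → ℝ) (δ : ℝ), (∀ j, |h j - h' j| ≤ δ) →
    |tiltMean q F i h - tiltMean q F i h'| ≤ L * δ

/-- Infinite-volume tilted mean along the windows `F i 0 ⊆ F i 1 ⊆ ...` attached to site `i`. -/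
noncomputable def drift [DecidableEq V] (q : Finset V → ℝ) (F : V → ℕ → Finset V) (i : V)
    (h : V → ℝ) : ℝ :=
  limsup (fun n => tiltMean q (F i n) i h) atTop

/-- A measurable drift with values in `[0,1]`, `L`-Lipschitz in the sup norm. -/
structure GoodDrift (M : V → (V → ℝ) → ℝ) (L : ℝ) : Prop where
  meas : ∀ i, Measurable (M i)
  nonneg : ∀ i h, 0 ≤ M i h
  le_one : ∀ i h, M i h ≤ 1
  lip : ∀ (i : V) (h h' : V → ℝ) (δ : ℝ), (∀ j, |h j - h' j| ≤ δ) → |M i h - M i h'| ≤ L * δ

/-- A measurable test function bounded by `1`, `c`-Lipschitz in the sup norm. -/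
structure SupLip (f : (V → ℝ) → ℝ) (c : ℝ) : Prop where
  meas : Measurable f
  bdd : ∀ y, |f y| ≤ 1
  lip : ∀ (y y' : V → ℝ) (δ : ℝ), 0 ≤ δ → (∀ j, |y j - y' j| ≤ δ) → |f y - f y'| ≤ c * δ

/-- The multi-affine polynomial `∑ S ⊆ E, p S ∏ j ∈ S, z j` has no zero with all `z j`, `j ∈ E`, in
the upper half plane. -/
def Stable (E : Finset V) (p : Finset V → ℝ) : Prop :=
  ∀ z : V → ℂ, (∀ j ∈ E, 0 < (z j).im) → ∑ S ∈ E.powerset, (p S : ℂ) * ∏ j ∈ S, z j ≠ 0

end Tilt

section Flow
variable {V : Type*}

/-- Log-likelihood ratio of a shift by `s` of the two-sided exponential density. -/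
noncomputable def phi (s y : ℝ) : ℝ := |y| - |y - s|

/-- The field seen at time `s` from the observation `y`. -/
noncomputable def field (s : ℝ) (y : V → ℝ) : V → ℝ := fun j => phi s (y j)

/-- One Euler step of length `τ` at time `s`. -/
noncomputable def step (M : V → (V → ℝ) → ℝ) (τ s : ℝ) (y : V → ℝ) : V → ℝ :=
  fun i => y i + τ * M i (field s y)

/-- `k` Euler steps of length `τ` from time `0`. -/
noncomputable def euler (M : V → (V → ℝ) → ℝ) (τ : ℝ) (z : V → ℝ) : ℕ → V → ℝ
  | 0 => z
  | k + 1 => step M τ ((k : ℝ) * τ) (euler M τ z k)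

/-- The solution at the integer time `T`, as the limit of dyadic Euler schemes. -/
noncomputable def flow (M : V → (V → ℝ) → ℝ) (T : ℕ) (z : V → ℝ) : V → ℝ :=
  fun i => limsup (fun n : ℕ => euler M ((1 / 2 : ℝ) ^ n) z (T * 2 ^ n) i) atTop

open Classical in
/-- The configuration read off the solution at large times. -/
noncomputable def decode (M : V → (V → ℝ) → ℝ) (z : V → ℝ) : V → Bool :=
  fun i => decide (∀ᶠ T : ℕ in atTop, (T : ℝ) / 2 < flow M T z i)

/-- The two-sided exponential (Laplace) law on the line. -/
noncomputable def lap : Measure ℝ :=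
  volume.withDensity fun z => ENNReal.ofReal (Real.exp (-|z|) / 2)

theorem integral_exp_neg_abs : ∫ z : ℝ, Real.exp (-|z|) = 2 := by
  have := integral_comp_abs (f := fun x : ℝ => Real.exp (-x))
  rw [this, integral_exp_neg_Ioi_zero]; norm_num

theorem integrable_exp_neg_abs : Integrable (fun z : ℝ => Real.exp (-|z|)) := by
  by_contra h
  have := integral_exp_neg_abs
  rw [integral_undef h] at this
  norm_num at this

instance lap_prob : IsProbabilityMeasure lap := by
  constructor
  rw [lap, withDensity_apply _ MeasurableSet.univ, Measure.restrict_univ,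
    ← ofReal_integral_eq_lintegral_ofReal (integrable_exp_neg_abs.div_const 2)
      (Eventually.of_forall fun z => by positivity),
    integral_div, integral_exp_neg_abs]
  norm_num

/-- Independent Laplace noise indexed by `V`. -/
noncomputable def noiseLaw (V : Type*) : Measure (V → ℝ) :=
  Measure.infinitePi fun _ : V => lap

instance noiseLaw_prob (V : Type*) : IsProbabilityMeasure (noiseLaw V) := by
  unfold noiseLaw; infer_instance

/-- The noisy observation `s X + Z`. -/
noncomputable def obs (s : ℝ) (p : (V → Bool) × (V → ℝ)) : V → ℝ :=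
  fun j => s * chi (p.1 j) + p.2 j

/-- The law of the noisy observation at time `s`. -/
noncomputable def mu (ν : Measure (V → Bool)) (s : ℝ) : Measure (V → ℝ) :=
  (ν.prod (noiseLaw V)).map (obs s)

end Flow

section Graph
open Crest.ProbabilityR.SpanningTrees

/-- Every function constant along the pairs in `A` is constant on `S`. -/
def Conn {V : Type*} (S : Finset V) (A : Finset (Sym2 V)) : Prop :=
  ∀ φ : V → Prop, (∀ u v, s(u, v) ∈ A → (φ u ↔ φ v)) → ∀ u ∈ S, ∀ v ∈ S, (φ u ↔ φ v)

open Classical in
/-- Inclusion numbers of the free uniform spanning forest: the infimum over all finite connected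
pieces containing `T` of the chance that the uniform spanning tree of the piece contains `T`. -/
noncomputable def fusfIncl (G : SimpleGraph ℕ) (T : Finset (Sym2 ℕ)) : ℝ :=
  ⨅ S : Finset ℕ, if (G.induce (S : Set ℕ)).Connected ∧ T ⊆ edgesIn G S then ustContains G S T else 1

/-- The vertices within `n` steps of an endpoint of `e`. -/
def ballSet (G : SimpleGraph ℕ) (e : Sym2 ℕ) : ℕ → Set ℕ
  | 0 => {w | w ∈ e}
  | n + 1 => ballSet G e n ∪ {w | ∃ u ∈ ballSet G e n, G.Adj u w}

open Classical in
/-- The edges inside the ball of radius `n` around `e` (empty if the ball is infinite). -/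
noncomputable def window (G : SimpleGraph ℕ) (e : Sym2 ℕ) (n : ℕ) : Finset (Sym2 ℕ) :=
  if h : (ballSet G e n).Finite then edgesIn G h.toFinset else ∅

/-- Position of `u` among the neighbours of `v`, ordered by the marks `t`. -/
noncomputable def nbRank (G : SimpleGraph ℕ) (t : ℕ → ℝ) (v u : ℕ) : ℕ :=
  {w | G.Adj v w ∧ t w < t u}.ncard

/-- Noise on unordered pairs read from marks `t` and arrays `ξ` at the vertices: the endpoint with
the larger mark supplies the entry of its array at the rank of the other endpoint. -/
noncomputable def edgeNoise (G : SimpleGraph ℕ) (t : ℕ → ℝ) (ξ : ℕ → ℕ → ℝ) : Sym2 ℕ → ℝ :=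
  Sym2.lift ⟨fun u v => (if t u < t v then ξ v (nbRank G t v u) else 0) +
      (if t v < t u then ξ u (nbRank G t u v) else 0), fun _ _ => add_comm _ _⟩

end Graph

end Crest.Agent.R168
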