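import Crest.Agent.R168.Defs

set_option autoImplicit false

namespace Crest.Agent.R168

open MeasureTheory ProbabilityTheory Filter Topology

variable {V : Type*}

theorem abs_phi_sub_phi_le (s s' y y' : ℝ) : |phi s y - phi s' y'| ≤ |s - s'| + 2 * |y - y'| := by
  unfold phi
  have h1 := abs_abs_sub_abs_le_abs_sub y y'
  have h2 := abs_abs_sub_abs_le_abs_sub (y - s) (y' - s')
  have h3 : |y - s - (y' - s')| ≤ |y - y'| + |s - s'| := by
    rw [show y - s - (y' - s') = (y - y') - (s - s') by ring]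
    exact abs_sub _ _
  have h4 := abs_sub (|y| - |y'|) (|y - s| - |y' - s'|)
  rw [show |y| - |y - s| - (|y'| - |y' - s'|) = (|y| - |y'|) - (|y - s| - |y' - s'|) by ring]
  linarith

theorem measurable_field (s : ℝ) : Measurable (field s : (V → ℝ) → V → ℝ) := by
  refine measurable_pi_lambda _ fun j => ?_
  unfold field phi
  fun_prop

theorem measurable_euler {Ω : Type*} [MeasurableSpace Ω] (M : Ω → V → (V → ℝ) → ℝ)
    (hM : ∀ i, Measurable fun p : Ω × (V → ℝ) => M p.1 i p.2) (z : Ω → V → ℝ) (hz : Measurable z)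
    (τ : ℝ) (k : ℕ) : Measurable fun ω => euler (M ω) τ (z ω) k := by
  induction k with
  | zero => exact hz
  | succ k ih =>
    refine measurable_pi_lambda _ fun i => ?_
    have h1 : Measurable fun ω => (ω, field ((k : ℝ) * τ) (euler (M ω) τ (z ω) k)) :=
      measurable_id.prodMk ((measurable_field _).comp ih)
    have h2 : Measurable fun ω => M ω i (field ((k : ℝ) * τ) (euler (M ω) τ (z ω) k)) :=
      (hM i).comp h1
    have h3 : Measurable fun ω => euler (M ω) τ (z ω) k i := (measurable_pi_apply i).comp ih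
    exact h3.add (h2.const_mul τ)

theorem measurable_flow {Ω : Type*} [MeasurableSpace Ω] (M : Ω → V → (V → ℝ) → ℝ)
    (hM : ∀ i, Measurable fun p : Ω × (V → ℝ) => M p.1 i p.2) (z : Ω → V → ℝ) (hz : Measurable z)
    (T : ℕ) : Measurable fun ω => flow (M ω) T (z ω) := by
  refine measurable_pi_lambda _ fun i => ?_
  exact Measurable.limsup fun n => (measurable_pi_apply i).comp (measurable_euler M hM z hz _ _)

theorem measurable_decode {Ω : Type*} [MeasurableSpace Ω] (M : Ω → V → (V → ℝ) → ℝ)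
    (hM : ∀ i, Measurable fun p : Ω × (V → ℝ) => M p.1 i p.2) (z : Ω → V → ℝ) (hz : Measurable z) :
    Measurable fun ω => decode (M ω) (z ω) := by
  refine measurable_pi_lambda _ fun i => measurable_to_bool ?_
  have : (fun ω => decode (M ω) (z ω) i) ⁻¹' {true} =
      ⋃ N : ℕ, ⋂ T : ℕ, ⋂ _ : N ≤ T, {ω | (T : ℝ) / 2 < flow (M ω) T (z ω) i} := by
    ext ω
    simp [decode, eventually_atTop]
  rw [this]
  refine MeasurableSet.iUnion fun N => MeasurableSet.iInter fun T => MeasurableSet.iInter fun _ => ?_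
  exact measurableSet_lt measurable_const
    ((measurable_pi_apply i).comp (measurable_flow M hM z hz T))

/-- The construction is natural under reindexing. -/
theorem decode_comp {W : Type*} (ι : W → V) (M : V → (V → ℝ) → ℝ) (M' : W → (W → ℝ) → ℝ)
    (hM : ∀ i h, M (ι i) h = M' i (h ∘ ι)) (z : V → ℝ) :
    decode M z ∘ ι = decode M' (z ∘ ι) := by
  have h1 : ∀ (τ : ℝ) (k : ℕ), euler M τ z k ∘ ι = euler M' τ (z ∘ ι) k := by
    intro τ k
    induction k with
    | zero => rfl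
    | succ k ih =>
      ext i
      simp only [euler, step, Function.comp, hM, ← ih]
      rfl
  have h2 : ∀ (T : ℕ) (i : W), flow M T z (ι i) = flow M' T (z ∘ ι) i := by
    intro T i
    simp only [flow, ← h1, Function.comp]
  ext i
  simp only [decode, Function.comp]
  exact decide_eq_decide.2 (by simp only [h2])

theorem euler_drift_lip {M : V → (V → ℝ) → ℝ} {L : ℝ} (hM : GoodDrift M L) (s s' : ℝ)
    (y y' : V → ℝ) (δ : ℝ) (hy : ∀ j, |y j - y' j| ≤ δ) (i : V) :
    |M i (field s y) - M i (field s' y')| ≤ L * (|s - s'| + 2 * δ) :=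
  hM.lip i _ _ _ fun j => (abs_phi_sub_phi_le s s' (y j) (y' j)).trans (by linarith [hy j])

theorem euler_half {M : V → (V → ℝ) → ℝ} {L : ℝ} (hM : GoodDrift M L) (hL : 0 ≤ L) {σ : ℝ}
    (hσ : 0 ≤ σ) (z : V → ℝ) (k : ℕ) (j : V) :
    |euler M (2 * σ) z k j - euler M σ z (2 * k) j| ≤
      k * (1 + 4 * L * σ) ^ k * (3 * L * σ ^ 2) := by
  induction k generalizing j with
  | zero => simp [euler]
  | succ k ih =>
    set d := k * (1 + 4 * L * σ) ^ k * (3 * L * σ ^ 2) with hd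
    have hd0 : 0 ≤ d := by positivity
    have e : 2 * (k + 1) = 2 * k + 1 + 1 := by ring
    rw [e]
    set y := euler M (2 * σ) z k with hy
    set y' := euler M σ z (2 * k) with hy'
    have e1 : euler M σ z (2 * k + 1) = step M σ (((2 * k : ℕ) : ℝ) * σ) y' := rfl
    have e2 : euler M σ z (2 * k + 1 + 1) j = euler M σ z (2 * k + 1) j +
        σ * M j (field (((2 * k + 1 : ℕ) : ℝ) * σ) (euler M σ z (2 * k + 1))) := rfl
    have e3 : euler M (2 * σ) z (k + 1) j = y j + 2 * σ * M j (field (k * (2 * σ)) y) := rfl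
    have e4 : ∀ i, euler M σ z (2 * k + 1) i =
        y' i + σ * M i (field (((2 * k : ℕ) : ℝ) * σ) y') := fun i => rfl
    have a1 := euler_drift_lip hM (k * (2 * σ)) (((2 * k : ℕ) : ℝ) * σ) y y' d ih j
    have a2 := euler_drift_lip hM (k * (2 * σ)) (((2 * k + 1 : ℕ) : ℝ) * σ) y
      (euler M σ z (2 * k + 1)) (d + σ) (fun i => by
        rw [e4]
        have b1 := abs_le.1 (ih i)
        have b2 := mul_nonneg hσ (hM.nonneg i (field (((2 * k : ℕ) : ℝ) * σ) y'))
        have b3 := mul_le_mul_of_nonneg_left (hM.le_one i (field (((2 * k : ℕ) : ℝ) * σ) y')) hσ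
        rw [abs_le]
        constructor <;> linarith [b1.1, b1.2]) j
    have f1 : |(k : ℝ) * (2 * σ) - ((2 * k : ℕ) : ℝ) * σ| = 0 := by
      push_cast; rw [abs_eq_zero]; ring
    have f2 : |(k : ℝ) * (2 * σ) - ((2 * k + 1 : ℕ) : ℝ) * σ| = σ := by
      push_cast
      rw [show (k : ℝ) * (2 * σ) - (2 * k + 1) * σ = -σ by ring, abs_neg, abs_of_nonneg hσ]
    rw [f1] at a1
    rw [f2] at a2
    rw [e2, e3, e4]
    have b0 := abs_le.1 (ih j)
    have b1 := abs_le.1 a1
    have b2 := abs_le.1 a2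
    have c1 := mul_le_mul_of_nonneg_left b1.1 hσ
    have c2 := mul_le_mul_of_nonneg_left b1.2 hσ
    have c3 := mul_le_mul_of_nonneg_left b2.1 hσ
    have c4 := mul_le_mul_of_nonneg_left b2.2 hσ
    have hq : 1 ≤ (1 + 4 * L * σ) ^ (k + 1) := one_le_pow₀ (by nlinarith [mul_nonneg hL hσ])
    have hb : (1 + 4 * L * σ) * d + 3 * L * σ ^ 2 ≤
        ((k + 1 : ℕ) : ℝ) * (1 + 4 * L * σ) ^ (k + 1) * (3 * L * σ ^ 2) := by
      have h3 : 0 ≤ 3 * L * σ ^ 2 := by positivity
      have := mul_le_mul_of_nonneg_right hq h3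
      rw [hd]
      push_cast
      rw [pow_succ (1 + 4 * L * σ)] at this ⊢
      nlinarith
    rw [abs_le]
    constructor <;> nlinarith [b0.1, b0.2]

theorem euler_dyadic {M : V → (V → ℝ) → ℝ} {L : ℝ} (hM : GoodDrift M L) (hL : 0 ≤ L) (T n : ℕ)
    (z : V → ℝ) (j : V) :
    dist (euler M ((1 / 2 : ℝ) ^ n) z (T * 2 ^ n) j)
      (euler M ((1 / 2 : ℝ) ^ (n + 1)) z (T * 2 ^ (n + 1)) j) ≤
      (2 * (T * Real.exp (2 * L * T) * L)) / 2 / 2 ^ n := by
  have h := euler_half hM hL (σ := (1 / 2 : ℝ) ^ (n + 1)) (by positivity) z (T * 2 ^ n) j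
  have e1 : 2 * (1 / 2 : ℝ) ^ (n + 1) = (1 / 2 : ℝ) ^ n := by rw [pow_succ]; ring
  have e2 : 2 * (T * 2 ^ n) = T * 2 ^ (n + 1) := by ring
  rw [e1, e2] at h
  rw [Real.dist_eq]
  refine h.trans ?_
  have h1 : (1 + 4 * L * (1 / 2 : ℝ) ^ (n + 1)) ^ (T * 2 ^ n) ≤ Real.exp (2 * L * T) := by
    calc _ ≤ Real.exp (4 * L * (1 / 2 : ℝ) ^ (n + 1)) ^ (T * 2 ^ n) := by
          refine pow_le_pow_left₀ (by positivity) ?_ _
          rw [add_comm]; exact Real.add_one_le_exp _
      _ = Real.exp (2 * L * T) := by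
          rw [← Real.exp_nat_mul]
          congr 1
          push_cast
          rw [one_div, inv_pow, pow_succ]
          field_simp
          ring
  calc _ ≤ ((T * 2 ^ n : ℕ) : ℝ) * Real.exp (2 * L * T) * (3 * L * ((1 / 2 : ℝ) ^ (n + 1)) ^ 2) := by
        gcongr
    _ = 3 / 4 * ((T * Real.exp (2 * L * T) * L) / 2 ^ n) := by
        push_cast
        rw [one_div, inv_pow, pow_succ]
        field_simp
        ring
    _ ≤ _ := by
        have : 0 ≤ (T * Real.exp (2 * L * T) * L) / 2 ^ n := by positivity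
        rw [mul_div_cancel_left₀ _ (two_ne_zero)]
        linarith

theorem euler_tendsto {M : V → (V → ℝ) → ℝ} {L : ℝ} (hM : GoodDrift M L) (hL : 0 ≤ L) (T : ℕ)
    (z : V → ℝ) (j : V) :
    Tendsto (fun n : ℕ => euler M ((1 / 2 : ℝ) ^ n) z (T * 2 ^ n) j) atTop (𝓝 (flow M T z j)) := by
  obtain ⟨a, ha⟩ := cauchySeq_tendsto_of_complete
    (cauchySeq_of_le_geometric_two fun n => euler_dyadic hM hL T n z j)
  have : flow M T z j = a := ha.limsup_eq
  rw [this]
  exact ha

theorem euler_incr {M : V → (V → ℝ) → ℝ} {L : ℝ} (hM : GoodDrift M L) {τ : ℝ} (hτ : 0 ≤ τ)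
    (z : V → ℝ) (k m : ℕ) (j : V) :
    0 ≤ euler M τ z (k + m) j - euler M τ z k j ∧
      euler M τ z (k + m) j - euler M τ z k j ≤ m * τ := by
  induction m with
  | zero => simp
  | succ m ih =>
    have e : euler M τ z (k + (m + 1)) j = euler M τ z (k + m) j +
      τ * M j (field (((k + m : ℕ) : ℝ) * τ) (euler M τ z (k + m))) := rfl
    have b2 := mul_nonneg hτ (hM.nonneg j (field (((k + m : ℕ) : ℝ) * τ) (euler M τ z (k + m))))
    have b3 := mul_le_mul_of_nonneg_left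
      (hM.le_one j (field (((k + m : ℕ) : ℝ) * τ) (euler M τ z (k + m)))) hτ
    rw [e]
    push_cast at b2 b3 ⊢
    constructor <;> linarith [ih.1, ih.2]

/-- Dyadic Euler schemes converge to `flow`, uniformly. -/
theorem euler_flow_close {M : V → (V → ℝ) → ℝ} {L : ℝ} (hM : GoodDrift M L) (hL : 0 ≤ L) (T : ℕ) :
    ∃ C : ℝ, 0 ≤ C ∧ ∀ (n : ℕ) (z : V → ℝ) (j : V),
      |euler M ((1 / 2 : ℝ) ^ n) z (T * 2 ^ n) j - flow M T z j| ≤ C * (1 / 2 : ℝ) ^ n := by
  refine ⟨2 * (T * Real.exp (2 * L * T) * L), by positivity, fun n z j => ?_⟩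
  have := dist_le_of_le_geometric_two_of_tendsto (fun n => euler_dyadic hM hL T n z j)
    (euler_tendsto hM hL T z j) n
  rw [Real.dist_eq] at this
  refine this.trans (le_of_eq ?_)
  rw [one_div, inv_pow, div_eq_mul_inv]

theorem flow_succ_sub {M : V → (V → ℝ) → ℝ} {L : ℝ} (hM : GoodDrift M L) (hL : 0 ≤ L) (T : ℕ)
    (z : V → ℝ) (j : V) :
    0 ≤ flow M (T + 1) z j - flow M T z j ∧ flow M (T + 1) z j - flow M T z j ≤ 1 := by
  have h := (euler_tendsto hM hL (T + 1) z j).sub (euler_tendsto hM hL T z j)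
  have key : ∀ n : ℕ, 0 ≤ euler M ((1 / 2 : ℝ) ^ n) z ((T + 1) * 2 ^ n) j -
      euler M ((1 / 2 : ℝ) ^ n) z (T * 2 ^ n) j ∧ euler M ((1 / 2 : ℝ) ^ n) z ((T + 1) * 2 ^ n) j -
      euler M ((1 / 2 : ℝ) ^ n) z (T * 2 ^ n) j ≤ 1 := by
    intro n
    have := euler_incr hM (τ := (1 / 2 : ℝ) ^ n) (by positivity) z (T * 2 ^ n) (2 ^ n) j
    have e : ((2 ^ n : ℕ) : ℝ) * (1 / 2 : ℝ) ^ n = 1 := by
      push_cast
      rw [← mul_pow]; norm_num
    rw [e] at this
    rwa [add_mul, one_mul]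
  exact ⟨ge_of_tendsto' h fun n => (key n).1, le_of_tendsto' h fun n => (key n).2⟩

end Crest.Agent.R168
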