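import Crest.Agent.R168.Defs

/-!
Row 168: elementary facts on stable multi-affine polynomials, split along one variable.
-/

set_option autoImplicit false

namespace Crest.Agent.R168

open Filter Topology Complex
open scoped ComplexConjugate

variable {V : Type*} [DecidableEq V]

/-- Coefficient of the variable `i` (complex arguments). -/
noncomputable def stPA (E : Finset V) (p : Finset V → ℝ) (i : V) (x : V → ℂ) : ℂ :=
  ∑ S ∈ E.powerset with i ∈ S, (p S : ℂ) * ∏ j ∈ S.erase i, x j

/-- Part free of the variable `i` (complex arguments). -/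
noncomputable def stPB (E : Finset V) (p : Finset V → ℝ) (i : V) (x : V → ℂ) : ℂ :=
  ∑ S ∈ E.powerset with i ∉ S, (p S : ℂ) * ∏ j ∈ S, x j

/-- Coefficient of the variable `i` (real arguments). -/
noncomputable def stRA (E : Finset V) (p : Finset V → ℝ) (i : V) (x : V → ℝ) : ℝ :=
  ∑ S ∈ E.powerset with i ∈ S, p S * ∏ j ∈ S.erase i, x j

/-- Part free of the variable `i` (real arguments). -/
noncomputable def stRB (E : Finset V) (p : Finset V → ℝ) (i : V) (x : V → ℝ) : ℝ :=
  ∑ S ∈ E.powerset with i ∉ S, p S * ∏ j ∈ S, x j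

variable (E : Finset V) (p : Finset V → ℝ) (i : V)

theorem stPA_ofReal (x : V → ℝ) : stPA E p i (fun j => (x j : ℂ)) = stRA E p i x := by
  simp [stPA, stRA]

theorem stPB_ofReal (x : V → ℝ) : stPB E p i (fun j => (x j : ℂ)) = stRB E p i x := by
  simp [stPB, stRB]

theorem stPA_conj (x : V → ℂ) : stPA E p i (fun j => conj (x j)) = conj (stPA E p i x) := by
  simp [stPA]

theorem stPB_conj (x : V → ℂ) : stPB E p i (fun j => conj (x j)) = conj (stPB E p i x) := by
  simp [stPB]

theorem stN_eq (x : V → ℝ) :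
    ∑ S ∈ E.powerset with i ∈ S, p S * ∏ j ∈ S, x j = x i * stRA E p i x := by
  rw [stRA, Finset.mul_sum]
  refine Finset.sum_congr rfl fun S hS => ?_
  rw [← Finset.mul_prod_erase S x (Finset.mem_filter.1 hS).2]
  ring

theorem stZ_eq (x : V → ℝ) :
    ∑ S ∈ E.powerset, p S * ∏ j ∈ S, x j = x i * stRA E p i x + stRB E p i x := by
  rw [← stN_eq, stRB, Finset.sum_filter_add_sum_filter_not]

theorem st_split (x : V → ℂ) (w : ℂ) :
    ∑ S ∈ E.powerset, (p S : ℂ) * ∏ j ∈ S, Function.update x i w j =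
      w * stPA E p i x + stPB E p i x := by
  rw [← Finset.sum_filter_add_sum_filter_not E.powerset (fun S => i ∈ S), stPA, stPB,
    Finset.mul_sum]
  congr 1
  · refine Finset.sum_congr rfl fun S hS => ?_
    rw [← Finset.mul_prod_erase S _ (Finset.mem_filter.1 hS).2, Function.update_self,
      Finset.prod_congr rfl fun j hj => Function.update_of_ne (Finset.ne_of_mem_erase hj) w x]
    ring
  · refine Finset.sum_congr rfl fun S hS => ?_
    rw [Finset.prod_congr rfl fun j hj => Function.update_of_ne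
      (fun h : j = i => (Finset.mem_filter.1 hS).2 (h ▸ hj)) w x]

variable {E p}

theorem st_up (hst : Stable E p) {x : V → ℂ} (hx : ∀ j ∈ E, 0 < (x j).im) :
    0 ≤ (stPB E p i x * conj (stPA E p i x)).im ∧ (stPA E p i x ≠ 0 ∨ stPB E p i x ≠ 0) := by
  have key : ∀ w : ℂ, 0 < w.im → w * stPA E p i x + stPB E p i x ≠ 0 := by
    intro w hw
    rw [← st_split]
    refine hst _ fun j hj => ?_
    by_cases h : j = i
    · subst h; simpa using hw
    · rw [Function.update_of_ne h]; exact hx j hj
  set a := stPA E p i x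
  set b := stPB E p i x
  constructor
  · by_contra hneg
    have ha : a ≠ 0 := by
      rintro h
      simp [h] at hneg
    refine key (-b / a) ?_ (by field_simp; ring)
    have h1 : -b / a = -(b * conj a) / (normSq a : ℂ) := by
      rw [normSq_eq_conj_mul_self]
      have : conj a ≠ 0 := by simpa using ha
      field_simp
    rw [h1, div_ofReal_im, neg_im]
    exact div_pos (by linarith [not_le.1 hneg]) (normSq_pos.2 ha)
  · by_contra hc
    push Not at hc
    exact key I (by simp) (by simp [hc.1, hc.2])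

theorem st_down (hst : Stable E p) {x : V → ℂ} (hx : ∀ j ∈ E, (x j).im < 0) :
    (stPB E p i x * conj (stPA E p i x)).im ≤ 0 ∧ (stPA E p i x ≠ 0 ∨ stPB E p i x ≠ 0) := by
  have := st_up i hst (x := fun j => conj (x j)) (fun j hj => by simpa using hx j hj)
  rw [stPA_conj, stPB_conj] at this
  refine ⟨?_, by simpa using this.2⟩
  have h1 := this.1
  rw [← map_mul, conj_im] at h1
  linarith

theorem st_up_closed (hst : Stable E p) {x : V → ℂ} (hx : ∀ j ∈ E, 0 ≤ (x j).im) :
    0 ≤ (stPB E p i x * conj (stPA E p i x)).im := by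
  have hc : Continuous fun η : ℝ => (stPB E p i (fun j => x j + η * I) *
      conj (stPA E p i (fun j => x j + η * I))).im := by
    unfold stPA stPB
    fun_prop
  have h0 := (hc.tendsto 0).mono_left (nhdsWithin_le_nhds (s := Set.Ioi 0))
  simp only [ofReal_zero, zero_mul, add_zero] at h0
  refine ge_of_tendsto h0 ?_
  filter_upwards [self_mem_nhdsWithin] with η hη
  refine (st_up i hst fun j hj => ?_).1
  have := hx j hj
  have h2 : (0 : ℝ) < η := hη
  simp only [add_im, mul_im, ofReal_re, I_im, ofReal_im, I_re]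
  linarith

theorem stRA_nonneg (hp : ∀ S, 0 ≤ p S) {x : V → ℝ} (hx : ∀ j, 0 ≤ x j) : 0 ≤ stRA E p i x :=
  Finset.sum_nonneg fun S _ => mul_nonneg (hp S) (Finset.prod_nonneg fun j _ => hx j)

theorem stRB_nonneg (hp : ∀ S, 0 ≤ p S) {x : V → ℝ} (hx : ∀ j, 0 ≤ x j) : 0 ≤ stRB E p i x :=
  Finset.sum_nonneg fun S _ => mul_nonneg (hp S) (Finset.prod_nonneg fun j _ => hx j)

omit [DecidableEq V] in
theorem stZ_pos (hp : ∀ S, 0 ≤ p S) (hst : Stable E p) {x : V → ℝ} (hx : ∀ j, 0 < x j) :
    0 < ∑ S ∈ E.powerset, p S * ∏ j ∈ S, x j := by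
  have : ∃ S ∈ E.powerset, p S ≠ 0 := by
    by_contra hc
    push Not at hc
    exact hst (fun _ => I) (by simp) (Finset.sum_eq_zero fun S hS => by simp [hc S hS])
  obtain ⟨S, hS, h⟩ := this
  refine Finset.sum_pos' (fun S _ => mul_nonneg (hp S) (Finset.prod_nonneg fun j _ => (hx j).le))
    ⟨S, hS, mul_pos (lt_of_le_of_ne (hp S) h.symm) (Finset.prod_pos fun j _ => hx j)⟩

end Crest.Agent.R168
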