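import Crest.Agent.R168.Defs
import Crest.Agent.R168.StableAux

set_option autoImplicit false

namespace Crest.Agent.R168

open MeasureTheory ProbabilityTheory Filter Topology

variable {V : Type*} [DecidableEq V]

section Aux
open Complex
open scoped ComplexConjugate

theorem stable_strict {a b : ℂ → ℂ} {ρ : ℝ} (hρ : 1 < ρ) (ha : Differentiable ℂ a)
    (hb : Differentiable ℂ b)
    (h : ∀ z ∈ Metric.ball (0 : ℂ) ρ, a z ≠ 0 ∧ b z / a z ∈ slitPlane)
    {α0 β0 α1 β1 : ℝ} (h0 : 0 < β0 / α0) (h1 : 0 < β1 / α1)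
    (e1 : a 0 = α0) (e2 : b 0 = β0) (e3 : a 1 = α1) (e4 : b 1 = β1) :
    |Real.log (β1 / α1) - Real.log (β0 / α0)| ≤ 2 * Real.pi / (ρ - 1) := by
  have hd : DifferentiableOn ℂ (fun z => I * (log (b z / a z) - log (b 0 / a 0)))
      (Metric.ball 0 ρ) := by
    intro z hz
    refine DifferentiableAt.differentiableWithinAt ?_
    refine (DifferentiableAt.sub ?_ (differentiableAt_const _)).const_mul _
    exact ((hb z).div (ha z) (h z hz).1).clog (h z hz).2
  have l0 : log (b 0 / a 0) = (Real.log (β0 / α0) : ℂ) := by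
    rw [e1, e2, ← ofReal_div, ofReal_log h0.le]
  have l1 : log (b 1 / a 1) = (Real.log (β1 / α1) : ℂ) := by
    rw [e3, e4, ← ofReal_div, ofReal_log h1.le]
  have := borelCaratheodory_zero (M := Real.pi) (z := 1) Real.pi_pos hd (fun z _ => by
    simp only [Set.mem_ofPred_eq, l0, mul_re, I_re, zero_mul, I_im, one_mul, zero_sub, sub_im,
      ofReal_im, sub_zero, log_im]
    linarith [neg_pi_lt_arg (b z / a z)]) (by linarith) (by simpa using hρ) (by simp)
  rw [l0, l1, norm_mul, norm_I, one_mul, ← ofReal_sub, norm_real, Real.norm_eq_abs] at this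
  simpa using this

theorem stable_logistic {x y : ℝ} (hx : 0 < x) (hy : 0 < y) :
    |1 / (1 + x) - 1 / (1 + y)| ≤ |Real.log x - Real.log y| := by
  have key : ∀ x y : ℝ, 0 < x → x ≤ y → 1 / (1 + x) - 1 / (1 + y) ≤ Real.log y - Real.log x := by
    intro x y hx hxy
    have hy : 0 < y := by linarith
    have h1 := Real.log_le_sub_one_of_pos (div_pos hx hy)
    rw [Real.log_div hx.ne' hy.ne'] at h1
    have h2 : 1 / (1 + x) - 1 / (1 + y) ≤ 1 - x / y := by
      rw [div_sub_div _ _ (by positivity) (by positivity), one_sub_div hy.ne',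
        div_le_div_iff₀ (by positivity) hy]
      have : 0 ≤ y - x := by linarith
      nlinarith [mul_nonneg this hx.le, mul_nonneg (mul_nonneg this hx.le) hy.le]
    linarith
  have mono : ∀ x y : ℝ, 0 < x → x ≤ y → 0 ≤ 1 / (1 + x) - 1 / (1 + y) := by
    intro x y hx hxy
    exact sub_nonneg.2 (one_div_le_one_div_of_le (by positivity) (by linarith))
  rcases le_total x y with h | h
  · rw [abs_of_nonneg (mono x y hx h), abs_sub_comm]
    exact (key x y hx h).trans (le_abs_self _)
  · rw [abs_sub_comm, abs_of_nonneg (mono y x hy h)]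
    exact (key y x hy h).trans (le_abs_self _)

theorem stable_perturb_im (a b κ : ℂ) (ε : ℝ) (_hκ : κ ≠ 0) :
    ((b + ε * κ * a) * conj (a + ε * κ⁻¹ * (b + ε * κ * a))).im =
      (b * conj a).im + ε * κ.im * normSq a +
        ε * (κ.im / normSq κ) * normSq (b + ε * κ * a) := by
  set c := b + ε * κ * a with hc
  have h1 : c * conj (a + ε * κ⁻¹ * c) = c * conj a + ε * conj κ⁻¹ * (normSq c : ℂ) := by
    rw [normSq_eq_conj_mul_self]
    simp only [map_add, map_mul, conj_ofReal]
    ring
  have h2 : c * conj a = b * conj a + ε * κ * (normSq a : ℂ) := by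
    rw [normSq_eq_conj_mul_self, hc]
    ring
  rw [h1, h2]
  simp only [add_im, mul_im, ofReal_re, ofReal_im, conj_im, inv_im, mul_re, conj_re]
  ring

theorem stable_slit_of_im {a b : ℂ} (h : (b * conj a).im ≠ 0) : a ≠ 0 ∧ b / a ∈ slitPlane := by
  have ha : a ≠ 0 := by
    rintro rfl
    simp at h
  refine ⟨ha, Or.inr ?_⟩
  have h1 : b / a = (b * conj a) / (normSq a : ℂ) := by
    rw [normSq_eq_conj_mul_self]
    have : conj a ≠ 0 := by simpa using ha
    field_simp
  rw [h1, div_ofReal_im]
  exact div_ne_zero h (normSq_pos.2 ha).ne'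

theorem stable_exp_im_pos {w : ℂ} (h0 : 0 < w.im) (h1 : w.im < Real.pi) : 0 < (exp w).im := by
  rw [exp_im]
  exact mul_pos (Real.exp_pos _) (Real.sin_pos_of_pos_of_lt_pi h0 h1)

theorem stable_exp_im_neg {w : ℂ} (h0 : w.im < 0) (h1 : -Real.pi < w.im) : (exp w).im < 0 := by
  rw [exp_im]
  exact mul_neg_of_pos_of_neg (Real.exp_pos _) (Real.sin_neg_of_neg_of_neg_pi_lt h0 h1)

/-- The key analytic estimate, without strictness assumptions. -/
theorem stable_key {a b : ℂ → ℂ} {δ : ℝ} (hδ : 0 < δ) (hδ1 : δ ≤ 1 / 100)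
    (ha : Differentiable ℂ a) (hb : Differentiable ℂ b) (α β : ℝ → ℝ)
    (hα : ∀ t, 0 ≤ α t) (hβ : ∀ t, 0 ≤ β t) (hαβ : ∀ t, 0 < α t + β t)
    (ea : ∀ t : ℝ, a t = α t) (eb : ∀ t : ℝ, b t = β t)
    (up : ∀ z : ℂ, 0 < z.im → z.im < 1 / δ → 0 ≤ (b z * conj (a z)).im ∧ (a z ≠ 0 ∨ b z ≠ 0))
    (down : ∀ z : ℂ, z.im < 0 → -(1 / δ) < z.im →
      (b z * conj (a z)).im ≤ 0 ∧ (a z ≠ 0 ∨ b z ≠ 0)) (g0 g1 : ℝ) :
    |Real.exp g1 * α 1 / (Real.exp g1 * α 1 + β 1) -
      Real.exp g0 * α 0 / (Real.exp g0 * α 0 + β 0)| ≤ 9 * δ + |g1 - g0| := by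
  have hpos : ∀ (t c : ℝ), 0 < c → 0 < c * α t + β t := by
    intro t c hc
    rcases (hα t).eq_or_lt with h | h
    · have := hαβ t
      rw [← h] at this ⊢
      linarith
    · have := hβ t
      positivity
  -- perturbed functions
  set βe : ℝ → ℝ → ℝ := fun ε t => β t + ε * Real.exp (δ * t) * α t with hβe
  set αe : ℝ → ℝ → ℝ := fun ε t => α t + ε * (Real.exp (δ * t))⁻¹ * βe ε t with hαe
  have main : ∀ ε : ℝ, 0 < ε →
      |Real.exp g1 * αe ε 1 / (Real.exp g1 * αe ε 1 + βe ε 1) -
        Real.exp g0 * αe ε 0 / (Real.exp g0 * αe ε 0 + βe ε 0)| ≤ 9 * δ + |g1 - g0| := by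
    intro ε hε
    have pβ : ∀ t, 0 < βe ε t := fun t => by
      have := hpos t (ε * Real.exp (δ * t)) (by positivity)
      simp only [hβe]; linarith
    have pα : ∀ t, 0 < αe ε t := fun t => by
      have := pβ t
      have := hα t
      simp only [hαe]; positivity
    have hk : Differentiable ℂ fun z : ℂ => exp (δ * z) := by fun_prop
    have hB : Differentiable ℂ fun z => b z + ε * exp (δ * z) * a z := by fun_prop
    have hA : Differentiable ℂ fun z =>
        a z + ε * (exp (δ * z))⁻¹ * (b z + ε * exp (δ * z) * a z) :=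
      ha.add (((hk.inv fun z => exp_ne_zero _).const_mul _).mul hB)
    have eB : ∀ t : ℝ, b t + ε * exp (δ * t) * a t = βe ε t := fun t => by
      simp [hβe, ea, eb]
    have eA : ∀ t : ℝ, a t + ε * (exp (δ * t))⁻¹ * (b t + ε * exp (δ * t) * a t) = αe ε t :=
      fun t => by rw [eB]; simp [hαe, ea]
    have hρ : 1 < 1 / δ := by rw [lt_div_iff₀ hδ]; linarith
    have hs := stable_strict hρ hA hB (α0 := αe ε 0) (β0 := βe ε 0) (α1 := αe ε 1) (β1 := βe ε 1)
      (fun z hz => by
        have hz1 : |z.im| < 1 / δ := (abs_im_le_norm z).trans_lt (by simpa using hz)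
        have hz2 := abs_lt.1 hz1
        have hz3 : δ * z.im < 1 := by
          have := hz2.2; rwa [lt_div_iff₀ hδ, mul_comm] at this
        have hz4 : -1 < δ * z.im := by
          have := hz2.1
          rw [neg_lt, lt_div_iff₀ hδ] at this
          linarith
        have hκ : exp (δ * z) ≠ 0 := exp_ne_zero _
        have hκn : 0 < normSq (exp (δ * z)) := normSq_pos.2 hκ
        have hne : ∀ _ : a z ≠ 0 ∨ b z ≠ 0, 0 < normSq (a z) ∨
            0 < normSq (b z + ε * exp (δ * z) * a z) := by
          intro h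
          by_cases h0 : a z = 0
          · right
            rw [h0]
            simpa [h0] using h
          · exact Or.inl (normSq_pos.2 h0)
        rcases lt_trichotomy z.im 0 with h | h | h
        · refine stable_slit_of_im (ne_of_lt ?_)
          rw [stable_perturb_im _ _ _ _ hκ]
          obtain ⟨d1, d2⟩ := down z h hz2.1
          have k1 : (exp (δ * z)).im < 0 := stable_exp_im_neg
            (by simpa using mul_neg_of_pos_of_neg hδ h) (by simp; linarith [Real.pi_gt_three])
          have k2 : ε * (exp (δ * z)).im < 0 := mul_neg_of_pos_of_neg hε k1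
          have k3 : ε * ((exp (δ * z)).im / normSq (exp (δ * z))) < 0 :=
            mul_neg_of_pos_of_neg hε (div_neg_of_neg_of_pos k1 hκn)
          have n1 := normSq_nonneg (a z)
          have n2 := normSq_nonneg (b z + ε * exp (δ * z) * a z)
          rcases hne d2 with k | k
          · nlinarith [mul_neg_of_neg_of_pos k2 k, mul_nonpos_of_nonpos_of_nonneg k3.le n2]
          · nlinarith [mul_neg_of_neg_of_pos k3 k, mul_nonpos_of_nonpos_of_nonneg k2.le n1]
        · have hz : z = (z.re : ℂ) := by apply Complex.ext <;> simp [h]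
          rw [hz, eA, eB]
          refine ⟨by exact_mod_cast (pα _).ne', Or.inl ?_⟩
          rw [← ofReal_div, ofReal_re]
          exact div_pos (pβ _) (pα _)
        · refine stable_slit_of_im (ne_of_gt ?_)
          rw [stable_perturb_im _ _ _ _ hκ]
          obtain ⟨d1, d2⟩ := up z h hz2.2
          have k1 : 0 < (exp (δ * z)).im := stable_exp_im_pos
            (by simpa using mul_pos hδ h) (by simp; linarith [Real.pi_gt_three])
          have n1 := normSq_nonneg (a z)
          have n2 := normSq_nonneg (b z + ε * exp (δ * z) * a z)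
          rcases hne d2 with k | k
          · positivity
          · positivity)
      (div_pos (pβ 0) (pα 0)) (div_pos (pβ 1) (pα 1))
      (by simpa using eA 0) (by simpa using eB 0) (by simpa using eA 1) (by simpa using eB 1)
    have hb2 : 2 * Real.pi / (1 / δ - 1) ≤ 9 * δ := by
      rw [div_le_iff₀ (by linarith)]
      have : 9 * δ * (1 / δ - 1) = 9 - 9 * δ := by field_simp
      rw [this]
      linarith [Real.pi_lt_four]
    have hl := stable_logistic (x := βe ε 1 / αe ε 1 / Real.exp g1)
      (y := βe ε 0 / αe ε 0 / Real.exp g0) (by have := pα 1; have := pβ 1; positivity)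
      (by have := pα 0; have := pβ 0; positivity)
    have f1 : ∀ (g : ℝ) (t : ℝ), Real.exp g * αe ε t / (Real.exp g * αe ε t + βe ε t) =
        1 / (1 + βe ε t / αe ε t / Real.exp g) := by
      intro g t
      have := pα t
      have := pβ t
      field_simp
    rw [f1, f1]
    refine hl.trans ?_
    rw [Real.log_div (div_pos (pβ 1) (pα 1)).ne' (Real.exp_pos _).ne',
      Real.log_div (div_pos (pβ 0) (pα 0)).ne' (Real.exp_pos _).ne', Real.log_exp, Real.log_exp]
    calc _ = |(Real.log (βe ε 1 / αe ε 1) - Real.log (βe ε 0 / αe ε 0)) - (g1 - g0)| := by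
          congr 1; ring
      _ ≤ _ := abs_sub _ _
      _ ≤ _ := by linarith
  have hc : ContinuousAt (fun ε : ℝ =>
      |Real.exp g1 * αe ε 1 / (Real.exp g1 * αe ε 1 + βe ε 1) -
        Real.exp g0 * αe ε 0 / (Real.exp g0 * αe ε 0 + βe ε 0)|) 0 := by
    have c1 : ∀ t, Continuous fun ε => βe ε t := fun t => by simp only [hβe]; fun_prop
    have c2 : ∀ t, Continuous fun ε => αe ε t := fun t => by simp only [hαe, hβe]; fun_prop
    have c3 : ∀ g t, ContinuousAt
        (fun ε => Real.exp g * αe ε t / (Real.exp g * αe ε t + βe ε t)) 0 := by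
      intro g t
      refine ContinuousAt.div ((c2 t).const_mul _).continuousAt
        (((c2 t).const_mul _).add (c1 t)).continuousAt ?_
      simpa [hαe, hβe] using (hpos t _ (Real.exp_pos g)).ne'
    exact ((c3 g1 1).sub (c3 g0 0)).abs
  have h0 := hc.tendsto.mono_left (nhdsWithin_le_nhds (s := Set.Ioi 0))
  have := le_of_tendsto h0 (by
    filter_upwards [self_mem_nhdsWithin] with ε hε
    exact main ε hε)
  simpa [hαe, hβe] using this

/-- The mean of coordinate `i` under the full tilt `g`. -/
noncomputable def stableMean (E : Finset V) (p : Finset V → ℝ) (i : V) (g : V → ℝ) : ℝ :=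
  Real.exp (g i) * stRA E p i (fun j => Real.exp (g j)) /
    (Real.exp (g i) * stRA E p i (fun j => Real.exp (g j)) + stRB E p i (fun j => Real.exp (g j)))

theorem stable_step {E : Finset V} {p : Finset V → ℝ} (hp : ∀ S, 0 ≤ p S) (hst : Stable E p)
    (i : V) {δ : ℝ} (hδ : 0 < δ) (hδ1 : δ ≤ 1 / 100) (g v : V → ℝ) (hv0 : ∀ j, 0 < v j)
    (hv1 : ∀ j, v j ≤ 3 * δ) :
    |stableMean E p i (fun j => g j + v j) - stableMean E p i g| ≤ 12 * δ := by
  have hsm : ∀ (z : ℂ) (j : V), |z.im| < 1 / δ → |z.im * v j| < Real.pi := by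
    intro z j hz
    rw [lt_div_iff₀ hδ] at hz
    rw [abs_mul, abs_of_pos (hv0 j)]
    nlinarith [abs_nonneg z.im, hv1 j, Real.pi_gt_three]
  have := stable_key (a := fun z => stPA E p i fun j => exp (g j + z * v j))
    (b := fun z => stPB E p i fun j => exp (g j + z * v j)) hδ hδ1
    (by unfold stPA; fun_prop) (by unfold stPB; fun_prop)
    (fun t => stRA E p i fun j => Real.exp (g j + t * v j))
    (fun t => stRB E p i fun j => Real.exp (g j + t * v j))
    (fun t => stRA_nonneg i hp fun j => (Real.exp_pos _).le)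
    (fun t => stRB_nonneg i hp fun j => (Real.exp_pos _).le)
    (fun t => by
      have h1 := stZ_pos hp hst (x := fun j => Real.exp (g j + t * v j)) fun j => Real.exp_pos _
      rw [stZ_eq E p i] at h1
      have h2 : 0 ≤ stRA E p i fun j => Real.exp (g j + t * v j) :=
        stRA_nonneg i hp fun j => (Real.exp_pos _).le
      have h3 : 0 ≤ stRB E p i fun j => Real.exp (g j + t * v j) :=
        stRB_nonneg i hp fun j => (Real.exp_pos _).le
      rcases h2.eq_or_lt with h | h
      · rw [← h] at h1 ⊢; linarith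
      · linarith)
    (fun t => by rw [← stPA_ofReal]; simp) (fun t => by rw [← stPB_ofReal]; simp)
    (fun z h0 h1 => st_up i hst fun j _ => by
      have := abs_lt.1 (hsm z j (abs_lt.2 ⟨by have : 0 < 1 / δ := by positivity
                                              linarith, h1⟩))
      exact stable_exp_im_pos (by simpa using mul_pos h0 (hv0 j)) (by simpa using this.2))
    (fun z h0 h1 => st_down i hst fun j _ => by
      have := abs_lt.1 (hsm z j (abs_lt.2 ⟨h1, by have : 0 < 1 / δ := by positivity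
                                                  linarith⟩))
      exact stable_exp_im_neg (by simpa using mul_neg_of_neg_of_pos h0 (hv0 j))
        (by simpa using this.1))
    (g i) (g i + v i)
  simp only [one_mul, zero_mul, add_zero, add_sub_cancel_left] at this
  rw [abs_of_pos (hv0 i)] at this
  unfold stableMean
  linarith [hv1 i]

theorem stable_mean_mem {E : Finset V} {p : Finset V → ℝ} (hp : ∀ S, 0 ≤ p S) (i : V)
    (g : V → ℝ) : 0 ≤ stableMean E p i g ∧ stableMean E p i g ≤ 1 := by
  have h2 : 0 ≤ stRA E p i fun j => Real.exp (g j) := stRA_nonneg i hp fun j => (Real.exp_pos _).le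
  have h3 : 0 ≤ stRB E p i fun j => Real.exp (g j) := stRB_nonneg i hp fun j => (Real.exp_pos _).le
  have h4 : 0 ≤ Real.exp (g i) * stRA E p i fun j => Real.exp (g j) := by positivity
  exact ⟨div_nonneg h4 (by linarith), div_le_one_of_le₀ (by linarith) (by linarith)⟩

theorem stable_mean_lip {E : Finset V} {p : Finset V → ℝ} (hp : ∀ S, 0 ≤ p S) (hst : Stable E p)
    (i : V) (g g' : V → ℝ) (δ : ℝ) (hδ : ∀ j, |g j - g' j| ≤ δ) :
    |stableMean E p i g - stableMean E p i g'| ≤ 100 * δ := by
  have h0 : 0 ≤ δ := (abs_nonneg _).trans (hδ i)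
  rcases h0.eq_or_lt with h | h
  · have : g = g' := funext fun j => by
      have := hδ j
      rw [← h] at this
      exact sub_eq_zero.1 (abs_nonpos_iff.1 this)
    rw [this, ← h]; simp
  by_cases h1 : δ ≤ 1 / 100
  · have a1 := stable_step hp hst i h h1 g (fun j => g' j - g j + 2 * δ)
      (fun j => by linarith [(abs_le.1 (hδ j)).2]) (fun j => by linarith [(abs_le.1 (hδ j)).1])
    have a2 := stable_step hp hst i h h1 g' (fun _ => 2 * δ) (fun j => by linarith)
      (fun j => by linarith)
    have e : (fun j => g j + (g' j - g j + 2 * δ)) = fun j => g' j + 2 * δ := by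
      ext j; ring
    rw [e] at a1
    have b1 := abs_le.1 a1
    have b2 := abs_le.1 a2
    rw [abs_le]
    constructor <;> linarith [b1.1, b1.2, b2.1, b2.2]
  · have b1 := stable_mean_mem (E := E) hp i g
    have b2 := stable_mean_mem (E := E) hp i g'
    rw [abs_le]
    constructor <;> linarith [b1.1, b1.2, b2.1, b2.2]

theorem stable_swap (E F : Finset V) (r : Finset V → ℝ) (h : V → ℝ) :
    ∑ T ∈ F.powerset, (∑ S ∈ E.powerset with T ⊆ S, r S) * ∏ j ∈ T, (Real.exp (h j) - 1) =
      ∑ S ∈ E.powerset, r S * ∏ j ∈ S, Real.exp (if j ∈ F then h j else 0) := by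
  simp only [Finset.sum_mul, Finset.sum_filter]
  rw [Finset.sum_comm]
  refine Finset.sum_congr rfl fun S _ => ?_
  have e1 : ∏ j ∈ S, Real.exp (if j ∈ F then h j else 0) =
      ∏ j ∈ S ∩ F, (1 + (Real.exp (h j) - 1)) := by
    rw [← Finset.prod_ite_mem]
    refine Finset.prod_congr rfl fun j _ => ?_
    split_ifs <;> simp
  rw [e1, Finset.prod_one_add, Finset.mul_sum]
  simp only [ite_mul, zero_mul]
  rw [← Finset.sum_filter]
  refine Finset.sum_congr ?_ fun _ _ => rfl
  ext T
  simp only [Finset.mem_filter, Finset.mem_powerset, Finset.subset_inter_iff]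
  tauto

theorem stable_tiltMean_eq (E : Finset V) (p : Finset V → ℝ)
    (q : Finset V → ℝ) (F : Finset V) (i : V)
    (hq : ∀ T ⊆ insert i F, q T = ∑ S ∈ E.powerset with T ⊆ S, p S) (h : V → ℝ) :
    tiltMean q F i h = stableMean E p i fun j => if j ∈ F then h j else 0 := by
  have hZ : tiltZ q F h = ∑ S ∈ E.powerset, p S * ∏ j ∈ S, Real.exp (if j ∈ F then h j else 0) := by
    rw [← stable_swap, tiltZ]
    refine Finset.sum_congr rfl fun T hT => ?_
    rw [hq T ((Finset.mem_powerset.1 hT).trans (Finset.subset_insert _ _))]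
  have hN : tiltN q F i h =
      ∑ S ∈ E.powerset with i ∈ S, p S * ∏ j ∈ S, Real.exp (if j ∈ F then h j else 0) := by
    have := stable_swap E F (fun S => if i ∈ S then p S else 0) h
    simp only [ite_mul, zero_mul] at this
    rw [Finset.sum_filter, ← this, tiltN]
    refine Finset.sum_congr rfl fun T hT => ?_
    rw [hq _ (Finset.insert_subset_insert _ (Finset.mem_powerset.1 hT)), ← Finset.sum_filter,
      Finset.filter_filter]
    congr 2
    ext S
    simp only [Finset.mem_filter, Finset.insert_subset_iff]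
    tauto
  rw [tiltMean, hZ, hN, stZ_eq E p i, stN_eq, stableMean]

end Aux

/-- Stability gives the sup-norm Lipschitz bound for tilted means. -/
theorem lip_of_stable (E : Finset V) (p : Finset V → ℝ) (hp : ∀ S, 0 ≤ p S) (hst : Stable E p)
    (q : Finset V → ℝ) (F : Finset V) (i : V)
    (hq : ∀ T ⊆ insert i F, q T = ∑ S ∈ E.powerset with T ⊆ S, p S)
    (h h' : V → ℝ) (δ : ℝ) (hδ : ∀ j, |h j - h' j| ≤ δ) :
    |tiltMean q F i h - tiltMean q F i h'| ≤ 100 * δ := by
  rw [stable_tiltMean_eq E p q F i hq, stable_tiltMean_eq E p q F i hq]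
  refine stable_mean_lip hp hst i _ _ δ fun j => ?_
  split_ifs
  · exact hδ j
  · simpa using (abs_nonneg _).trans (hδ i)

end Crest.Agent.R168
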