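import Crest.Agent.R168.Defs

set_option autoImplicit false

namespace Crest.Agent.R168

open MeasureTheory ProbabilityTheory Filter Topology

variable {V : Type*}

theorem chi_nonneg (b : Bool) : 0 ≤ chi b := by unfold chi; split_ifs <;> norm_num

theorem chi_le_one (b : Bool) : chi b ≤ 1 := by unfold chi; split_ifs <;> norm_num

theorem measurable_chi : Measurable chi := measurable_of_countable _

theorem tilt_measurableSet (T : Finset V) : MeasurableSet {x : V → Bool | ∀ j ∈ T, x j = true} := by
  have : {x : V → Bool | ∀ j ∈ T, x j = true} = ⋂ j ∈ T, (fun x : V → Bool => x j) ⁻¹' {true} := by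
    ext x; simp
  rw [this]
  exact Finset.measurableSet_biInter _ fun j _ => measurable_pi_apply j (measurableSet_singleton _)

theorem tilt_prod_chi (T : Finset V) (x : V → Bool) :
    ∏ j ∈ T, chi (x j) = Set.indicator {x : V → Bool | ∀ j ∈ T, x j = true} (fun _ => (1 : ℝ)) x := by
  by_cases h : x ∈ {x : V → Bool | ∀ j ∈ T, x j = true}
  · rw [Set.indicator_of_mem h]
    exact Finset.prod_eq_one fun j hj => by simp [chi, h j hj]
  · rw [Set.indicator_of_notMem h]
    simp only [Set.mem_ofPred_eq, not_forall] at h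
    obtain ⟨j, hj, h⟩ := h
    exact Finset.prod_eq_zero hj (by simp [chi, h])

theorem tilt_integrable_prod_chi (ν : Measure (V → Bool)) [IsFiniteMeasure ν] (T : Finset V) :
    Integrable (fun x : V → Bool => ∏ j ∈ T, chi (x j)) ν := by
  simp only [tilt_prod_chi]
  exact (integrable_const _).indicator (tilt_measurableSet T)

theorem tilt_integral_prod_chi (ν : Measure (V → Bool)) (T : Finset V) :
    ∫ x, ∏ j ∈ T, chi (x j) ∂ν = incl ν T := by
  simp only [tilt_prod_chi]
  rw [integral_indicator_const _ (tilt_measurableSet T)]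
  simp [incl]

theorem tilt_exp_eq (F : Finset V) (h : V → ℝ) (x : V → Bool) :
    Real.exp (∑ j ∈ F, h j * chi (x j)) =
      ∑ T ∈ F.powerset, (∏ j ∈ T, chi (x j)) * ∏ j ∈ T, (Real.exp (h j) - 1) := by
  simp only [← Finset.prod_mul_distrib]
  rw [← Finset.prod_one_add, Real.exp_sum]
  refine Finset.prod_congr rfl fun j _ => ?_
  unfold chi
  split_ifs <;> simp

theorem tilt_chi_mul [DecidableEq V] (i : V) (T : Finset V) (x : V → Bool) :
    chi (x i) * ∏ j ∈ T, chi (x j) = ∏ j ∈ insert i T, chi (x j) := by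
  by_cases h : i ∈ T
  · rw [Finset.insert_eq_of_mem h, ← Finset.mul_prod_erase T _ h, ← mul_assoc]
    congr 1
    unfold chi
    split_ifs <;> simp
  · rw [Finset.prod_insert h]

theorem tilt_integrable_exp (ν : Measure (V → Bool)) [IsFiniteMeasure ν] (F : Finset V)
    (h : V → ℝ) : Integrable (fun x : V → Bool => Real.exp (∑ j ∈ F, h j * chi (x j))) ν := by
  simp only [tilt_exp_eq]
  exact integrable_finsetSum _ fun T _ => (tilt_integrable_prod_chi ν T).mul_const _

theorem tilt_limsup_le {a b : ℕ → ℝ} (ha : ∀ n, 0 ≤ a n) (hb0 : ∀ n, 0 ≤ b n) (hb : ∀ n, b n ≤ 1)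
    {c : ℝ} (h : ∀ n, a n ≤ b n + c) : limsup a atTop ≤ limsup b atTop + c := by
  rw [← limsup_add_const atTop b c (isBoundedUnder_of ⟨1, hb⟩)
    (isCoboundedUnder_le_of_le atTop hb0)]
  exact limsup_le_limsup (Eventually.of_forall h) (isCoboundedUnder_le_of_le atTop ha)
    (isBoundedUnder_of ⟨1 + c, fun n => by linarith [hb n]⟩)

theorem tilt_sum_powerset_map {W : Type*} (ι : W ↪ V) (F : Finset W) (f : Finset V → ℝ) :
    ∑ T ∈ (F.map ι).powerset, f T = ∑ T ∈ F.powerset, f (T.map ι) := by
  symm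
  refine Finset.sum_bij (fun T _ => T.map ι) (fun T hT => ?_) (fun T _ T' _ h => ?_)
    (fun T hT => ?_) fun _ _ => rfl
  · exact Finset.mem_powerset.2 (Finset.map_subset_map.2 (Finset.mem_powerset.1 hT))
  · exact Finset.map_injective ι h
  · obtain ⟨U, hU, rfl⟩ := Finset.subset_map_iff.1 (Finset.mem_powerset.1 hT)
    exact ⟨U, Finset.mem_powerset.2 hU, rfl⟩

theorem tiltZ_incl (ν : Measure (V → Bool)) [IsFiniteMeasure ν] (F : Finset V) (h : V → ℝ) :
    tiltZ (incl ν) F h = ∫ x, Real.exp (∑ j ∈ F, h j * chi (x j)) ∂ν := by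
  simp only [tilt_exp_eq]
  rw [integral_finsetSum _ fun T _ => (tilt_integrable_prod_chi ν T).mul_const _]
  simp only [integral_mul_const, tilt_integral_prod_chi, tiltZ]

theorem tiltN_incl [DecidableEq V] (ν : Measure (V → Bool)) [IsFiniteMeasure ν] (F : Finset V)
    (i : V) (h : V → ℝ) :
    tiltN (incl ν) F i h = ∫ x, chi (x i) * Real.exp (∑ j ∈ F, h j * chi (x j)) ∂ν := by
  simp only [tilt_exp_eq, Finset.mul_sum, ← mul_assoc, tilt_chi_mul]
  rw [integral_finsetSum _ fun T _ => (tilt_integrable_prod_chi ν _).mul_const _]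
  simp only [integral_mul_const, tilt_integral_prod_chi, tiltN]

theorem tiltZ_incl_pos (ν : Measure (V → Bool)) [IsProbabilityMeasure ν] (F : Finset V)
    (h : V → ℝ) : 0 < tiltZ (incl ν) F h := by
  rw [tiltZ_incl]
  exact integral_exp_pos (tilt_integrable_exp ν F h)

theorem tiltMean_incl_nonneg [DecidableEq V] (ν : Measure (V → Bool)) [IsProbabilityMeasure ν]
    (F : Finset V) (i : V) (h : V → ℝ) : 0 ≤ tiltMean (incl ν) F i h := by
  refine div_nonneg ?_ (tiltZ_incl_pos ν F h).le
  rw [tiltN_incl]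
  exact integral_nonneg fun x => mul_nonneg (chi_nonneg _) (Real.exp_pos _).le

theorem tiltMean_incl_le_one [DecidableEq V] (ν : Measure (V → Bool)) [IsProbabilityMeasure ν]
    (F : Finset V) (i : V) (h : V → ℝ) : tiltMean (incl ν) F i h ≤ 1 := by
  rw [tiltMean, div_le_one (tiltZ_incl_pos ν F h), tiltN_incl, tiltZ_incl]
  refine integral_mono_of_nonneg
    (Eventually.of_forall fun x => mul_nonneg (chi_nonneg _) (Real.exp_pos _).le)
    (tilt_integrable_exp ν F h) (Eventually.of_forall fun x => ?_)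
  exact mul_le_of_le_one_left (Real.exp_pos _).le (chi_le_one _)

theorem measurable_tiltMean [DecidableEq V] {Ω : Type*} [MeasurableSpace Ω]
    (q : Ω → Finset V → ℝ) (hq : ∀ T, Measurable fun ω => q ω T) (F : Finset V) (i : V)
    (h : Ω → V → ℝ) (hh : ∀ j, Measurable fun ω => h ω j) :
    Measurable fun ω => tiltMean (q ω) F i (h ω) := by
  unfold tiltMean tiltN tiltZ
  refine Measurable.div (Finset.measurable_sum _ fun T _ => (hq _).mul ?_)
    (Finset.measurable_sum _ fun T _ => (hq _).mul ?_) <;>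
  exact Finset.measurable_prod _ fun j _ => (hh j).exp.sub_const _

theorem goodDrift_of_lipTilt [DecidableEq V] (ν : Measure (V → Bool)) [IsProbabilityMeasure ν]
    (F : V → ℕ → Finset V) (L : ℝ) (hL : LipTilt (incl ν) L) :
    GoodDrift (drift (incl ν) F) L := by
  have h0 := fun (i : V) (h : V → ℝ) (n : ℕ) => tiltMean_incl_nonneg ν (F i n) i h
  have h1 := fun (i : V) (h : V → ℝ) (n : ℕ) => tiltMean_incl_le_one ν (F i n) i h
  refine ⟨fun i => ?_, fun i h => ?_, fun i h => ?_, fun i h h' δ hδ => ?_⟩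
  · exact Measurable.limsup fun n => measurable_tiltMean (fun _ => incl ν)
      (fun _ => measurable_const) (F i n) i (fun h => h) fun j => measurable_pi_apply j
  · have := tilt_limsup_le (a := fun _ => 0) (fun _ => le_rfl) (h0 i h) (h1 i h) (c := 0)
      (fun n => by simpa using h0 i h n)
    simpa [drift] using this
  · exact limsup_le_of_le (isCoboundedUnder_le_of_le atTop (h0 i h))
      (Eventually.of_forall (h1 i h))
  · have a1 := tilt_limsup_le (h0 i h) (h0 i h') (h1 i h') (c := L * δ)
      (fun n => by linarith [(abs_le.1 (hL (F i n) i h h' δ hδ)).2])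
    have a2 := tilt_limsup_le (h0 i h') (h0 i h) (h1 i h) (c := L * δ)
      (fun n => by linarith [(abs_le.1 (hL (F i n) i h h' δ hδ)).1])
    unfold drift
    rw [abs_le]
    constructor <;> linarith

theorem tiltMean_map {W : Type*} [DecidableEq V] [DecidableEq W] (ι : W ↪ V) (q : Finset V → ℝ)
    (F : Finset W) (i : W) (h : V → ℝ) :
    tiltMean q (F.map ι) (ι i) h = tiltMean (fun T => q (T.map ι)) F i (h ∘ ι) := by
  unfold tiltMean tiltN tiltZ
  simp only [tilt_sum_powerset_map, Finset.prod_map, Finset.map_insert, Function.comp]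

/-- The Lipschitz bound passes to pointwise limits of inclusion numbers. -/
theorem lipTilt_of_tendsto [DecidableEq V] (ν : Measure (V → Bool)) [IsProbabilityMeasure ν]
    (q : ℕ → Finset V → ℝ) (L : ℝ) (hq : ∀ n, LipTilt (q n) L)
    (hlim : ∀ T, Tendsto (fun n => q n T) atTop (𝓝 (incl ν T))) : LipTilt (incl ν) L := by
  intro F i h h' δ hδ
  have key : ∀ h : V → ℝ, Tendsto (fun n => tiltMean (q n) F i h) atTop
      (𝓝 (tiltMean (incl ν) F i h)) := by
    intro h
    refine Tendsto.div ?_ ?_ (tiltZ_incl_pos ν F h).ne'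
    · exact tendsto_finsetSum _ fun T _ => (hlim _).mul_const _
    · exact tendsto_finsetSum _ fun T _ => (hlim _).mul_const _
  exact le_of_tendsto' ((key h).sub (key h')).abs fun n => hq n F i h h' δ hδ

/-- A finite law on configurations is determined by its inclusion numbers. -/
theorem measure_eq_of_incl_eq (ν ν' : Measure (V → Bool)) [IsFiniteMeasure ν] [IsFiniteMeasure ν']
    (h : ∀ T, incl ν T = incl ν' T) : ν = ν' := by
  classical
  have key : ∀ T : Finset V, ν {x | ∀ j ∈ T, x j = true} = ν' {x | ∀ j ∈ T, x j = true} := by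
    intro T
    exact (ENNReal.toReal_eq_toReal_iff' (measure_ne_top _ _) (measure_ne_top _ _)).1 (h T)
  refine ext_of_generate_finite
    (Set.range fun T : Finset V => {x : V → Bool | ∀ j ∈ T, x j = true}) ?_ ?_ ?_ ?_
  · refine le_antisymm ?_ (MeasurableSpace.generateFrom_le ?_)
    · refine iSup_le fun j => ?_
      rw [← measurable_iff_comap_le]
      refine measurable_to_bool (MeasurableSpace.measurableSet_generateFrom ⟨{j}, ?_⟩)
      ext x; simp
    · rintro _ ⟨T, rfl⟩
      exact tilt_measurableSet T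
  · rintro _ ⟨T, rfl⟩ _ ⟨T', rfl⟩ _
    refine ⟨T ∪ T', ?_⟩
    ext x
    simp only [Finset.mem_union, Set.mem_ofPred_eq, Set.mem_inter_iff]
    exact ⟨fun h => ⟨fun j hj => h j (Or.inl hj), fun j hj => h j (Or.inr hj)⟩,
      fun h j hj => hj.elim (h.1 j) (h.2 j)⟩
  · rintro _ ⟨T, rfl⟩
    exact key T
  · simpa using key ∅

/-- Pointwise limits of inclusion numbers of probability laws are inclusion numbers of a law. -/
theorem exists_measure_of_tendsto_incl [Countable V] (νs : ℕ → Measure (V → Bool))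
    [∀ n, IsProbabilityMeasure (νs n)] (q : Finset V → ℝ)
    (hlim : ∀ T, Tendsto (fun n => incl (νs n) T) atTop (𝓝 (q T))) :
    ∃ ν : Measure (V → Bool), IsProbabilityMeasure ν ∧ ∀ T, incl ν T = q T := by
  set μs : ℕ → ProbabilityMeasure (V → Bool) := fun n => ⟨νs n, inferInstance⟩ with hμs
  obtain ⟨μ, -, hμ⟩ := isCompact_univ.ultrafilter_le_nhds
    (Ultrafilter.map μs (Ultrafilter.of atTop)) (by simp)
  have hμ' : Tendsto μs (Ultrafilter.of (atTop : Filter ℕ) : Filter ℕ) (𝓝 μ) := hμ
  refine ⟨μ, inferInstance, fun T => ?_⟩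
  have hcl : IsClopen {x : V → Bool | ∀ j ∈ T, x j = true} := by
    have : {x : V → Bool | ∀ j ∈ T, x j = true} =
        ⋂ j ∈ T, (fun x : V → Bool => x j) ⁻¹' {true} := by
      ext x; simp
    rw [this]
    exact isClopen_biInter_finset fun j _ => (isClopen_discrete _).preimage (continuous_apply j)
  have h1 := ProbabilityMeasure.tendsto_measure_of_null_frontier_of_tendsto' hμ'
    (E := {x : V → Bool | ∀ j ∈ T, x j = true}) (by simp [hcl])
  have h2 := (ENNReal.tendsto_toReal (measure_ne_top _ _)).comp h1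
  exact tendsto_nhds_unique h2 ((hlim T).mono_left (Ultrafilter.of_le _))

end Crest.Agent.R168
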