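import Crest.Agent.R168.UstMono
import Crest.Agent.R168.Stable
import Crest.Agent.R168.Tilt

set_option autoImplicit false

namespace Crest.Agent.R168

open MeasureTheory ProbabilityTheory Filter Topology

open Crest.ProbabilityR.SpanningTrees

open Classical in
/-- The spanning trees of a finite piece. -/
noncomputable def fusfTrees (G : SimpleGraph ℕ) (S : Finset ℕ) : Finset (Finset (Sym2 ℕ)) :=
  (edgesIn G S).powerset.filter (fun A => IsSpanningTreeOn G S A)

open Classical in
/-- The configuration of an edge set. -/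
noncomputable def fusfCfg (G : SimpleGraph ℕ) (A : Finset (Sym2 ℕ)) : G.edgeSet → Bool :=
  fun e => decide (e.1 ∈ A)

/-- The law of the uniform spanning tree of a finite piece. -/
noncomputable def fusfLaw (G : SimpleGraph ℕ) (S : Finset ℕ) : Measure (G.edgeSet → Bool) :=
  ((fusfTrees G S).card : ENNReal)⁻¹ • ∑ A ∈ fusfTrees G S, Measure.dirac (fusfCfg G A)

theorem fusf_card_eq (G : SimpleGraph ℕ) (S : Finset ℕ) :
    (fusfTrees G S).card = ustMonoCnt G S ∅ := by
  unfold fusfTrees ustMonoCnt
  congr 1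
  ext A
  simp

theorem fusf_law_apply (G : SimpleGraph ℕ) (S : Finset ℕ) (U : Set (G.edgeSet → Bool))
    (hU : MeasurableSet U) [DecidablePred fun A => fusfCfg G A ∈ U] :
    fusfLaw G S U = ((fusfTrees G S).card : ENNReal)⁻¹ *
      (((fusfTrees G S).filter fun A => fusfCfg G A ∈ U).card : ENNReal) := by
  unfold fusfLaw
  rw [Measure.smul_apply, smul_eq_mul, Measure.coe_finset_sum, Finset.sum_apply]
  congr 1
  rw [Finset.card_filter, Nat.cast_sum]
  refine Finset.sum_congr rfl fun A _ => ?_
  rw [Measure.dirac_apply' _ hU]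
  by_cases h : fusfCfg G A ∈ U
  · simp [h]
  · simp [h]

theorem fusf_law_prob (G : SimpleGraph ℕ) (S : Finset ℕ)
    (hS : (G.induce (S : Set ℕ)).Connected) : IsProbabilityMeasure (fusfLaw G S) := by
  classical
  constructor
  rw [fusf_law_apply G S _ MeasurableSet.univ]
  simp only [Set.mem_univ, Finset.filter_true]
  have hpos : (fusfTrees G S).card ≠ 0 := by
    rw [fusf_card_eq]; exact (ustMono_pos G S hS).ne'
  exact ENNReal.inv_mul_cancel (by exact_mod_cast hpos) (ENNReal.natCast_ne_top _)

theorem fusf_incl (G : SimpleGraph ℕ) (S : Finset ℕ) (T : Finset G.edgeSet) :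
    incl (fusfLaw G S) T =
      ustContains G S (T.map (Function.Embedding.subtype (· ∈ G.edgeSet))) := by
  classical
  unfold incl
  rw [Measure.real, fusf_law_apply G S _ (tilt_measurableSet T), ustMono_eq, ENNReal.toReal_mul,
    ENNReal.toReal_inv, ENNReal.toReal_natCast, ENNReal.toReal_natCast, fusf_card_eq,
    div_eq_inv_mul]
  congr 2
  unfold fusfTrees ustMonoCnt
  rw [Finset.filter_filter]
  congr 1
  ext A
  simp only [Finset.mem_filter, Set.mem_setOf_eq, fusfCfg, decide_eq_true_eq,
    and_congr_right_iff]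
  intro _ _
  constructor
  · intro h e he
    obtain ⟨j, hj, rfl⟩ := Finset.mem_map.1 he
    exact h j hj
  · intro h j hj
    exact h (Finset.mem_map.2 ⟨j, hj, rfl⟩)

theorem fusf_lip (G : SimpleGraph ℕ) (S : Finset ℕ) (hS : (G.induce (S : Set ℕ)).Connected)
    [DecidableEq G.edgeSet] :
    LipTilt (fun T : Finset G.edgeSet =>
      ustContains G S (T.map (Function.Embedding.subtype (· ∈ G.edgeSet)))) 100 := by
  classical
  intro F i h h' δ hδ
  have hδ0 : 0 ≤ δ := (abs_nonneg _).trans (hδ i)
  set ι : G.edgeSet ↪ Sym2 ℕ := Function.Embedding.subtype (· ∈ G.edgeSet) with hι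
  set H : Sym2 ℕ → ℝ := fun e => if he : e ∈ G.edgeSet then h ⟨e, he⟩ else 0 with hH
  set H' : Sym2 ℕ → ℝ := fun e => if he : e ∈ G.edgeSet then h' ⟨e, he⟩ else 0 with hH'
  have e1 : h = H ∘ ι := by
    funext j
    simp only [hH, hι, Function.comp, Function.Embedding.coe_subtype]
    rw [dif_pos j.2]
  have e2 : h' = H' ∘ ι := by
    funext j
    simp only [hH', hι, Function.comp, Function.Embedding.coe_subtype]
    rw [dif_pos j.2]
  rw [e1, e2, ← tiltMean_map ι (ustContains G S) F i H, ← tiltMean_map ι (ustContains G S) F i H']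
  have hc : (0 : ℝ) < (ustMonoCnt G S ∅ : ℝ) := by exact_mod_cast ustMono_pos G S hS
  refine lip_of_stable (edgesIn G S)
    (fun A => (ustMonoCnt G S ∅ : ℝ)⁻¹ * if IsSpanningTreeOn G S A then 1 else 0)
    (fun A => by split_ifs <;> positivity) ?_ (ustContains G S) _ _ ?_ H H' δ ?_
  · intro z hz h0
    refine tree_stable G S hS z hz ?_
    have h1 : ∑ A ∈ (edgesIn G S).powerset,
        (((ustMonoCnt G S ∅ : ℝ)⁻¹ * if IsSpanningTreeOn G S A then 1 else 0 : ℝ) : ℂ) *
          ∏ j ∈ A, z j = (((ustMonoCnt G S ∅ : ℝ)⁻¹ : ℝ) : ℂ) *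
        ∑ A ∈ (edgesIn G S).powerset,
          ((if IsSpanningTreeOn G S A then 1 else 0 : ℝ) : ℂ) * ∏ j ∈ A, z j := by
      rw [Finset.mul_sum]
      refine Finset.sum_congr rfl fun A _ => ?_
      push_cast
      ring
    rw [h1, mul_eq_zero] at h0
    rcases h0 with h0 | h0
    · exact absurd (Complex.ofReal_eq_zero.1 h0) (inv_pos.2 hc).ne'
    · convert h0
  · intro T _
    rw [← Finset.mul_sum, Finset.sum_boole, Finset.filter_filter, ustMono_eq, div_eq_inv_mul]
    congr 2
    unfold ustMonoCnt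
    congr 1
    ext A
    simp [and_comm]
  · intro j
    simp only [hH, hH']
    split_ifs
    · exact hδ _
    · simpa using hδ0

/-- The free uniform spanning forest as a law on configurations of edges, with its Lipschitz
bound. -/
theorem exists_fusf (G : SimpleGraph ℕ) (S : ℕ → Finset ℕ) (hmono : Monotone S)
    (hex : ∀ v : ℕ, ∃ n, v ∈ S n) (hconn : ∀ n, (G.induce (S n : Set ℕ)).Connected) :
    ∃ ν : Measure (G.edgeSet → Bool), IsProbabilityMeasure ν ∧
      (∀ T : Finset G.edgeSet,
        incl ν T = fusfIncl G (T.map (Function.Embedding.subtype (· ∈ G.edgeSet)))) ∧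
      LipTilt (incl ν) 100 := by
  haveI : ∀ n, IsProbabilityMeasure (fusfLaw G (S n)) := fun n => fusf_law_prob G (S n) (hconn n)
  have hlim : ∀ T : Finset G.edgeSet, Tendsto
      (fun n => ustContains G (S n) (T.map (Function.Embedding.subtype (· ∈ G.edgeSet)))) atTop
      (𝓝 (fusfIncl G (T.map (Function.Embedding.subtype (· ∈ G.edgeSet))))) := by
    intro T
    refine ust_tendsto G S hmono hex hconn _ ?_
    intro e he
    obtain ⟨j, _, rfl⟩ := Finset.mem_map.1 (Finset.mem_coe.1 he)
    exact j.2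
  obtain ⟨ν, hν, hT⟩ := exists_measure_of_tendsto_incl (fun n => fusfLaw G (S n))
    (fun T => fusfIncl G (T.map (Function.Embedding.subtype (· ∈ G.edgeSet))))
    (fun T => by simpa only [fusf_incl] using hlim T)
  refine ⟨ν, hν, hT, ?_⟩
  exact lipTilt_of_tendsto ν
    (fun n T => ustContains G (S n) (T.map (Function.Embedding.subtype (· ∈ G.edgeSet)))) 100
    (fun n => fusf_lip G (S n) (hconn n)) (fun T => by rw [hT]; exact hlim T)

end Crest.Agent.R168
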