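import Crest.Agent.R168.Trees

set_option autoImplicit false

namespace Crest.Agent.R168

open MeasureTheory ProbabilityTheory Filter Topology

open Crest.ProbabilityR.SpanningTrees

theorem ge_edgesIn_map (σ : Equiv.Perm ℕ) (G : SimpleGraph ℕ) (S : Finset ℕ) :
    edgesIn G (S.map σ.toEmbedding) = (edgesIn (G.comap σ) S).map σ.toEmbedding.sym2Map := by
  ext e
  induction e using Sym2.ind with
  | _ u v =>
    obtain ⟨u, rfl⟩ := σ.surjective u
    obtain ⟨v, rfl⟩ := σ.surjective v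
    have h1 : s(σ u, σ v) = σ.toEmbedding.sym2Map s(u, v) := rfl
    rw [mem_edgesIn, h1, Finset.mem_map', mem_edgesIn]
    simp

theorem ge_conn_map (σ : Equiv.Perm ℕ) (S : Finset ℕ) (A : Finset (Sym2 ℕ)) :
    Conn (S.map σ.toEmbedding) (A.map σ.toEmbedding.sym2Map) ↔ Conn S A := by
  have hmem : ∀ u v, s(σ u, σ v) ∈ A.map σ.toEmbedding.sym2Map ↔ s(u, v) ∈ A := fun u v => by
    have h1 : s(σ u, σ v) = σ.toEmbedding.sym2Map s(u, v) := rfl
    rw [h1, Finset.mem_map']
  constructor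
  · intro h φ hφ u hu v hv
    have := h (fun w => φ (σ.symm w)) (fun a b hab => by
      obtain ⟨a, rfl⟩ := σ.surjective a
      obtain ⟨b, rfl⟩ := σ.surjective b
      simpa using hφ a b ((hmem a b).1 hab)) (σ u) (Finset.mem_map_of_mem _ hu) (σ v)
      (Finset.mem_map_of_mem _ hv)
    simpa using this
  · intro h φ hφ u hu v hv
    obtain ⟨u, hu', rfl⟩ := Finset.mem_map.1 hu
    obtain ⟨v, hv', rfl⟩ := Finset.mem_map.1 hv
    exact h (fun w => φ (σ w)) (fun a b hab => hφ _ _ ((hmem a b).2 hab)) u hu' v hv'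

theorem ge_tree_map (σ : Equiv.Perm ℕ) (G : SimpleGraph ℕ) (S : Finset ℕ) (A : Finset (Sym2 ℕ)) :
    IsSpanningTreeOn G (S.map σ.toEmbedding) (A.map σ.toEmbedding.sym2Map) ↔
      IsSpanningTreeOn (G.comap σ) S A := by
  rw [isSpanningTreeOn_iff, isSpanningTreeOn_iff, ge_edgesIn_map, ge_conn_map,
    Finset.map_subset_map, Finset.card_map, Finset.card_map]

theorem ge_connected_map (σ : Equiv.Perm ℕ) (G : SimpleGraph ℕ) (S : Finset ℕ) :
    (G.induce ((S.map σ.toEmbedding : Finset ℕ) : Set ℕ)).Connected ↔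
      ((G.comap σ).induce (S : Set ℕ)).Connected := by
  rw [induce_connected_iff, induce_connected_iff, ge_edgesIn_map, ge_conn_map, Finset.map_nonempty]

theorem ge_card_filter {α : Type*} (ι : α ↪ α) (E : Finset α) (P Q : Finset α → Prop)
    {_ : DecidablePred P} {_ : DecidablePred Q} (h : ∀ A, P (A.map ι) ↔ Q A) :
    ((E.map ι).powerset.filter P).card = (E.powerset.filter Q).card := by
  symm
  refine Finset.card_bij (fun A _ => A.map ι) (fun A hA => ?_) (fun A _ B _ hAB => ?_)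
    (fun B hB => ?_)
  · rw [Finset.mem_filter, Finset.mem_powerset] at hA ⊢
    exact ⟨Finset.map_subset_map.2 hA.1, (h A).2 hA.2⟩
  · exact Finset.map_injective ι hAB
  · rw [Finset.mem_filter, Finset.mem_powerset] at hB
    obtain ⟨A, hA, rfl⟩ := Finset.subset_map_iff.1 hB.1
    exact ⟨A, Finset.mem_filter.2 ⟨Finset.mem_powerset.2 hA, (h A).1 hB.2⟩, rfl⟩

theorem ge_ust_map (σ : Equiv.Perm ℕ) (G : SimpleGraph ℕ) (S : Finset ℕ) (T : Finset (Sym2 ℕ)) :
    ustContains G (S.map σ.toEmbedding) (T.map σ.toEmbedding.sym2Map) =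
      ustContains (G.comap σ) S T := by
  unfold ustContains
  rw [ge_edgesIn_map]
  congr 2
  · exact ge_card_filter _ _ _ _ fun A => by rw [ge_tree_map, Finset.map_subset_map]
  · exact ge_card_filter _ _ _ _ fun A => ge_tree_map σ G S A

theorem fusfIncl_comap (σ : Equiv.Perm ℕ) (G : SimpleGraph ℕ) (T : Finset (Sym2 ℕ)) :
    fusfIncl (G.comap σ) T = fusfIncl G (T.map σ.toEmbedding.sym2Map) := by
  unfold fusfIncl
  refine Equiv.iInf_congr (Equiv.finsetCongr σ) fun S => ?_
  rw [Equiv.finsetCongr_apply, ge_ust_map]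
  refine @if_congr _ _ _ (_) (_) _ _ _ _ ?_ rfl rfl
  rw [ge_connected_map, ge_edgesIn_map, Finset.map_subset_map]

theorem ge_ballSet_comap (σ : Equiv.Perm ℕ) (G : SimpleGraph ℕ) (e : Sym2 ℕ) (n : ℕ) :
    ballSet G (Sym2.map σ e) n = σ '' ballSet (G.comap σ) e n := by
  induction n with
  | zero =>
    ext w
    simp only [ballSet, Sym2.mem_map, Set.mem_ofPred_eq, Set.mem_image]
  | succ n ih =>
    ext w
    obtain ⟨w, rfl⟩ := σ.surjective w
    simp only [ballSet, ih, Set.mem_union, Set.mem_ofPred_eq, σ.injective.mem_set_image,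
      SimpleGraph.comap_adj]
    refine or_congr Iff.rfl ⟨?_, ?_⟩
    · rintro ⟨_, ⟨u, hu, rfl⟩, h⟩
      exact ⟨u, hu, h⟩
    · rintro ⟨u, hu, h⟩
      exact ⟨σ u, ⟨u, hu, rfl⟩, h⟩

theorem window_comap (σ : Equiv.Perm ℕ) (G : SimpleGraph ℕ) (e : Sym2 ℕ) (n : ℕ) :
    window G (Sym2.map σ e) n = (window (G.comap σ) e n).map σ.toEmbedding.sym2Map := by
  unfold window
  by_cases h : (ballSet (G.comap σ) e n).Finite
  · have h' : (ballSet G (Sym2.map σ e) n).Finite := by rw [ge_ballSet_comap]; exact h.image _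
    rw [dif_pos h, dif_pos h', ← ge_edgesIn_map]
    congr 1
    ext w
    rw [Set.Finite.mem_toFinset, ge_ballSet_comap, Finset.mem_map]
    simp only [Set.mem_image, Set.Finite.mem_toFinset, Equiv.coe_toEmbedding]
  · have h' : ¬ (ballSet G (Sym2.map σ e) n).Finite := by
      rw [ge_ballSet_comap]
      exact fun h2 => h (h2.of_finite_image σ.injective.injOn)
    rw [dif_neg h, dif_neg h', Finset.map_empty]

theorem ge_nbRank_comap (σ : Equiv.Perm ℕ) (G : SimpleGraph ℕ) (t : ℕ → ℝ) (v u : ℕ) :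
    nbRank (G.comap σ) (t ∘ σ) v u = nbRank G t (σ v) (σ u) := by
  unfold nbRank
  rw [← Set.ncard_image_of_injective _ σ.injective]
  congr 1
  ext w
  obtain ⟨w, rfl⟩ := σ.surjective w
  rw [σ.injective.mem_set_image]
  rfl

theorem edgeNoise_comap (σ : Equiv.Perm ℕ) (G : SimpleGraph ℕ) (t : ℕ → ℝ) (ξ : ℕ → ℕ → ℝ) :
    edgeNoise (G.comap σ) (t ∘ σ) (ξ ∘ σ) = edgeNoise G t ξ ∘ Sym2.map σ := by
  funext e
  induction e using Sym2.ind with
  | _ u v =>
    simp only [edgeNoise, Sym2.lift_mk, Function.comp_apply, Sym2.map_mk, ge_nbRank_comap]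

theorem ge_edgesIn_subset (G : SimpleGraph ℕ) (S : Finset ℕ) :
    (↑(edgesIn G S) : Set (Sym2 ℕ)) ⊆ G.edgeSet := by
  intro e he
  induction e using Sym2.ind with
  | _ u v => exact ((mem_edgesIn G S u v).1 he).1

theorem window_subset (G : SimpleGraph ℕ) (e : Sym2 ℕ) (n : ℕ) :
    (↑(window G e n) : Set (Sym2 ℕ)) ⊆ G.edgeSet := by
  unfold window
  split_ifs
  · exact ge_edgesIn_subset G _
  · simp

theorem ge_ballSet_finite (G : SimpleGraph ℕ) (hfin : ∀ v : ℕ, (G.neighborSet v).Finite)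
    (e : Sym2 ℕ) (n : ℕ) : (ballSet G e n).Finite := by
  induction n with
  | zero =>
    induction e using Sym2.ind with
    | _ u v =>
      refine (Set.toFinite {u, v}).subset fun w hw => ?_
      simpa [ballSet] using hw
  | succ n ih =>
    refine ih.union ((ih.biUnion fun u _ => hfin u).subset fun w hw => ?_)
    obtain ⟨u, hu, h⟩ := hw
    exact Set.mem_biUnion hu h

theorem ge_ballSet_mono (G : SimpleGraph ℕ) (e : Sym2 ℕ) : Monotone (ballSet G e) :=
  monotone_nat_of_le_succ fun _ => Set.subset_union_left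

theorem window_mono (G : SimpleGraph ℕ) (hfin : ∀ v : ℕ, (G.neighborSet v).Finite) (e : Sym2 ℕ) :
    Monotone (window G e) := by
  intro m n hmn
  unfold window
  rw [dif_pos (ge_ballSet_finite G hfin e m), dif_pos (ge_ballSet_finite G hfin e n)]
  exact edgesIn_mono G (Set.Finite.toFinset_subset_toFinset.2 (ge_ballSet_mono G e hmn))

theorem ge_ballSet_exhaust (G : SimpleGraph ℕ) (hG : G.Connected) (e : Sym2 ℕ) (w : ℕ) :
    ∃ n, w ∈ ballSet G e n := by
  have h1 : ∀ {u v : ℕ} (_ : G.Walk u v), (∃ n, u ∈ ballSet G e n) → ∃ n, v ∈ ballSet G e n := by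
    intro u v p
    induction p with
    | nil => exact id
    | cons h _ ih =>
      rintro ⟨n, hn⟩
      exact ih ⟨n + 1, Or.inr ⟨_, hn, h⟩⟩
  induction e using Sym2.ind with
  | _ u v =>
    obtain ⟨p⟩ := hG.preconnected u w
    exact h1 p ⟨0, by simp [ballSet]⟩

theorem window_exhaust (G : SimpleGraph ℕ) (hG : G.Connected)
    (hfin : ∀ v : ℕ, (G.neighborSet v).Finite) (e e' : Sym2 ℕ) (he' : e' ∈ G.edgeSet) :
    ∃ n, e' ∈ window G e n := by
  induction e' using Sym2.ind with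
  | _ u v =>
    obtain ⟨m, hm⟩ := ge_ballSet_exhaust G hG e u
    obtain ⟨n, hn⟩ := ge_ballSet_exhaust G hG e v
    refine ⟨max m n, ?_⟩
    unfold window
    rw [dif_pos (ge_ballSet_finite G hfin e _), mem_edgesIn]
    exact ⟨he', (Set.Finite.mem_toFinset _).2 (ge_ballSet_mono G e (le_max_left _ _) hm),
      (Set.Finite.mem_toFinset _).2 (ge_ballSet_mono G e (le_max_right _ _) hn)⟩

end Crest.Agent.R168
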