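import Crest.Agent.R168.GraphEquiv

set_option autoImplicit false

namespace Crest.Agent.R168

open MeasureTheory ProbabilityTheory Filter Topology

open Crest.ProbabilityR.SpanningTrees Crest.ProbabilityR.GraphTables

theorem gm_adj (u v : ℕ) : Measurable fun A : ℕ → ℕ → Bool => (graphOfTable A).Adj u v := by
  have h1 : ∀ i j : ℕ, Measurable fun A : ℕ → ℕ → Bool => A i j = true := fun i j =>
    (measurable_of_countable (fun b : Bool => b = true)).comp
      ((measurable_pi_apply j).comp (measurable_pi_apply i))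
  simp only [graphOfTable, SimpleGraph.fromRel_adj]
  exact Measurable.and measurable_const ((h1 u v).or (h1 v u))

theorem gm_edgesIn_eq (S : Finset ℕ) (W : Finset (Sym2 ℕ)) :
    MeasurableSet {A : ℕ → ℕ → Bool | edgesIn (graphOfTable A) S = W} := by
  have : {A : ℕ → ℕ → Bool | edgesIn (graphOfTable A) S = W} =
      {A | ∀ u v : ℕ, ((graphOfTable A).Adj u v ∧ u ∈ S ∧ v ∈ S) ↔ s(u, v) ∈ W} := by
    ext A
    simp only [Set.mem_ofPred_eq]
    constructor
    · rintro rfl u v
      exact (mem_edgesIn _ _ _ _).symm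
    · intro h
      ext e
      induction e using Sym2.ind with
      | _ u v => rw [mem_edgesIn, h]
  rw [this]
  refine measurableSet_setOfPred.2 (Measurable.forall fun u => Measurable.forall fun v => ?_)
  exact Measurable.iff ((gm_adj u v).and measurable_const) measurable_const

theorem gm_of_edgesIn {β : Type*} [MeasurableSpace β] (S : Finset ℕ) (f : SimpleGraph ℕ → β)
    (hf : ∀ G G', edgesIn G S = edgesIn G' S → f G = f G') :
    Measurable fun A : ℕ → ℕ → Bool => f (graphOfTable A) := by
  classical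
  let _ : MeasurableSpace (Finset (Sym2 ℕ)) := ⊤
  have : DiscreteMeasurableSpace (Finset (Sym2 ℕ)) := ⟨fun _ => trivial⟩
  have h1 : Measurable fun A : ℕ → ℕ → Bool => edgesIn (graphOfTable A) S :=
    measurable_to_countable' fun W => gm_edgesIn_eq S W
  set g : Finset (Sym2 ℕ) → β := fun W =>
    if h : ∃ G, edgesIn G S = W then f h.choose else f ⊥ with hg
  have h2 : (fun A : ℕ → ℕ → Bool => f (graphOfTable A)) =
      g ∘ fun A : ℕ → ℕ → Bool => edgesIn (graphOfTable A) S := by
    funext A
    have h : ∃ G, edgesIn G S = edgesIn (graphOfTable A) S := ⟨_, rfl⟩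
    simp only [hg, Function.comp_apply, dif_pos h]
    exact hf _ _ h.choose_spec.symm
  rw [h2]
  exact (Measurable.of_discrete).comp h1

theorem measurable_fusfIncl (T : Finset (Sym2 ℕ)) :
    Measurable fun A : ℕ → ℕ → Bool => fusfIncl (graphOfTable A) T := by
  unfold fusfIncl
  refine Measurable.iInf fun S => ?_
  refine gm_of_edgesIn S (fun G => open Classical in
    if (G.induce (S : Set ℕ)).Connected ∧ T ⊆ edgesIn G S then ustContains G S T else 1)
    fun G G' h => ?_
  refine @if_congr _ _ _ (_) (_) _ _ _ _ ?_ ?_ rfl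
  · rw [induce_connected_iff, induce_connected_iff, h]
  · have h2 : IsSpanningTreeOn G S = IsSpanningTreeOn G' S := by
      funext A
      simp only [IsSpanningTreeOn, h]
    unfold ustContains
    rw [h, h2]

theorem gm_ballSet (e : Sym2 ℕ) (n : ℕ) :
    ∀ w, Measurable fun A : ℕ → ℕ → Bool => w ∈ ballSet (graphOfTable A) e n := by
  induction n with
  | zero => intro w; exact measurable_const
  | succ n ih =>
    intro w
    simp only [ballSet, Set.mem_union, Set.mem_ofPred_eq]
    exact (ih w).or (Measurable.exists fun u => (ih u).and (gm_adj u w))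

theorem gm_ballSet_eq (e : Sym2 ℕ) (n : ℕ) (B : Finset ℕ) :
    MeasurableSet {A : ℕ → ℕ → Bool | ballSet (graphOfTable A) e n = (B : Set ℕ)} := by
  simp only [Set.ext_iff]
  exact measurableSet_setOfPred.2 (Measurable.forall fun w =>
    Measurable.iff (gm_ballSet e n w) measurable_const)

theorem measurableSet_window_eq (e : Sym2 ℕ) (n : ℕ) (W : Finset (Sym2 ℕ)) :
    MeasurableSet {A : ℕ → ℕ → Bool | window (graphOfTable A) e n = W} := by
  have : {A : ℕ → ℕ → Bool | window (graphOfTable A) e n = W} =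
      {A | (∃ B : Finset ℕ, ballSet (graphOfTable A) e n = (B : Set ℕ) ∧
        edgesIn (graphOfTable A) B = W) ∨
        ((¬ ∃ B : Finset ℕ, ballSet (graphOfTable A) e n = (B : Set ℕ)) ∧ ∅ = W)} := by
    ext A
    simp only [Set.mem_ofPred_eq, window]
    by_cases h : (ballSet (graphOfTable A) e n).Finite
    · rw [dif_pos h]
      constructor
      · intro h2
        exact Or.inl ⟨h.toFinset, by simp, h2⟩
      · rintro (⟨B, hB, h2⟩ | ⟨h2, -⟩)
        · rw [← h2]
          congr 1
          ext w
          simp [hB]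
        · exact absurd ⟨h.toFinset, by simp⟩ h2
    · rw [dif_neg h]
      constructor
      · intro h2
        exact Or.inr ⟨fun ⟨B, hB⟩ => h (hB ▸ B.finite_toSet), h2⟩
      · rintro (⟨B, hB, -⟩ | ⟨-, h2⟩)
        · exact absurd (hB ▸ B.finite_toSet) h
        · exact h2
  rw [this]
  refine measurableSet_setOfPred.2 (Measurable.or (Measurable.exists fun B => ?_)
    (Measurable.and (Measurable.not (Measurable.exists fun B => ?_)) measurable_const))
  · exact (measurableSet_setOfPred.1 (gm_ballSet_eq e n B)).and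
      (measurableSet_setOfPred.1 (gm_edgesIn_eq B W))
  · exact measurableSet_setOfPred.1 (gm_ballSet_eq e n B)

theorem gm_term (u v : ℕ) :
    Measurable fun p : (ℕ → ℕ → Bool) × (ℕ → ℝ) × (ℕ → ℕ → ℝ) =>
      if p.2.1 u < p.2.1 v then p.2.2 v (nbRank (graphOfTable p.1) p.2.1 v u) else 0 := by
  have h1 : Measurable fun p : (ℕ → ℕ → Bool) × (ℕ → ℝ) × (ℕ → ℕ → ℝ) =>
      nbRank (graphOfTable p.1) p.2.1 v u := by
    unfold nbRank
    refine measurable_ncard.comp (measurable_set_iff.2 fun w => ?_)
    have h0 : Measurable fun p : (ℕ → ℕ → Bool) × (ℕ → ℝ) × (ℕ → ℕ → ℝ) =>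
        (graphOfTable p.1).Adj v w := by
      have := (gm_adj v w).comp
        (measurable_fst : Measurable fun p : (ℕ → ℕ → Bool) × (ℕ → ℝ) × (ℕ → ℕ → ℝ) => p.1)
      simpa only [Function.comp_def] using this
    exact Measurable.and h0
      (measurableSet_setOfPred.1 (measurableSet_lt (by fun_prop) (by fun_prop)))
  have h2 : Measurable fun r : ((ℕ → ℕ → Bool) × (ℕ → ℝ) × (ℕ → ℕ → ℝ)) × ℕ => r.1.2.2 v r.2 :=
    measurable_from_prod_countable_left fun k => by
      change Measurable fun p : (ℕ → ℕ → Bool) × (ℕ → ℝ) × (ℕ → ℕ → ℝ) => p.2.2 v k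
      fun_prop
  have h3 := h2.comp (measurable_id.prodMk h1)
  exact Measurable.ite (measurableSet_lt (by fun_prop) (by fun_prop)) h3 measurable_const

theorem measurable_edgeNoise (e : Sym2 ℕ) :
    Measurable fun p : (ℕ → ℕ → Bool) × (ℕ → ℝ) × (ℕ → ℕ → ℝ) =>
      edgeNoise (graphOfTable p.1) p.2.1 p.2.2 e := by
  induction e using Sym2.ind with
  | _ u v =>
    simp only [edgeNoise, Sym2.lift_mk]
    exact (gm_term u v).add (gm_term v u)

end Crest.Agent.R168
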