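import Crest.Agent.R168.Tilt

set_option autoImplicit false

namespace Crest.Agent.R168

open MeasureTheory ProbabilityTheory Filter Topology

variable {V : Type*}

theorem onestep_compProd_comap_map {α β γ : Type*} [MeasurableSpace α] [MeasurableSpace β]
    [MeasurableSpace γ] (ρ : Measure α) [IsFiniteMeasure ρ] (g : α → β) (hg : Measurable g)
    (κ : Kernel β γ) [IsMarkovKernel κ] :
    (ρ ⊗ₘ κ.comap g hg).map (Prod.map g id) = (ρ.map g) ⊗ₘ κ := by
  ext s hs
  have hm : Measurable (Prod.map g (id : γ → γ)) := hg.prodMap measurable_id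
  rw [Measure.map_apply hm hs, Measure.compProd_apply (hm hs), Measure.compProd_apply hs,
    lintegral_map (Kernel.measurable_kernel_prodMk_left hs) hg]
  rfl

theorem onestep_abs_chi_sub {β : ℝ} (h0 : 0 ≤ β) (h1 : β ≤ 1) (x : Bool) : |chi x - β| ≤ 1 := by
  have := chi_nonneg x
  have := chi_le_one x
  rw [abs_le]; constructor <;> linarith

/-- The posterior-resampling chain: state = (start, current point, martingale part). -/
theorem onestep_chain [Countable V] (μ : ℝ → Measure (V → ℝ)) [∀ s, IsProbabilityMeasure (μ s)]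
    (b : ℝ → (V → ℝ) → V → ℝ) (K : ℝ)
    (hκ : ∀ s, ∃ κ : Kernel (V → ℝ) (V → Bool), IsMarkovKernel κ ∧
      (∀ h : ℝ, (μ s ⊗ₘ κ).map (fun p j => p.1 j + h * chi (p.2 j)) = μ (s + h)) ∧
      ∀ i, ∀ᵐ y ∂(μ s), ∫ x, chi (x i) ∂(κ y) = b s y i)
    (hmeas : ∀ s i, Measurable fun y => b s y i)
    (h0 : ∀ s y i, 0 ≤ b s y i) (h1 : ∀ s y i, b s y i ≤ 1)
    (hlip : ∀ (s s' : ℝ) (y y' : V → ℝ) (δ : ℝ) (i : V), |s - s'| ≤ δ → (∀ j, |y j - y' j| ≤ δ) →
      |b s y i - b s' y' i| ≤ K * δ)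
    (s h τ : ℝ) (hh : 0 < h) (l : ℕ) (hl : (l : ℝ) * h ≤ τ) :
    ∃ ρ : Measure ((V → ℝ) × (V → ℝ) × (V → ℝ)), IsProbabilityMeasure ρ ∧
      ρ.map (fun p => p.1) = μ s ∧ ρ.map (fun p => p.2.1) = μ (s + l * h) ∧
      (∀ᵐ p ∂ρ, ∀ j, |p.2.1 j - p.1 j| ≤ l * h ∧ |p.2.2 j| ≤ l * h ∧
        |p.2.1 j - p.1 j - p.2.2 j - l * h * b s p.1 j| ≤ l * h * (K * τ)) ∧
      ∀ i, ∫ p, (p.2.2 i) ^ 2 ∂ρ ≤ l * h ^ 2 := by
  induction l with
  | zero =>
    have hm : Measurable fun y : V → ℝ => ((y, y, 0) : (V → ℝ) × (V → ℝ) × (V → ℝ)) := by fun_prop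
    refine ⟨(μ s).map fun y => (y, y, 0), Measure.isProbabilityMeasure_map hm.aemeasurable,
      ?_, ?_, ?_, ?_⟩
    · rw [Measure.map_map measurable_fst hm]; exact Measure.map_id
    · rw [Measure.map_map (by fun_prop) hm]
      simp only [Nat.cast_zero, zero_mul, add_zero]; exact Measure.map_id
    · rw [ae_map_iff hm.aemeasurable]
      · exact Eventually.of_forall fun y j => by simp
      · refine measurableSet_setOfPred.2 (Measurable.forall fun j => ?_)
        have := hmeas s j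
        refine Measurable.and ?_ (Measurable.and ?_ ?_) <;>
          exact measurableSet_setOfPred.1 (measurableSet_le (by fun_prop) (by fun_prop))
    · intro i
      rw [integral_map hm.aemeasurable (by fun_prop)]
      simp
  | succ l ih =>
    have hl' : (l : ℝ) * h ≤ τ := by push_cast at hl; nlinarith
    obtain ⟨ρ, hρ, hfst, hsnd, hinv, hmom⟩ := ih hl'
    obtain ⟨κ, hκM, hκ1, hκ2⟩ := hκ (s + l * h)
    have hg : Measurable fun p : (V → ℝ) × (V → ℝ) × (V → ℝ) => p.2.1 := by fun_prop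
    set κ' : Kernel ((V → ℝ) × (V → ℝ) × (V → ℝ)) (V → Bool) := κ.comap _ hg with hκ'
    set upd : ((V → ℝ) × (V → ℝ) × (V → ℝ)) × (V → Bool) → (V → ℝ) × (V → ℝ) × (V → ℝ) :=
      fun q => (q.1.1, fun j => q.1.2.1 j + h * chi (q.2 j),
        fun j => q.1.2.2 j + h * (chi (q.2 j) - b (s + l * h) q.1.2.1 j)) with hupd
    have hchi : ∀ j, Measurable fun x : V → Bool => chi (x j) := fun j =>
      measurable_chi.comp (measurable_pi_apply j)
    have hum : Measurable upd := by
      refine Measurable.prodMk (by fun_prop) (Measurable.prodMk ?_ ?_)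
      · refine measurable_pi_lambda _ fun j => ?_
        have := hchi j
        fun_prop
      · refine measurable_pi_lambda _ fun j => ?_
        have h2 := hchi j
        have h3 := hmeas (s + l * h) j
        fun_prop
    have hinv' : ∀ᵐ q ∂(ρ ⊗ₘ κ'), ∀ j, |q.1.2.1 j - q.1.1 j| ≤ l * h ∧ |q.1.2.2 j| ≤ l * h ∧
        |q.1.2.1 j - q.1.1 j - q.1.2.2 j - l * h * b s q.1.1 j| ≤ l * h * (K * τ) := by
      have : ∀ᵐ p ∂((ρ ⊗ₘ κ').map Prod.fst), ∀ j, |p.2.1 j - p.1 j| ≤ l * h ∧ |p.2.2 j| ≤ l * h ∧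
          |p.2.1 j - p.1 j - p.2.2 j - l * h * b s p.1 j| ≤ l * h * (K * τ) := by
        rw [← Measure.fst, Measure.fst_compProd]; exact hinv
      exact ae_of_ae_map measurable_fst.aemeasurable this
    refine ⟨(ρ ⊗ₘ κ').map upd, Measure.isProbabilityMeasure_map hum.aemeasurable, ?_, ?_, ?_, ?_⟩
    · rw [Measure.map_map measurable_fst hum, ← hfst]
      have : (Prod.fst ∘ upd) = (fun p : (V → ℝ) × (V → ℝ) × (V → ℝ) => p.1) ∘ Prod.fst := rfl
      have h2 : (ρ ⊗ₘ κ').map Prod.fst = ρ := Measure.fst_compProd ρ κ'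
      rw [this, ← Measure.map_map measurable_fst measurable_fst, h2]
    · rw [Measure.map_map hg hum]
      have hs : Measurable fun (p : (V → ℝ) × (V → Bool)) (j : V) => p.1 j + h * chi (p.2 j) := by
        refine measurable_pi_lambda _ fun j => ?_
        have := hchi j
        fun_prop
      have : ((fun p : (V → ℝ) × (V → ℝ) × (V → ℝ) => p.2.1) ∘ upd) =
          (fun (p : (V → ℝ) × (V → Bool)) (j : V) => p.1 j + h * chi (p.2 j)) ∘
            Prod.map (fun p : (V → ℝ) × (V → ℝ) × (V → ℝ) => p.2.1) id := rfl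
      rw [this, ← Measure.map_map hs (hg.prodMap measurable_id), hκ',
        onestep_compProd_comap_map, hsnd, hκ1]
      congr 1; push_cast; ring
    · rw [ae_map_iff hum.aemeasurable]
      · filter_upwards [hinv'] with q hq j
        obtain ⟨ha, hb, hc⟩ := hq j
        have hc0 := chi_nonneg (q.2 j)
        have hc1 := chi_le_one (q.2 j)
        have hd := onestep_abs_chi_sub (h0 (s + l * h) q.1.2.1 j) (h1 (s + l * h) q.1.2.1 j) (q.2 j)
        have hlh : 0 ≤ (l : ℝ) * h := by positivity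
        have he : |b (s + l * h) q.1.2.1 j - b s q.1.1 j| ≤ K * τ :=
          hlip _ _ _ _ τ j (by rw [add_sub_cancel_left, abs_of_nonneg hlh]; exact hl')
            (fun j' => (hq j').1.trans hl')
        simp only [hupd]
        push_cast
        rw [abs_le] at ha hb hc hd he
        refine ⟨?_, ?_, ?_⟩ <;> rw [abs_le] <;> constructor <;> nlinarith
      · refine measurableSet_setOfPred.2 (Measurable.forall fun j => ?_)
        have := hmeas s j
        refine Measurable.and ?_ (Measurable.and ?_ ?_) <;>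
          exact measurableSet_setOfPred.1 (measurableSet_le (by fun_prop) (by fun_prop))
    · intro i
      rw [integral_map hum.aemeasurable (by fun_prop)]
      have hb := hmeas (s + l * h) i
      have hci := hchi i
      -- integrability of the pieces
      have hI1 : Integrable (fun q : ((V → ℝ) × (V → ℝ) × (V → ℝ)) × (V → Bool) =>
          (q.1.2.2 i) ^ 2) (ρ ⊗ₘ κ') := by
        refine Integrable.of_bound (by fun_prop) ((l * h) ^ 2) ?_
        filter_upwards [hinv'] with q hq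
        rw [Real.norm_eq_abs, abs_pow]
        exact pow_le_pow_left₀ (abs_nonneg _) (hq i).2.1 2
      have hI2 : Integrable (fun q : ((V → ℝ) × (V → ℝ) × (V → ℝ)) × (V → Bool) =>
          q.1.2.2 i * (chi (q.2 i) - b (s + l * h) q.1.2.1 i)) (ρ ⊗ₘ κ') := by
        refine Integrable.of_bound (Measurable.aestronglyMeasurable (by fun_prop)) (l * h) ?_
        filter_upwards [hinv'] with q hq
        rw [Real.norm_eq_abs, abs_mul]
        have hd := onestep_abs_chi_sub (h0 (s + l * h) q.1.2.1 i) (h1 (s + l * h) q.1.2.1 i) (q.2 i)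
        calc _ ≤ (l * h) * 1 := mul_le_mul (hq i).2.1 hd (abs_nonneg _) (by positivity)
          _ = _ := mul_one _
      have hcross : ∫ q, q.1.2.2 i * (chi (q.2 i) - b (s + l * h) q.1.2.1 i) ∂(ρ ⊗ₘ κ') = 0 := by
        rw [Measure.integral_compProd hI2]
        have hae : ∀ᵐ p ∂ρ, ∫ x, chi (x i) ∂(κ p.2.1) = b (s + l * h) p.2.1 i := by
          have := hκ2 i
          rw [← hsnd] at this
          exact ae_of_ae_map hg.aemeasurable this
        rw [← integral_zero _ ℝ (μ := ρ)]
        refine integral_congr_ae ?_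
        filter_upwards [hae] with p hp
        have hint : Integrable (fun x : V → Bool => chi (x i)) (κ p.2.1) :=
          Integrable.of_bound hci.aestronglyMeasurable 1 (Eventually.of_forall fun x => by
            rw [Real.norm_eq_abs, abs_of_nonneg (chi_nonneg _)]; exact chi_le_one _)
        simp only [hκ', Kernel.comap_apply]
        rw [integral_const_mul, integral_sub hint (integrable_const _), hp]
        simp
      have hsq : ∫ q, (q.1.2.2 i) ^ 2 ∂(ρ ⊗ₘ κ') = ∫ p, (p.2.2 i) ^ 2 ∂ρ := by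
        conv_rhs => rw [← Measure.fst_compProd ρ κ', Measure.fst]
        rw [integral_map measurable_fst.aemeasurable (by fun_prop)]
      calc ∫ q, ((upd q).2.2 i) ^ 2 ∂(ρ ⊗ₘ κ')
          ≤ ∫ q, ((q.1.2.2 i) ^ 2 +
            2 * h * (q.1.2.2 i * (chi (q.2 i) - b (s + l * h) q.1.2.1 i)) + h ^ 2) ∂(ρ ⊗ₘ κ') := by
            refine integral_mono_of_nonneg (Eventually.of_forall fun q => sq_nonneg _)
              ((hI1.add (hI2.const_mul _)).add (integrable_const _))
              (Eventually.of_forall fun q => ?_)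
            have hd := onestep_abs_chi_sub (h0 (s + l * h) q.1.2.1 i) (h1 (s + l * h) q.1.2.1 i)
              (q.2 i)
            have hd2 : (chi (q.2 i) - b (s + l * h) q.1.2.1 i) ^ 2 ≤ 1 := by
              rw [← sq_abs]; nlinarith [abs_nonneg (chi (q.2 i) - b (s + l * h) q.1.2.1 i)]
            simp only [hupd]
            nlinarith [mul_le_mul_of_nonneg_left hd2 (sq_nonneg h)]
        _ = ∫ p, (p.2.2 i) ^ 2 ∂ρ + h ^ 2 := by
            rw [integral_add (hI1.fun_add (hI2.const_mul _)) (integrable_const _),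
              integral_add hI1 (hI2.const_mul _), integral_const_mul, hcross, hsq]
            simp
        _ ≤ _ := by push_cast; nlinarith [hmom i]

/-- Approximate couplings from the chain with `N + 1` substeps. -/
theorem onestep_approx [Countable V] (μ : ℝ → Measure (V → ℝ)) [∀ s, IsProbabilityMeasure (μ s)]
    (b : ℝ → (V → ℝ) → V → ℝ) (K : ℝ)
    (hκ : ∀ s, ∃ κ : Kernel (V → ℝ) (V → Bool), IsMarkovKernel κ ∧
      (∀ h : ℝ, (μ s ⊗ₘ κ).map (fun p j => p.1 j + h * chi (p.2 j)) = μ (s + h)) ∧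
      ∀ i, ∀ᵐ y ∂(μ s), ∫ x, chi (x i) ∂(κ y) = b s y i)
    (hmeas : ∀ s i, Measurable fun y => b s y i)
    (h0 : ∀ s y i, 0 ≤ b s y i) (h1 : ∀ s y i, b s y i ≤ 1)
    (hlip : ∀ (s s' : ℝ) (y y' : V → ℝ) (δ : ℝ) (i : V), |s - s'| ≤ δ → (∀ j, |y j - y' j| ≤ δ) →
      |b s y i - b s' y' i| ≤ K * δ)
    (s τ : ℝ) (hτ : 0 < τ) (N : ℕ) :
    ∃ π : Measure ((V → ℝ) × (V → ℝ)), IsProbabilityMeasure π ∧
      π.map Prod.fst = μ s ∧ π.map Prod.snd = μ (s + τ) ∧
      ∀ i (ε : ℝ), 0 < ε →
        ∫ p, min 1 (max 0 (|p.2 i - p.1 i - τ * b s p.1 i| - K * τ ^ 2)) ∂π ≤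
          ε + τ ^ 2 / ((N + 1 : ℝ) * ε) := by
  have hN : (0 : ℝ) < N + 1 := by positivity
  have hNh : ((N + 1 : ℕ) : ℝ) * (τ / (N + 1)) = τ := by push_cast; field_simp
  obtain ⟨ρ, hρ, hfst, hsnd, hinv, hmom⟩ := onestep_chain μ b K hκ hmeas h0 h1 hlip s
    (τ / (N + 1)) τ (by positivity) (N + 1) hNh.le
  have hm : Measurable fun p : (V → ℝ) × (V → ℝ) × (V → ℝ) => (p.1, p.2.1) := by fun_prop
  rw [hNh] at hsnd hinv
  refine ⟨ρ.map fun p => (p.1, p.2.1), Measure.isProbabilityMeasure_map hm.aemeasurable,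
    ?_, ?_, ?_⟩
  · rw [Measure.map_map measurable_fst hm]; exact hfst
  · rw [Measure.map_map measurable_snd hm]; exact hsnd
  · intro i ε hε
    have hb := hmeas s i
    rw [integral_map hm.aemeasurable (Measurable.aestronglyMeasurable (by fun_prop))]
    have hI1 : Integrable (fun p : (V → ℝ) × (V → ℝ) × (V → ℝ) => (p.2.2 i) ^ 2) ρ := by
      refine Integrable.of_bound (by fun_prop) (τ ^ 2) ?_
      filter_upwards [hinv] with q hq
      rw [Real.norm_eq_abs, abs_pow]
      exact pow_le_pow_left₀ (abs_nonneg _) (hq i).2.1 2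
    calc _ ≤ ∫ p, (ε + (p.2.2 i) ^ 2 / ε) ∂ρ := by
          refine integral_mono_of_nonneg (Eventually.of_forall fun p => ?_)
            ((integrable_const _).add (hI1.div_const _)) ?_
          · exact le_min zero_le_one (le_max_left _ _)
          · filter_upwards [hinv] with p hp
            obtain ⟨-, -, hc⟩ := hp i
            refine (min_le_right _ _).trans (max_le (by positivity) ?_)
            have h2 : |p.2.1 i - p.1 i - τ * b s p.1 i| ≤ |p.2.2 i| + τ * (K * τ) := by
              have := abs_add_le (p.2.2 i) (p.2.1 i - p.1 i - p.2.2 i - τ * b s p.1 i)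
              rw [show p.2.2 i + (p.2.1 i - p.1 i - p.2.2 i - τ * b s p.1 i) =
                p.2.1 i - p.1 i - τ * b s p.1 i by ring] at this
              linarith
            have h3 : |p.2.2 i| ≤ ε + (p.2.2 i) ^ 2 / ε := by
              rw [← sq_abs, ← sub_le_iff_le_add', le_div_iff₀ hε]
              nlinarith [sq_nonneg (|p.2.2 i| - ε), abs_nonneg (p.2.2 i)]
            nlinarith
      _ = ε + (∫ p, (p.2.2 i) ^ 2 ∂ρ) / ε := by
          rw [integral_add (integrable_const _) (hI1.div_const _), integral_div]; simp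
      _ ≤ _ := by
          have h4 : ∫ p, (p.2.2 i) ^ 2 ∂ρ ≤ τ ^ 2 / (N + 1) := by
            refine (hmom i).trans (le_of_eq ?_)
            push_cast; field_simp
          have : (∫ p, (p.2.2 i) ^ 2 ∂ρ) / ε ≤ τ ^ 2 / (N + 1) / ε :=
            div_le_div_of_nonneg_right h4 hε.le
          rw [div_div] at this
          linarith

theorem onestep_clamp_le (a a' c : ℝ) :
    min 1 (max 0 (a - c)) ≤ min 1 (max 0 (a' - c)) + |a - a'| := by
  have h1 := le_abs_self (a - a')
  have h2 := abs_nonneg (a - a')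
  simp only [min_def, max_def]
  split_ifs <;> linarith

/-- An exact coupling of `μ s` and `μ (s + τ)` whose displacement is the Euler step up to
`K τ²` in every coordinate. -/
theorem onestep_coupling [Countable V] (μ : ℝ → Measure (V → ℝ))
    [∀ s, IsProbabilityMeasure (μ s)] (b : ℝ → (V → ℝ) → V → ℝ) (K : ℝ)
    (hκ : ∀ s, ∃ κ : Kernel (V → ℝ) (V → Bool), IsMarkovKernel κ ∧
      (∀ h : ℝ, (μ s ⊗ₘ κ).map (fun p j => p.1 j + h * chi (p.2 j)) = μ (s + h)) ∧
      ∀ i, ∀ᵐ y ∂(μ s), ∫ x, chi (x i) ∂(κ y) = b s y i)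
    (hmeas : ∀ s i, Measurable fun y => b s y i)
    (h0 : ∀ s y i, 0 ≤ b s y i) (h1 : ∀ s y i, b s y i ≤ 1)
    (hlip : ∀ (s s' : ℝ) (y y' : V → ℝ) (δ : ℝ) (i : V), |s - s'| ≤ δ → (∀ j, |y j - y' j| ≤ δ) →
      |b s y i - b s' y' i| ≤ K * δ)
    (s τ : ℝ) (hτ : 0 < τ) :
    ∃ π : Measure ((V → ℝ) × (V → ℝ)), IsProbabilityMeasure π ∧
      π.map Prod.fst = μ s ∧ π.map Prod.snd = μ (s + τ) ∧
      ∀ᵐ p ∂π, ∀ i, |p.2 i - p.1 i - τ * b s p.1 i| ≤ K * τ ^ 2 := by
  choose π hπ hfst hsnd hbd using onestep_approx μ b K hκ hmeas h0 h1 hlip s τ hτ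
  set P : ℕ → ProbabilityMeasure ((V → ℝ) × (V → ℝ)) := fun N => ⟨π N, hπ N⟩ with hP
  have htight : IsTightMeasureSet
      {((ν : ProbabilityMeasure ((V → ℝ) × (V → ℝ))) : Measure ((V → ℝ) × (V → ℝ))) |
        ν ∈ Set.range P} := by
    refine IsTightMeasureSet.prodMk ?_ ?_
    · refine (isTightMeasureSet_singleton (μ := μ s)).subset ?_
      rintro _ ⟨_, ⟨_, ⟨N, rfl⟩, rfl⟩, rfl⟩
      exact hfst N
    · refine (isTightMeasureSet_singleton (μ := μ (s + τ))).subset ?_
      rintro _ ⟨_, ⟨_, ⟨N, rfl⟩, rfl⟩, rfl⟩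
      exact hsnd N
  have hcomp := isCompact_closure_of_isTightMeasureSet htight
  set U : Ultrafilter ℕ := Ultrafilter.of atTop with hU
  have hUle : (U : Filter ℕ) ≤ atTop := Ultrafilter.of_le _
  obtain ⟨Q, -, hQ⟩ := hcomp.ultrafilter_le_nhds (U.map P)
    (le_principal_iff.2 (mem_map.2 (Eventually.of_forall fun N =>
      subset_closure (Set.mem_range_self N))))
  have hQ' : Tendsto P U (𝓝 Q) := hQ
  have hQfst : (Q : Measure ((V → ℝ) × (V → ℝ))).map Prod.fst = μ s := by
    have h2 := ProbabilityMeasure.tendsto_map_of_tendsto_of_continuous P Q hQ' continuous_fst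
    have h3 : (fun N => (P N).map continuous_fst.measurable.aemeasurable) =
        fun _ => (⟨μ s, inferInstance⟩ : ProbabilityMeasure (V → ℝ)) := by
      funext N
      exact Subtype.ext (hfst N)
    rw [h3] at h2
    have h4 := tendsto_nhds_unique h2 tendsto_const_nhds
    exact congrArg Subtype.val h4
  have hQsnd : (Q : Measure ((V → ℝ) × (V → ℝ))).map Prod.snd = μ (s + τ) := by
    have h2 := ProbabilityMeasure.tendsto_map_of_tendsto_of_continuous P Q hQ' continuous_snd
    have h3 : (fun N => (P N).map continuous_snd.measurable.aemeasurable) =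
        fun _ => (⟨μ (s + τ), inferInstance⟩ : ProbabilityMeasure (V → ℝ)) := by
      funext N
      exact Subtype.ext (hsnd N)
    rw [h3] at h2
    have h4 := tendsto_nhds_unique h2 tendsto_const_nhds
    exact congrArg Subtype.val h4
  refine ⟨Q, inferInstance, hQfst, hQsnd, ae_all_iff.2 fun i => ?_⟩
  have hb := hmeas s i
  have hbint : Integrable (fun y => b s y i) (μ s) :=
    Integrable.of_bound hb.aestronglyMeasurable 1 (Eventually.of_forall fun y => by
      rw [Real.norm_eq_abs, abs_of_nonneg (h0 _ _ _)]; exact h1 _ _ _)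
  -- comparison of the clamp for two drifts under any coupling with first marginal `μ s`
  have hcmp : ∀ (ρ : Measure ((V → ℝ) × (V → ℝ))) [IsProbabilityMeasure ρ],
      ρ.map Prod.fst = μ s → ∀ (g g' : (V → ℝ) → ℝ), Measurable g → Measurable g' →
      Integrable (fun y => g y - g' y) (μ s) →
      ∫ p, min 1 (max 0 (|p.2 i - p.1 i - τ * g p.1| - K * τ ^ 2)) ∂ρ ≤
        ∫ p, min 1 (max 0 (|p.2 i - p.1 i - τ * g' p.1| - K * τ ^ 2)) ∂ρ +
          τ * ∫ y, |g y - g' y| ∂(μ s) := by
    intro ρ _ hρ g g' hg hg' hint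
    have hI : Integrable (fun p : (V → ℝ) × (V → ℝ) =>
        min 1 (max 0 (|p.2 i - p.1 i - τ * g' p.1| - K * τ ^ 2))) ρ :=
      Integrable.of_bound (Measurable.aestronglyMeasurable (by fun_prop)) 1
        (Eventually.of_forall fun p => by
          rw [Real.norm_eq_abs, abs_of_nonneg (le_min zero_le_one (le_max_left _ _))]
          exact min_le_left _ _)
    have hI2 : Integrable (fun p : (V → ℝ) × (V → ℝ) => |g p.1 - g' p.1|) ρ := by
      have := hint.abs
      rw [← hρ] at this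
      exact this.comp_measurable measurable_fst
    rw [← hρ, integral_map measurable_fst.aemeasurable
      (Measurable.aestronglyMeasurable (by fun_prop)), ← integral_const_mul,
      ← integral_add hI (hI2.const_mul _)]
    refine integral_mono_of_nonneg (Eventually.of_forall fun p => ?_) (hI.add (hI2.const_mul _))
      (Eventually.of_forall fun p => ?_)
    · exact le_min zero_le_one (le_max_left _ _)
    · refine (onestep_clamp_le _ |p.2 i - p.1 i - τ * g' p.1| _).trans ?_
      have h5 := abs_abs_sub_abs_le_abs_sub (p.2 i - p.1 i - τ * g p.1) (p.2 i - p.1 i - τ * g' p.1)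
      rw [show p.2 i - p.1 i - τ * g p.1 - (p.2 i - p.1 i - τ * g' p.1) =
        -(τ * (g p.1 - g' p.1)) by ring, abs_neg, abs_mul, abs_of_pos hτ] at h5
      simp only
      linarith
  have hzero : ∫ p, min 1 (max 0 (|p.2 i - p.1 i - τ * b s p.1 i| - K * τ ^ 2))
      ∂(Q : Measure ((V → ℝ) × (V → ℝ))) ≤ 0 := by
    refine le_of_forall_pos_le_add fun η hη => ?_
    set ε : ℝ := η / (2 + 2 * τ) with hε
    have hεpos : 0 < ε := by positivity
    obtain ⟨g, hg, hgint⟩ := hbint.exists_boundedContinuous_integral_sub_le hεpos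
    simp only [Real.norm_eq_abs] at hg
    have hg' : ∫ y, |g y - b s y i| ∂(μ s) ≤ ε := by
      simpa only [abs_sub_comm] using hg
    have hgm : Measurable g := g.continuous.measurable
    let G : BoundedContinuousFunction ((V → ℝ) × (V → ℝ)) ℝ :=
      BoundedContinuousFunction.mkOfBound
        ⟨fun p => min 1 (max 0 (|p.2 i - p.1 i - τ * g p.1| - K * τ ^ 2)), by fun_prop⟩ 1
        (fun p q => by
          simp only [ContinuousMap.coe_mk, Real.dist_eq]
          have a1 := min_le_left (1 : ℝ) (max 0 (|p.2 i - p.1 i - τ * g p.1| - K * τ ^ 2))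
          have a2 := min_le_left (1 : ℝ) (max 0 (|q.2 i - q.1 i - τ * g q.1| - K * τ ^ 2))
          have a3 : (0 : ℝ) ≤ min 1 (max 0 (|p.2 i - p.1 i - τ * g p.1| - K * τ ^ 2)) :=
            le_min zero_le_one (le_max_left _ _)
          have a4 : (0 : ℝ) ≤ min 1 (max 0 (|q.2 i - q.1 i - τ * g q.1| - K * τ ^ 2)) :=
            le_min zero_le_one (le_max_left _ _)
          rw [abs_le]; constructor <;> linarith)
    have hlim := ProbabilityMeasure.tendsto_iff_forall_integral_tendsto.1 hQ' G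
    have hev : ∀ᶠ N : ℕ in atTop, τ ^ 2 / ((N + 1 : ℝ) * ε) ≤ ε := by
      have h6 : Tendsto (fun N : ℕ => τ ^ 2 / ((N + 1 : ℝ) * ε)) atTop (𝓝 0) := by
        refine Tendsto.div_atTop tendsto_const_nhds (Tendsto.atTop_mul_const hεpos ?_)
        exact tendsto_atTop_add_const_right _ _ tendsto_natCast_atTop_atTop
      exact h6.eventually (ge_mem_nhds hεpos)
    have hG : ∫ p, G p ∂(Q : Measure ((V → ℝ) × (V → ℝ))) ≤ 2 * ε + τ * ε := by
      refine le_of_tendsto hlim (hUle ?_)
      filter_upwards [hev] with N hN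
      have h7 := hcmp (π N) (hfst N) g (fun y => b s y i) hgm hb (hgint.sub hbint)
      have h8 := hbd N i ε hεpos
      have h9 : τ * ∫ y, |g y - b s y i| ∂(μ s) ≤ τ * ε := mul_le_mul_of_nonneg_left hg' hτ.le
      change ∫ p, min 1 (max 0 (|p.2 i - p.1 i - τ * g p.1| - K * τ ^ 2)) ∂(π N) ≤ _
      linarith
    have h10 := hcmp Q hQfst (fun y => b s y i) g hb hgm (hbint.sub hgint)
    have h11 : τ * ∫ y, |b s y i - g y| ∂(μ s) ≤ τ * ε := mul_le_mul_of_nonneg_left hg hτ.le
    change ∫ p, min 1 (max 0 (|p.2 i - p.1 i - τ * g p.1| - K * τ ^ 2))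
      ∂(Q : Measure ((V → ℝ) × (V → ℝ))) ≤ _ at hG
    have h12 : (2 + 2 * τ) * ε = η := by rw [hε]; field_simp
    linarith
  have hnn : 0 ≤ fun p : (V → ℝ) × (V → ℝ) =>
      min 1 (max 0 (|p.2 i - p.1 i - τ * b s p.1 i| - K * τ ^ 2)) :=
    fun p => le_min zero_le_one (le_max_left _ _)
  have hI : Integrable (fun p : (V → ℝ) × (V → ℝ) =>
      min 1 (max 0 (|p.2 i - p.1 i - τ * b s p.1 i| - K * τ ^ 2)))
      (Q : Measure ((V → ℝ) × (V → ℝ))) :=
    Integrable.of_bound (Measurable.aestronglyMeasurable (by fun_prop)) 1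
      (Eventually.of_forall fun p => by
        rw [Real.norm_eq_abs, abs_of_nonneg (hnn p)]
        exact min_le_left _ _)
  have hae := (integral_eq_zero_iff_of_nonneg hnn hI).1
    (le_antisymm hzero (integral_nonneg hnn))
  filter_upwards [hae] with p hp
  simp only [Pi.zero_apply, min_def, max_def] at hp
  split_ifs at hp <;> linarith

/-- One Euler step transports `μ s` to `μ (s + τ)` up to `O(τ²)` against sup-Lipschitz tests. -/
theorem one_step [Countable V] (μ : ℝ → Measure (V → ℝ)) [∀ s, IsProbabilityMeasure (μ s)]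
    (b : ℝ → (V → ℝ) → V → ℝ) (K : ℝ) (hK : 0 ≤ K)
    (hκ : ∀ s, ∃ κ : Kernel (V → ℝ) (V → Bool), IsMarkovKernel κ ∧
      (∀ h : ℝ, (μ s ⊗ₘ κ).map (fun p j => p.1 j + h * chi (p.2 j)) = μ (s + h)) ∧
      ∀ i, ∀ᵐ y ∂(μ s), ∫ x, chi (x i) ∂(κ y) = b s y i)
    (hmeas : ∀ s i, Measurable fun y => b s y i)
    (h0 : ∀ s y i, 0 ≤ b s y i) (h1 : ∀ s y i, b s y i ≤ 1)
    (hlip : ∀ (s s' : ℝ) (y y' : V → ℝ) (δ : ℝ) (i : V), |s - s'| ≤ δ → (∀ j, |y j - y' j| ≤ δ) →
      |b s y i - b s' y' i| ≤ K * δ)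
    (s τ : ℝ) (hτ : 0 < τ) (f : (V → ℝ) → ℝ) (c : ℝ) (hc : 0 ≤ c) (hf : SupLip f c) :
    |∫ y, f y ∂(μ (s + τ)) - ∫ y, f (fun j => y j + τ * b s y j) ∂(μ s)| ≤ c * (K * τ ^ 2) := by
  obtain ⟨π, hπ, hfst, hsnd, hae⟩ := onestep_coupling μ b K hκ hmeas h0 h1 hlip s τ hτ
  have hstep : Measurable fun (y : V → ℝ) (j : V) => y j + τ * b s y j := by
    refine measurable_pi_lambda _ fun j => ?_
    have := hmeas s j
    fun_prop
  have hf2 : Measurable fun y : V → ℝ => f (fun j => y j + τ * b s y j) := hf.meas.comp hstep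
  have hI1 : Integrable (fun p : (V → ℝ) × (V → ℝ) => f p.2) π :=
    Integrable.of_bound (hf.meas.comp measurable_snd).aestronglyMeasurable 1
      (Eventually.of_forall fun p => hf.bdd _)
  have hI2 : Integrable (fun p : (V → ℝ) × (V → ℝ) => f (fun j => p.1 j + τ * b s p.1 j)) π :=
    Integrable.of_bound (hf2.comp measurable_fst).aestronglyMeasurable 1
      (Eventually.of_forall fun p => hf.bdd _)
  rw [← hsnd, ← hfst, integral_map measurable_snd.aemeasurable hf.meas.aestronglyMeasurable,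
    integral_map measurable_fst.aemeasurable hf2.aestronglyMeasurable, ← integral_sub hI1 hI2]
  have := norm_integral_le_of_norm_le_const (μ := π) (C := c * (K * τ ^ 2))
    (f := fun p : (V → ℝ) × (V → ℝ) => f p.2 - f (fun j => p.1 j + τ * b s p.1 j)) (by
      filter_upwards [hae] with p hp
      refine hf.lip _ _ _ (by positivity) fun j => ?_
      rw [← sub_sub]
      exact hp j)
  simpa using this

end Crest.Agent.R168
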