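import Crest.Agent.R168.Posterior
import Crest.Agent.R168.OneStep
import Crest.Agent.R168.Euler

set_option autoImplicit false

namespace Crest.Agent.R168

open MeasureTheory ProbabilityTheory Filter Topology

variable {V : Type*}

theorem law_mu_zero (ν : Measure (V → Bool)) [IsProbabilityMeasure ν] : mu ν 0 = noiseLaw V := by
  have : (obs 0 : (V → Bool) × (V → ℝ) → V → ℝ) = Prod.snd := by
    funext p j; simp [obs]
  rw [mu, this, Measure.map_snd_prod]
  simp

theorem law_b_lip {M : V → (V → ℝ) → ℝ} {L : ℝ} (hM : GoodDrift M L) (s s' : ℝ) (y y' : V → ℝ)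
    (δ : ℝ) (i : V) (hs : |s - s'| ≤ δ) (hy : ∀ j, |y j - y' j| ≤ δ) :
    |M i (field s y) - M i (field s' y')| ≤ 3 * L * δ := by
  have := hM.lip i (field s y) (field s' y') (3 * δ) fun j => by
    have h1 := abs_phi_sub_phi_le s s' (y j) (y' j)
    have h2 := hy j
    unfold field
    linarith
  linarith

theorem law_euler_bound [Countable V] [DecidableEq V] (ν : Measure (V → Bool))
    [IsProbabilityMeasure ν] (F : V → ℕ → Finset V) (hmono : ∀ i, Monotone (F i))
    (hex : ∀ i j, ∃ n, j ∈ F i n) (L : ℝ) (hL0 : 0 ≤ L) (hL : LipTilt (incl ν) L)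
    (τ : ℝ) (hτ : 0 < τ) (k : ℕ) : ∀ (f : (V → ℝ) → ℝ) (c : ℝ), 0 ≤ c → SupLip f c →
    |∫ y, f y ∂(mu ν (k * τ)) - ∫ z, f (euler (drift (incl ν) F) τ z k) ∂(noiseLaw V)| ≤
      c * (3 * L * τ ^ 2) * k * (1 + 3 * L * τ) ^ k := by
  have hM := goodDrift_of_lipTilt ν F L hL
  set M := drift (incl ν) F with hMdef
  induction k with
  | zero => intro f c _ _; simp [law_mu_zero, euler]
  | succ k ih =>
    intro f c hc hf
    have hK : 0 ≤ 3 * L := by positivity
    have h1 := one_step (mu ν) (fun s y i => M i (field s y)) (3 * L) hK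
      (fun s => exists_posterior ν F hmono hex s)
      (fun s i => (hM.meas i).comp (measurable_field s)) (fun s y i => hM.nonneg _ _)
      (fun s y i => hM.le_one _ _) (fun s s' y y' δ i hs hy => law_b_lip hM s s' y y' δ i hs hy)
      (k * τ) τ hτ f c hc hf
    have hstep : Measurable (step M τ (k * τ)) := by
      refine measurable_pi_lambda _ fun j => ?_
      have := (hM.meas j).comp (measurable_field (V := V) (k * τ))
      exact (measurable_pi_apply j).add (this.const_mul τ)
    have hf2 : SupLip (fun y => f (step M τ (k * τ) y)) (c * (1 + 3 * L * τ)) := by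
      refine ⟨hf.meas.comp hstep, fun y => hf.bdd _, fun y y' δ hδ hy => ?_⟩
      rw [mul_assoc]
      refine hf.lip _ _ _ (by positivity) fun j => ?_
      have h2 := law_b_lip hM (k * τ) (k * τ) y y' δ j (by simpa using hδ) hy
      have h3 := hy j
      unfold step
      rw [show y j + τ * M j (field (k * τ) y) - (y' j + τ * M j (field (k * τ) y')) =
        (y j - y' j) + τ * (M j (field (k * τ) y) - M j (field (k * τ) y')) by ring]
      refine (abs_add_le _ _).trans ?_
      rw [abs_mul, abs_of_pos hτ]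
      nlinarith [mul_le_mul_of_nonneg_left h2 hτ.le]
    have h4 := ih _ _ (by positivity) hf2
    have h5 : ((k + 1 : ℕ) : ℝ) * τ = k * τ + τ := by push_cast; ring
    rw [h5]
    have h6 := abs_sub_le (∫ y, f y ∂(mu ν (k * τ + τ))) (∫ y, f (step M τ (k * τ) y) ∂(mu ν (k * τ)))
      (∫ z, f (step M τ (k * τ) (euler M τ z k)) ∂(noiseLaw V))
    have h7 : (1 : ℝ) ≤ (1 + 3 * L * τ) ^ (k + 1) := one_le_pow₀ (by nlinarith [mul_nonneg hK hτ.le])
    have h8 : 0 ≤ c * (3 * L * τ ^ 2) := by positivity
    calc _ ≤ c * (3 * L * τ ^ 2) + c * (1 + 3 * L * τ) * (3 * L * τ ^ 2) * k * (1 + 3 * L * τ) ^ k :=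
          h6.trans (add_le_add h1 h4)
      _ = c * (3 * L * τ ^ 2) * 1 + c * (3 * L * τ ^ 2) * k * (1 + 3 * L * τ) ^ (k + 1) := by ring
      _ ≤ c * (3 * L * τ ^ 2) * (1 + 3 * L * τ) ^ (k + 1) +
            c * (3 * L * τ ^ 2) * k * (1 + 3 * L * τ) ^ (k + 1) := by gcongr
      _ = _ := by push_cast; ring

/-- At integer times the flow carries the noise law to the observation law (tested). -/
theorem integral_flow [Countable V] [DecidableEq V] (ν : Measure (V → Bool))
    [IsProbabilityMeasure ν] (F : V → ℕ → Finset V) (hmono : ∀ i, Monotone (F i))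
    (hex : ∀ i j, ∃ n, j ∈ F i n) (L : ℝ) (hL0 : 0 ≤ L) (hL : LipTilt (incl ν) L)
    (T : ℕ) (f : (V → ℝ) → ℝ) (c : ℝ) (hc : 0 ≤ c) (hf : SupLip f c) :
    ∫ z, f (flow (drift (incl ν) F) T z) ∂(noiseLaw V) = ∫ y, f y ∂(mu ν T) := by
  have hM := goodDrift_of_lipTilt ν F L hL
  set M := drift (incl ν) F with hMdef
  obtain ⟨C, hC0, hC⟩ := euler_flow_close hM hL0 T
  have hMm : ∀ i, Measurable fun p : (V → ℝ) × (V → ℝ) => M i p.2 :=
    fun i => (hM.meas i).comp measurable_snd
  have hbound : ∀ n : ℕ, |∫ y, f y ∂(mu ν T) - ∫ z, f (flow M T z) ∂(noiseLaw V)| ≤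
      (c * (3 * L) * T * Real.exp (3 * L * T) + c * C) * (1 / 2 : ℝ) ^ n := by
    intro n
    set τ : ℝ := (1 / 2 : ℝ) ^ n with hτdef
    have hτ : 0 < τ := by positivity
    have hkτ : ((T * 2 ^ n : ℕ) : ℝ) * τ = T := by
      rw [hτdef]; push_cast; rw [mul_assoc, ← mul_pow]; simp
    have h1 := law_euler_bound ν F hmono hex L hL0 hL τ hτ (T * 2 ^ n) f c hc hf
    rw [hkτ] at h1
    have h2 : (1 + 3 * L * τ) ^ (T * 2 ^ n) ≤ Real.exp (3 * L * T) := by
      calc _ ≤ (Real.exp (3 * L * τ)) ^ (T * 2 ^ n) :=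
            pow_le_pow_left₀ (by positivity) (by rw [add_comm]; exact Real.add_one_le_exp _) _
        _ = _ := by rw [← Real.exp_nat_mul, ← hkτ]; congr 1; ring
    have hI1 : Integrable (fun z => f (euler M τ z (T * 2 ^ n))) (noiseLaw V) :=
      Integrable.of_bound (hf.meas.comp (measurable_euler (fun _ => M) hMm id measurable_id τ
        _)).aestronglyMeasurable 1 (Eventually.of_forall fun z => hf.bdd _)
    have hI2 : Integrable (fun z => f (flow M T z)) (noiseLaw V) :=
      Integrable.of_bound (hf.meas.comp (measurable_flow (fun _ => M) hMm id measurable_id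
        T)).aestronglyMeasurable 1 (Eventually.of_forall fun z => hf.bdd _)
    have h3 : |∫ z, f (euler M τ z (T * 2 ^ n)) ∂(noiseLaw V) - ∫ z, f (flow M T z) ∂(noiseLaw V)| ≤
        c * (C * τ) := by
      rw [← integral_sub hI1 hI2]
      have := norm_integral_le_of_norm_le_const (μ := noiseLaw V) (C := c * (C * τ))
        (f := fun z => f (euler M τ z (T * 2 ^ n)) - f (flow M T z))
        (Eventually.of_forall fun z => hf.lip _ _ _ (by positivity) fun j => hC n z j)
      simpa using this
    have h4 : c * (3 * L * τ ^ 2) * ((T * 2 ^ n : ℕ) : ℝ) * (1 + 3 * L * τ) ^ (T * 2 ^ n) ≤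
        c * (3 * L) * T * Real.exp (3 * L * T) * τ := by
      calc _ = c * (3 * L) * (((T * 2 ^ n : ℕ) : ℝ) * τ) * (1 + 3 * L * τ) ^ (T * 2 ^ n) * τ := by
            ring
        _ ≤ _ := by rw [hkτ]; gcongr
    have h5 := abs_sub_le (∫ y, f y ∂(mu ν T)) (∫ z, f (euler M τ z (T * 2 ^ n)) ∂(noiseLaw V))
      (∫ z, f (flow M T z) ∂(noiseLaw V))
    nlinarith
  have hlim : Tendsto (fun n : ℕ => (c * (3 * L) * T * Real.exp (3 * L * T) + c * C) *
      (1 / 2 : ℝ) ^ n) atTop (𝓝 0) := by
    have := (tendsto_pow_atTop_nhds_zero_of_lt_one (r := (1 / 2 : ℝ)) (by norm_num)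
      (by norm_num)).const_mul (c * (3 * L) * T * Real.exp (3 * L * T) + c * C)
    simpa using this
  have := ge_of_tendsto' hlim hbound
  exact (sub_eq_zero.1 (abs_nonpos_iff.1 this)).symm

theorem law_incl_eq (ν : Measure (V → Bool)) (W : Finset V) :
    incl ν W = ∫ x, ∏ i ∈ W, chi (x i) ∂ν := by
  have hm : MeasurableSet {x : V → Bool | ∀ j ∈ W, x j = true} := by
    have : {x : V → Bool | ∀ j ∈ W, x j = true} =
        ⋂ j ∈ W, (fun x : V → Bool => x j) ⁻¹' {true} := by ext x; simp
    rw [this]
    exact Finset.measurableSet_biInter _ fun i _ =>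
      measurable_pi_apply i (MeasurableSet.of_discrete)
  rw [incl, ← integral_indicator_one hm]
  refine integral_congr_ae (Eventually.of_forall fun x => ?_)
  by_cases h : ∀ j ∈ W, x j = true
  · rw [Set.indicator_of_mem (by exact h)]
    exact (Finset.prod_eq_one fun j hj => by simp [chi, h j hj]).symm
  · rw [Set.indicator_of_notMem (by exact h)]
    push Not at h
    obtain ⟨j, hj, hx⟩ := h
    exact (Finset.prod_eq_zero hj (by simp [chi, hx])).symm

/-- The clamp to `[0,1]`. -/
noncomputable def lawPsi (t : ℝ) : ℝ := max 0 (min 1 t)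

theorem lawPsi_nonneg (t : ℝ) : 0 ≤ lawPsi t := le_max_left _ _

theorem lawPsi_le_one (t : ℝ) : lawPsi t ≤ 1 := max_le zero_le_one (min_le_left _ _)

theorem lawPsi_lip (t t' : ℝ) : |lawPsi t - lawPsi t'| ≤ |t - t'| := by
  have h1 := le_abs_self (t - t')
  have h2 := neg_abs_le (t - t')
  unfold lawPsi
  rw [abs_le]
  simp only [min_def, max_def]
  constructor <;> split_ifs <;> linarith

theorem lawPsi_measurable : Measurable lawPsi := by unfold lawPsi; fun_prop

theorem law_prod_lip (W : Finset V) (a b : V → ℝ) (δ : ℝ) (ha0 : ∀ i, 0 ≤ a i) (ha1 : ∀ i, a i ≤ 1)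
    (hb0 : ∀ i, 0 ≤ b i) (hb1 : ∀ i, b i ≤ 1) (hab : ∀ i, |a i - b i| ≤ δ) :
    |∏ i ∈ W, a i - ∏ i ∈ W, b i| ≤ W.card * δ := by
  classical
  induction W using Finset.induction_on with
  | empty => simp
  | insert j W hj ih =>
    rw [Finset.prod_insert hj, Finset.prod_insert hj, Finset.card_insert_of_notMem hj]
    have h1 : 0 ≤ ∏ i ∈ W, b i := Finset.prod_nonneg fun i _ => hb0 i
    have h2 : ∏ i ∈ W, b i ≤ 1 := Finset.prod_le_one (fun i _ => hb0 i) fun i _ => hb1 i
    rw [show a j * ∏ i ∈ W, a i - b j * ∏ i ∈ W, b i =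
      a j * (∏ i ∈ W, a i - ∏ i ∈ W, b i) + (a j - b j) * ∏ i ∈ W, b i by ring]
    refine (abs_add_le _ _).trans ?_
    rw [abs_mul, abs_mul, abs_of_nonneg (ha0 j), abs_of_nonneg h1]
    have h3 : a j * |∏ i ∈ W, a i - ∏ i ∈ W, b i| ≤ 1 * (W.card * δ) :=
      mul_le_mul (ha1 j) ih (abs_nonneg _) zero_le_one
    have h4 : |a j - b j| * ∏ i ∈ W, b i ≤ δ * 1 :=
      mul_le_mul (hab j) h2 h1 ((abs_nonneg _).trans (hab j))
    push_cast
    linarith

theorem law_integrable_exp : Integrable (fun z : ℝ => Real.exp (|z| / 2)) lap := by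
  rw [lap, integrable_withDensity_iff (by fun_prop)
    (Eventually.of_forall fun _ => ENNReal.ofReal_lt_top)]
  have h1 := (integrable_exp_neg_abs.comp_div (R := 2) (by norm_num)).div_const 2
  refine h1.congr (Eventually.of_forall fun z => ?_)
  simp only
  rw [ENNReal.toReal_ofReal (by positivity), ← mul_div_assoc, ← Real.exp_add, abs_div]
  congr 2
  norm_num
  ring

theorem law_sign (a : ℕ → ℝ) (hstep : ∀ T, |a (T + 1) - a T| ≤ 1 / 2)
    (hev : ∀ᶠ T in atTop, ¬ |a T| ≤ 1) :
    (∀ᶠ T in atTop, 1 < a T) ∨ (∀ᶠ T in atTop, a T < -1) := by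
  obtain ⟨T0, hT0⟩ := eventually_atTop.1 hev
  have hc : ∀ T, T0 ≤ T → 1 < a T ∨ a T < -1 := fun T hT => by
    have := hT0 T hT
    rw [abs_le] at this
    by_contra hcon
    push Not at hcon
    exact this ⟨hcon.2, hcon.1⟩
  rcases hc T0 le_rfl with h | h
  · refine Or.inl (eventually_atTop.2 ⟨T0, fun T hT => ?_⟩)
    induction T, hT using Nat.le_induction with
    | base => exact h
    | succ T hT ih =>
      have h1 := abs_le.1 (hstep T)
      rcases hc (T + 1) (by omega) with h2 | h2
      · exact h2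
      · linarith [h1.1]
  · refine Or.inr (eventually_atTop.2 ⟨T0, fun T hT => ?_⟩)
    induction T, hT using Nat.le_induction with
    | base => exact h
    | succ T hT ih =>
      have h1 := abs_le.1 (hstep T)
      rcases hc (T + 1) (by omega) with h2 | h2
      · linarith [h1.2]
      · exact h2

theorem law_away [Countable V] [DecidableEq V] (ν : Measure (V → Bool))
    [IsProbabilityMeasure ν] (F : V → ℕ → Finset V) (hmono : ∀ i, Monotone (F i))
    (hex : ∀ i j, ∃ n, j ∈ F i n) (L : ℝ) (hL0 : 0 ≤ L) (hL : LipTilt (incl ν) L) (i : V) :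
    ∀ᵐ z ∂(noiseLaw V), ∀ᶠ T : ℕ in atTop, ¬ |flow (drift (incl ν) F) T z i - T / 2| ≤ 1 := by
  have hM := goodDrift_of_lipTilt ν F L hL
  set M := drift (incl ν) F with hMdef
  have hMm : ∀ i, Measurable fun p : (V → ℝ) × (V → ℝ) => M i p.2 :=
    fun i => (hM.meas i).comp measurable_snd
  set C : ℝ := ∫ z, Real.exp (|z| / 2) ∂lap with hC
  have hC0 : 0 ≤ C := integral_nonneg fun z => by positivity
  have hb : ∀ T : ℕ, (noiseLaw V).real {z | |flow M T z i - T / 2| ≤ 1} ≤
      (C * Real.exp 1) * (Real.exp (-(1 / 4))) ^ T := by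
    intro T
    set g : (V → ℝ) → ℝ := fun y => lawPsi (2 - |y i - T / 2|) with hg
    have hgm : Measurable g := lawPsi_measurable.comp (by fun_prop)
    have hgl : SupLip g 1 := by
      refine ⟨hgm, fun y => ?_, fun y y' δ _ hy => ?_⟩
      · rw [abs_of_nonneg (lawPsi_nonneg _)]; exact lawPsi_le_one _
      · refine (lawPsi_lip _ _).trans ?_
        have h1 := abs_abs_sub_abs_le_abs_sub (y' i - T / 2) (y i - T / 2)
        rw [show y' i - T / 2 - (y i - T / 2) = -(y i - y' i) by ring, abs_neg] at h1
        rw [show 2 - |y i - T / 2| - (2 - |y' i - T / 2|) = |y' i - T / 2| - |y i - T / 2| by ring]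
        linarith [hy i]
    have h1 := integral_flow ν F hmono hex L hL0 hL T g 1 zero_le_one hgl
    have hfl : Measurable fun z => flow M T z := measurable_flow (fun _ => M) hMm id measurable_id T
    have hset : MeasurableSet {z | |flow M T z i - T / 2| ≤ 1} :=
      measurableSet_le (((measurable_pi_apply i).comp hfl).sub_const _).abs measurable_const
    have hev : MeasurePreserving (fun p : (V → Bool) × (V → ℝ) => p.2 i) (ν.prod (noiseLaw V)) lap :=
      (measurePreserving_eval_infinitePi (fun _ : V => lap) i).comp measurePreserving_snd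
    calc (noiseLaw V).real {z | |flow M T z i - T / 2| ≤ 1}
        = ∫ z, {z | |flow M T z i - T / 2| ≤ 1}.indicator 1 z ∂(noiseLaw V) :=
          (integral_indicator_one hset).symm
      _ ≤ ∫ z, g (flow M T z) ∂(noiseLaw V) := by
          refine integral_mono ((integrable_const _).indicator hset)
            (Integrable.of_bound (hgm.comp hfl).aestronglyMeasurable 1
              (Eventually.of_forall fun z => hgl.bdd _)) fun z => ?_
          by_cases h : z ∈ {z | |flow M T z i - T / 2| ≤ 1}
          · rw [Set.indicator_of_mem h]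
            have h2 : |flow M T z i - T / 2| ≤ 1 := h
            exact le_max_of_le_right (le_min le_rfl (by simp only [Pi.one_apply]; linarith))
          · rw [Set.indicator_of_notMem h]
            exact lawPsi_nonneg _
      _ = ∫ p, g (obs T p) ∂(ν.prod (noiseLaw V)) := by
          rw [h1, mu, integral_map (measurable_obs _).aemeasurable hgm.aestronglyMeasurable]
      _ ≤ ∫ p : (V → Bool) × (V → ℝ), Real.exp (|p.2 i| / 2) *
            (Real.exp 1 * (Real.exp (-(1 / 4))) ^ T) ∂(ν.prod (noiseLaw V)) := by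
          refine integral_mono_of_nonneg (Eventually.of_forall fun p => lawPsi_nonneg _)
            ((hev.integrable_comp_of_integrable law_integrable_exp).mul_const _)
            (Eventually.of_forall fun p => ?_)
          simp only [hg]
          rw [← Real.exp_nat_mul, ← Real.exp_add, ← Real.exp_add]
          by_cases h : 2 - |obs T p i - T / 2| ≤ 0
          · refine le_trans (max_le le_rfl ((min_le_right _ _).trans h)) (Real.exp_pos _).le
          · refine (lawPsi_le_one _).trans (Real.one_le_exp ?_)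
            have hT : (0 : ℝ) ≤ T := Nat.cast_nonneg T
            have h3 : |obs T p i - T / 2| < 2 := by linarith
            rw [abs_lt] at h3
            have h4 := le_abs_self (p.2 i)
            have h5 := neg_abs_le (p.2 i)
            unfold obs chi at h3
            split_ifs at h3 <;> linarith [h3.1, h3.2]
      _ = _ := by
          rw [integral_mul_const, hC, ← hev.map_eq, integral_map hev.measurable.aemeasurable
            (Measurable.aestronglyMeasurable (by fun_prop))]
          ring
  have hsum : Summable fun T : ℕ => (C * Real.exp 1) * (Real.exp (-(1 / 4))) ^ T :=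
    (summable_geometric_of_lt_one (Real.exp_pos _).le
      (Real.exp_lt_one_iff.2 (by norm_num))).mul_left _
  have hne : ∑' T : ℕ, noiseLaw V {z | |flow M T z i - T / 2| ≤ 1} ≠ ⊤ := by
    refine ne_top_of_le_ne_top (b := ∑' T : ℕ,
      ENNReal.ofReal ((C * Real.exp 1) * (Real.exp (-(1 / 4))) ^ T)) ?_
      (ENNReal.tsum_le_tsum fun T => ?_)
    · rw [← ENNReal.ofReal_tsum_of_nonneg (fun T => by positivity) hsum]
      exact ENNReal.ofReal_ne_top
    · rw [← ofReal_measureReal]
      exact ENNReal.ofReal_le_ofReal (hb T)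
  exact ae_eventually_notMem hne

/-- Main theorem: decoding iid Laplace noise gives a sample of `ν`. -/
theorem flow_law [Countable V] [DecidableEq V] (ν : Measure (V → Bool))
    [IsProbabilityMeasure ν] (F : V → ℕ → Finset V) (hmono : ∀ i, Monotone (F i))
    (hex : ∀ i j, ∃ n, j ∈ F i n) (L : ℝ) (hL0 : 0 ≤ L) (hL : LipTilt (incl ν) L) :
    (noiseLaw V).map (decode (drift (incl ν) F)) = ν := by
  have hM := goodDrift_of_lipTilt ν F L hL
  have haway := ae_all_iff.2 (law_away ν F hmono hex L hL0 hL)
  have hflow := integral_flow ν F hmono hex L hL0 hL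
  set M := drift (incl ν) F with hMdef
  have hMm : ∀ i, Measurable fun p : (V → ℝ) × (V → ℝ) => M i p.2 :=
    fun i => (hM.meas i).comp measurable_snd
  have hdec : Measurable (decode M) := measurable_decode (fun _ => M) hMm id measurable_id
  refine measure_eq_of_incl_eq _ _ fun W => ?_
  have hchi : Measurable fun x : V → Bool => ∏ i ∈ W, chi (x i) :=
    Finset.measurable_prod _ fun i _ => measurable_chi.comp (measurable_pi_apply i)
  set f : ℕ → (V → ℝ) → ℝ := fun T y => ∏ i ∈ W, lawPsi (y i - T / 2) with hf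
  have hfm : ∀ T, Measurable (f T) := fun T =>
    Finset.measurable_prod _ fun i _ => lawPsi_measurable.comp (by fun_prop)
  have hfb : ∀ T y, |f T y| ≤ 1 := fun T y => by
    rw [abs_of_nonneg (Finset.prod_nonneg fun i _ => lawPsi_nonneg _)]
    exact Finset.prod_le_one (fun i _ => lawPsi_nonneg _) fun i _ => lawPsi_le_one _
  have hfl : ∀ T, SupLip (f T) W.card := fun T =>
    ⟨hfm T, hfb T, fun y y' δ _ hy => law_prod_lip W _ _ δ (fun i => lawPsi_nonneg _)
      (fun i => lawPsi_le_one _) (fun i => lawPsi_nonneg _) (fun i => lawPsi_le_one _)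
      fun i => (lawPsi_lip _ _).trans (by rw [sub_sub_sub_cancel_right]; exact hy i)⟩
  have h1 : Tendsto (fun T : ℕ => ∫ z, f T (flow M T z) ∂(noiseLaw V)) atTop
      (𝓝 (∫ z, ∏ i ∈ W, chi (decode M z i) ∂(noiseLaw V))) := by
    refine tendsto_integral_of_dominated_convergence (fun _ => 1)
      (fun T => ((hfm T).comp (measurable_flow (fun _ => M) hMm id measurable_id
        T)).aestronglyMeasurable) (integrable_const _)
      (fun T => Eventually.of_forall fun z => hfb _ _) ?_
    filter_upwards [haway] with z hz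
    refine tendsto_finsetProd _ fun i _ => ?_
    refine tendsto_const_nhds.congr' ?_
    have h2 := law_sign (fun T => flow M T z i - T / 2) (fun T => by
      have := flow_succ_sub hM hL0 T z i
      push_cast
      rw [abs_le]; constructor <;> linarith [this.1, this.2]) (hz i)
    rcases h2 with h2 | h2
    · have h3 : decode M z i = true := by
        unfold decode
        refine @decide_eq_true _ (Classical.propDecidable _) ?_
        filter_upwards [h2] with T hT
        linarith
      filter_upwards [h2] with T hT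
      rw [h3, lawPsi, min_eq_left hT.le]
      simp [chi]
    · have h3 : decode M z i = false := by
        unfold decode
        refine @decide_eq_false _ (Classical.propDecidable _) fun h => ?_
        obtain ⟨T, hT1, hT2⟩ := (h.and h2).exists
        linarith
      filter_upwards [h2] with T hT
      rw [h3, lawPsi, max_eq_left ((min_le_right _ _).trans (by linarith))]
      simp [chi]
  have h2 : Tendsto (fun T : ℕ => ∫ p, f T (obs T p) ∂(ν.prod (noiseLaw V))) atTop
      (𝓝 (∫ p : (V → Bool) × (V → ℝ), ∏ i ∈ W, chi (p.1 i) ∂(ν.prod (noiseLaw V)))) := by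
    refine tendsto_integral_of_dominated_convergence (fun _ => 1)
      (fun T => ((hfm T).comp (measurable_obs _)).aestronglyMeasurable) (integrable_const _)
      (fun T => Eventually.of_forall fun z => hfb _ _) (Eventually.of_forall fun p => ?_)
    refine tendsto_finsetProd _ fun i _ => ?_
    refine tendsto_const_nhds.congr' ?_
    filter_upwards [tendsto_natCast_atTop_atTop.eventually_ge_atTop (2 * |p.2 i| + 2 : ℝ)]
      with T hT
    have h4 := le_abs_self (p.2 i)
    have h5 := neg_abs_le (p.2 i)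
    unfold obs chi lawPsi
    split_ifs
    · rw [min_eq_left (by linarith)]; simp
    · rw [max_eq_left ((min_le_right _ _).trans (by linarith))]
  have h3 : ∀ T : ℕ, ∫ z, f T (flow M T z) ∂(noiseLaw V) =
      ∫ p, f T (obs T p) ∂(ν.prod (noiseLaw V)) := fun T => by
    rw [hflow T (f T) _ (Nat.cast_nonneg _) (hfl T), mu,
      integral_map (measurable_obs _).aemeasurable (hfm T).aestronglyMeasurable]
  simp only [h3] at h1
  have h4 := tendsto_nhds_unique h1 h2
  rw [law_incl_eq, law_incl_eq, integral_map hdec.aemeasurable hchi.aestronglyMeasurable, h4,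
    integral_fun_fst (fun x : V → Bool => ∏ i ∈ W, chi (x i))]
  simp

end Crest.Agent.R168
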