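import Crest.Agent.R168.Defs
import Crest.Agent.R168.StableAux

set_option autoImplicit false

namespace Crest.Agent.R168

open MeasureTheory ProbabilityTheory Filter Topology

variable {V : Type*} [DecidableEq V]

section Aux
open scoped ComplexConjugate

theorem negcorr_prod_update {K : Type*} [CommRing K] (S : Finset V) (y : V → K) (j : V) (t : K) :
    ∏ k ∈ S, Function.update y j t k = ∏ k ∈ S, Function.update y j 0 k +
      t * (∏ k ∈ S, Function.update y j 1 k - ∏ k ∈ S, Function.update y j 0 k) := by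
  by_cases h : j ∈ S
  · simp only [Finset.prod_update_of_mem h]; ring
  · simp only [Finset.prod_update_of_notMem h]; ring

theorem negcorr_RA_update (E : Finset V) (p : Finset V → ℝ) (i j : V) (y : V → ℝ) (t : ℝ) :
    stRA E p i (Function.update y j t) = stRA E p i (Function.update y j 0) +
      t * (stRA E p i (Function.update y j 1) - stRA E p i (Function.update y j 0)) := by
  simp only [stRA, ← Finset.sum_sub_distrib, Finset.mul_sum, ← Finset.sum_add_distrib]
  refine Finset.sum_congr rfl fun S _ => ?_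
  rw [negcorr_prod_update]; ring

theorem negcorr_RB_update (E : Finset V) (p : Finset V → ℝ) (i j : V) (y : V → ℝ) (t : ℝ) :
    stRB E p i (Function.update y j t) = stRB E p i (Function.update y j 0) +
      t * (stRB E p i (Function.update y j 1) - stRB E p i (Function.update y j 0)) := by
  simp only [stRB, ← Finset.sum_sub_distrib, Finset.mul_sum, ← Finset.sum_add_distrib]
  refine Finset.sum_congr rfl fun S _ => ?_
  rw [negcorr_prod_update]; ring

theorem negcorr_cast_update (y : V → ℝ) (j : V) (t : ℝ) :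
    Function.update (fun k => (y k : ℂ)) j (t : ℂ) = fun k => ((Function.update y j t k : ℝ) : ℂ) := by
  ext k
  by_cases h : k = j
  · subst h; simp
  · simp [Function.update_of_ne h]

theorem negcorr_PA_update (E : Finset V) (p : Finset V → ℝ) (i j : V) (y : V → ℝ) (t : ℂ) :
    stPA E p i (Function.update (fun k => (y k : ℂ)) j t) = stRA E p i (Function.update y j 0) +
      t * ((stRA E p i (Function.update y j 1) : ℂ) - stRA E p i (Function.update y j 0)) := by
  rw [← stPA_ofReal, ← stPA_ofReal, ← negcorr_cast_update, ← negcorr_cast_update]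
  simp only [stPA, ← Finset.sum_sub_distrib, Finset.mul_sum, ← Finset.sum_add_distrib]
  refine Finset.sum_congr rfl fun S _ => ?_
  rw [negcorr_prod_update]; push_cast; ring

theorem negcorr_PB_update (E : Finset V) (p : Finset V → ℝ) (i j : V) (y : V → ℝ) (t : ℂ) :
    stPB E p i (Function.update (fun k => (y k : ℂ)) j t) = stRB E p i (Function.update y j 0) +
      t * ((stRB E p i (Function.update y j 1) : ℂ) - stRB E p i (Function.update y j 0)) := by
  rw [← stPB_ofReal, ← stPB_ofReal, ← negcorr_cast_update, ← negcorr_cast_update]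
  simp only [stPB, ← Finset.sum_sub_distrib, Finset.mul_sum, ← Finset.sum_add_distrib]
  refine Finset.sum_congr rfl fun S _ => ?_
  rw [negcorr_prod_update]; push_cast; ring

/-- Rayleigh inequality. -/
theorem negcorr_rayleigh {E : Finset V} {p : Finset V → ℝ} (hst : Stable E p) (i j : V)
    (y : V → ℝ) {s t : ℝ} (hst' : s ≤ t) :
    stRA E p i (Function.update y j t) * stRB E p i (Function.update y j s) ≤
      stRA E p i (Function.update y j s) * stRB E p i (Function.update y j t) := by
  have h := st_up_closed i hst (x := Function.update (fun k => (y k : ℂ)) j Complex.I)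
    (fun k _ => by
      by_cases h : k = j
      · subst h; simp
      · simp [Function.update_of_ne h])
  rw [negcorr_PA_update, negcorr_PB_update] at h
  rw [negcorr_RA_update E p i j y t, negcorr_RA_update E p i j y s, negcorr_RB_update E p i j y t,
    negcorr_RB_update E p i j y s]
  simp only [map_add, map_mul, map_sub, Complex.conj_ofReal, Complex.conj_I, Complex.mul_im,
    Complex.add_re, Complex.add_im, Complex.mul_re, Complex.ofReal_re, Complex.ofReal_im,
    Complex.I_re, Complex.I_im, Complex.sub_re, Complex.sub_im, Complex.neg_re,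
    Complex.neg_im] at h
  nlinarith [mul_nonneg (sub_nonneg.2 hst') h]

/-- Mean of coordinate `i` under the weights `y`. -/
noncomputable def negcorrMean (E : Finset V) (p : Finset V → ℝ) (i : V) (y : V → ℝ) : ℝ :=
  (∑ S ∈ E.powerset with i ∈ S, p S * ∏ j ∈ S, y j) / ∑ S ∈ E.powerset, p S * ∏ j ∈ S, y j

theorem negcorr_mean_update {E : Finset V} {p : Finset V → ℝ} (hp : ∀ S, 0 ≤ p S)
    (hst : Stable E p) {i j : V} (hij : i ≠ j) {y : V → ℝ} (hy : ∀ k, 0 < y k) {t : ℝ}
    (ht : y j ≤ t) : negcorrMean E p i (Function.update y j t) ≤ negcorrMean E p i y := by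
  have hy' : ∀ k, 0 < Function.update y j t k := by
    intro k
    by_cases h : k = j
    · subst h; simpa using (hy k).trans_le ht
    · simpa [Function.update_of_ne h] using hy k
  have h := negcorr_rayleigh hst i j y ht
  rw [Function.update_eq_self] at h
  unfold negcorrMean
  rw [div_le_div_iff₀ (stZ_pos hp hst hy') (stZ_pos hp hst hy), stZ_eq E p i, stZ_eq E p i,
    stN_eq, stN_eq, Function.update_of_ne hij]
  nlinarith [mul_le_mul_of_nonneg_left h (hy i).le]

theorem negcorr_mean_mono {E : Finset V} {p : Finset V → ℝ} (hp : ∀ S, 0 ≤ p S)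
    (hst : Stable E p) (i : V) {y y' : V → ℝ} (hy : ∀ k, 0 < y k) (hyy : ∀ k, y k ≤ y' k)
    (hi : y i = y' i) : negcorrMean E p i y' ≤ negcorrMean E p i y := by
  have key : ∀ s : Finset V, negcorrMean E p i (s.piecewise y' y) ≤ negcorrMean E p i y := by
    intro s
    induction s using Finset.induction_on with
    | empty => simp
    | insert j s hj ih =>
      refine le_trans ?_ ih
      rw [Finset.piecewise_insert]
      have hpos : ∀ k, 0 < s.piecewise y' y k := by
        intro k
        by_cases h : k ∈ s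
        · rw [Finset.piecewise_eq_of_mem _ _ _ h]; exact (hy k).trans_le (hyy k)
        · rw [Finset.piecewise_eq_of_notMem _ _ _ h]; exact hy k
      have hj' : s.piecewise y' y j = y j := Finset.piecewise_eq_of_notMem _ _ _ hj
      by_cases hij : i = j
      · subst hij
        rw [← hi, ← hj', Function.update_eq_self]
      · exact negcorr_mean_update hp hst hij hpos (hj' ▸ hyy j)
  refine le_trans (le_of_eq ?_) (key E)
  have : ∀ S ∈ E.powerset, ∏ j ∈ S, y' j = ∏ j ∈ S, E.piecewise y' y j := fun S hS =>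
    Finset.prod_congr rfl fun j hj =>
      (Finset.piecewise_eq_of_mem _ _ _ (Finset.mem_powerset.1 hS hj)).symm
  unfold negcorrMean
  congr 1
  · exact Finset.sum_congr rfl fun S hS => by rw [this S (Finset.mem_filter.1 hS).1]
  · exact Finset.sum_congr rfl fun S hS => by rw [this S hS]

theorem negcorr_two_sided_pos {E : Finset V} {p : Finset V → ℝ} (hp : ∀ S, 0 ≤ p S)
    (hst : Stable E p) (i : V) {a a' b : V → ℝ} (ha : ∀ k, 0 < a k) (haa : ∀ k, a k ≤ a' k)
    (hi : a i = a' i) (hb : ∀ k, 0 < b k) :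
    (∑ S ∈ E.powerset with i ∈ S, p S * ∏ k ∈ E, if k ∈ S then a' k else b k) *
        (∑ S ∈ E.powerset, p S * ∏ k ∈ E, if k ∈ S then a k else b k) ≤
      (∑ S ∈ E.powerset with i ∈ S, p S * ∏ k ∈ E, if k ∈ S then a k else b k) *
        (∑ S ∈ E.powerset, p S * ∏ k ∈ E, if k ∈ S then a' k else b k) := by
  have e : ∀ (c : V → ℝ), ∀ S ∈ E.powerset, p S * (∏ k ∈ E, if k ∈ S then c k else b k) =
      (∏ k ∈ E, b k) * (p S * ∏ k ∈ S, c k / b k) := by
    intro c S hS
    have h1 : ∏ k ∈ S, c k / b k = ∏ k ∈ E, if k ∈ S then c k / b k else 1 := by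
      rw [Finset.prod_ite_mem, Finset.inter_eq_right.2 (Finset.mem_powerset.1 hS)]
    rw [h1, mul_left_comm, ← Finset.prod_mul_distrib]
    congr 1
    refine Finset.prod_congr rfl fun k _ => ?_
    have := (hb k).ne'
    split_ifs <;> field_simp
  have e1 : ∀ c : V → ℝ, (∑ S ∈ E.powerset, p S * ∏ k ∈ E, if k ∈ S then c k else b k) =
      (∏ k ∈ E, b k) * ∑ S ∈ E.powerset, p S * ∏ k ∈ S, c k / b k := fun c => by
    rw [Finset.mul_sum]; exact Finset.sum_congr rfl (e c)
  have e2 : ∀ c : V → ℝ,
      (∑ S ∈ E.powerset with i ∈ S, p S * ∏ k ∈ E, if k ∈ S then c k else b k) =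
      (∏ k ∈ E, b k) * ∑ S ∈ E.powerset with i ∈ S, p S * ∏ k ∈ S, c k / b k := fun c => by
    rw [Finset.mul_sum]; exact Finset.sum_congr rfl fun S hS => e c S (Finset.mem_filter.1 hS).1
  have hy : ∀ k, 0 < a k / b k := fun k => div_pos (ha k) (hb k)
  have hy' : ∀ k, 0 < a' k / b k := fun k => div_pos ((ha k).trans_le (haa k)) (hb k)
  have h := negcorr_mean_mono hp hst i (y := fun k => a k / b k) (y' := fun k => a' k / b k) hy
    (fun k => div_le_div_of_nonneg_right (haa k) (hb k).le) (by simp only [hi])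
  unfold negcorrMean at h
  rw [div_le_div_iff₀ (stZ_pos hp hst hy') (stZ_pos hp hst hy)] at h
  rw [e1, e1, e2, e2]
  have hB : 0 ≤ (∏ k ∈ E, b k) ^ 2 := sq_nonneg _
  nlinarith [mul_le_mul_of_nonneg_left h hB]

theorem negcorr_two_sided {E : Finset V} {p : Finset V → ℝ} (hp : ∀ S, 0 ≤ p S)
    (hst : Stable E p) (i : V) {a a' b : V → ℝ} (ha : ∀ k, 0 ≤ a k) (haa : ∀ k, a k ≤ a' k)
    (hi : a i = a' i) (hb : ∀ k, 0 ≤ b k) :
    (∑ S ∈ E.powerset with i ∈ S, p S * ∏ k ∈ E, if k ∈ S then a' k else b k) *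
        (∑ S ∈ E.powerset, p S * ∏ k ∈ E, if k ∈ S then a k else b k) ≤
      (∑ S ∈ E.powerset with i ∈ S, p S * ∏ k ∈ E, if k ∈ S then a k else b k) *
        (∑ S ∈ E.powerset, p S * ∏ k ∈ E, if k ∈ S then a' k else b k) := by
  have c0 : ∀ (c : V → ℝ) (U : Finset (Finset V)), Tendsto (fun η : ℝ =>
      ∑ S ∈ U, p S * ∏ k ∈ E, if k ∈ S then c k + η else b k + η) (𝓝[>] 0)
      (𝓝 (∑ S ∈ U, p S * ∏ k ∈ E, if k ∈ S then c k else b k)) := by
    intro c U
    have : Continuous fun η : ℝ =>
        ∑ S ∈ U, p S * ∏ k ∈ E, if k ∈ S then c k + η else b k + η := by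
      refine continuous_finsetSum _ fun S _ => continuous_const.mul ?_
      refine continuous_finsetProd _ fun k _ => ?_
      split_ifs <;> fun_prop
    simpa using (this.tendsto 0).mono_left (nhdsWithin_le_nhds (s := Set.Ioi 0))
  refine le_of_tendsto_of_tendsto ((c0 a' _).mul (c0 a _)) ((c0 a _).mul (c0 a' _)) ?_
  filter_upwards [self_mem_nhdsWithin] with η hη
  have h2 : (0 : ℝ) < η := hη
  exact negcorr_two_sided_pos hp hst i (a := fun k => a k + η) (a' := fun k => a' k + η)
    (b := fun k => b k + η) (fun k => by linarith [ha k]) (fun k => by linarith [haa k])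
    (by simp only [hi]) (fun k => by linarith [hb k])

theorem negcorr_indicator {E T D S : Finset V} (hT : T ⊆ E) (hS : S ⊆ E) :
    (∏ k ∈ E, if k ∈ S then (if k ∈ D then (0 : ℝ) else 1) else (if k ∈ T then (0 : ℝ) else 1)) =
      if T ⊆ S ∧ Disjoint S D then 1 else 0 := by
  split_ifs with h
  · refine Finset.prod_eq_one fun k _ => ?_
    by_cases hk : k ∈ S
    · rw [if_pos hk, if_neg (Finset.disjoint_left.1 h.2 hk)]
    · rw [if_neg hk, if_neg fun h' => hk (h.1 h')]
  · rw [not_and_or] at h
    rcases h with h | h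
    · obtain ⟨k, h1, h2⟩ := Finset.not_subset.1 h
      exact Finset.prod_eq_zero (hT h1) (by rw [if_neg h2, if_pos h1])
    · obtain ⟨k, h1, h2⟩ := Finset.not_disjoint_iff.1 h
      exact Finset.prod_eq_zero (hS h1) (by rw [if_pos h1, if_pos h2])

theorem negcorr_step {E : Finset V} {p : Finset V → ℝ} (hp : ∀ S, 0 ≤ p S)
    (hst : Stable E p) {T D : Finset V} (hT : T ⊆ E) {i : V} (hi : i ∉ D) :
    (∑ S ∈ E.powerset with insert i T ⊆ S, p S) *
        (∑ S ∈ E.powerset with (T ⊆ S ∧ Disjoint S D), p S) ≤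
      (∑ S ∈ E.powerset with (insert i T ⊆ S ∧ Disjoint S D), p S) *
        ∑ S ∈ E.powerset with T ⊆ S, p S := by
  have h := negcorr_two_sided hp hst i (a := fun k => if k ∈ D then 0 else 1)
    (a' := fun k => if k ∈ (∅ : Finset V) then 0 else 1) (b := fun k => if k ∈ T then 0 else 1)
    (fun k => by split_ifs <;> norm_num) (fun k => by simp; split_ifs <;> norm_num)
    (by simp [hi]) (fun k => by split_ifs <;> norm_num)
  have e1 : ∀ D' : Finset V, (∑ S ∈ E.powerset, p S * ∏ k ∈ E,
      if k ∈ S then (if k ∈ D' then (0 : ℝ) else 1) else (if k ∈ T then (0 : ℝ) else 1)) =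
      ∑ S ∈ E.powerset with (T ⊆ S ∧ Disjoint S D'), p S := by
    intro D'
    rw [Finset.sum_filter]
    refine Finset.sum_congr rfl fun S hS => ?_
    rw [negcorr_indicator hT (Finset.mem_powerset.1 hS)]
    split_ifs <;> simp
  have e2 : ∀ D' : Finset V, (∑ S ∈ E.powerset with i ∈ S, p S * ∏ k ∈ E,
      if k ∈ S then (if k ∈ D' then (0 : ℝ) else 1) else (if k ∈ T then (0 : ℝ) else 1)) =
      ∑ S ∈ E.powerset with (insert i T ⊆ S ∧ Disjoint S D'), p S := by
    intro D'
    rw [Finset.sum_filter, Finset.sum_filter]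
    refine Finset.sum_congr rfl fun S hS => ?_
    rw [negcorr_indicator hT (Finset.mem_powerset.1 hS)]
    simp only [Finset.insert_subset_iff]
    by_cases h1 : i ∈ S <;> by_cases h2 : T ⊆ S ∧ Disjoint S D' <;> simp [h1, h2]
  rw [e1, e1, e2, e2] at h
  simpa using h

end Aux

/-- Stability gives `P(T ⊆ X) P(X ∩ D = ∅) ≤ P(T ⊆ X, X ∩ D = ∅)` for disjoint `T`, `D`. -/
theorem negcorr_of_stable (E : Finset V) (p : Finset V → ℝ) (hp : ∀ S, 0 ≤ p S)
    (hst : Stable E p) (T D : Finset V) (hTD : Disjoint T D) :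
    (∑ S ∈ E.powerset with T ⊆ S, p S) * (∑ S ∈ E.powerset with Disjoint S D, p S) ≤
      (∑ S ∈ E.powerset with (T ⊆ S ∧ Disjoint S D), p S) * ∑ S ∈ E.powerset, p S := by
  have nn : ∀ U : Finset (Finset V), 0 ≤ ∑ S ∈ U, p S := fun U => Finset.sum_nonneg fun S _ => hp S
  by_cases hT : T ⊆ E
  swap
  · have : (E.powerset.filter fun S => T ⊆ S) = ∅ :=
      Finset.filter_eq_empty_iff.2 fun S hS h => hT (h.trans (Finset.mem_powerset.1 hS))
    rw [this, Finset.sum_empty, zero_mul]
    exact mul_nonneg (nn _) (nn _)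
  induction T using Finset.induction_on with
  | empty => simp [mul_comm]
  | insert i T hi ih =>
    have hT' : T ⊆ E := (Finset.subset_insert _ _).trans hT
    have h1 := ih (Finset.disjoint_of_subset_left (Finset.subset_insert _ _) hTD) hT'
    have h2 := negcorr_step hp hst (D := D) hT'
      (Finset.disjoint_left.1 hTD (Finset.mem_insert_self i T))
    have h3 : ∑ S ∈ E.powerset with insert i T ⊆ S, p S ≤ ∑ S ∈ E.powerset with T ⊆ S, p S := by
      refine Finset.sum_le_sum_of_subset_of_nonneg (fun S hS => ?_) fun S _ _ => hp S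
      rw [Finset.mem_filter] at hS ⊢
      exact ⟨hS.1, (Finset.subset_insert _ _).trans hS.2⟩
    rcases (nn (E.powerset.filter fun S => T ⊆ S)).eq_or_lt with h0 | h0
    · have : ∑ S ∈ E.powerset with insert i T ⊆ S, p S = 0 := le_antisymm (h0 ▸ h3) (nn _)
      rw [this, zero_mul]
      exact mul_nonneg (nn _) (nn _)
    · refine le_of_mul_le_mul_right ?_ h0
      nlinarith [mul_le_mul_of_nonneg_left h1 (nn (E.powerset.filter fun S => insert i T ⊆ S)),
        mul_le_mul_of_nonneg_left h2 (nn E.powerset)]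

end Crest.Agent.R168
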