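import Crest.Agent.R168.Defs

set_option autoImplicit false

namespace Crest.Agent.R168

open MeasureTheory ProbabilityTheory Filter Topology

open Crest.ProbabilityR.Labels

theorem noise_nbRank_lt (G : SimpleGraph ℕ) (hfin : ∀ v : ℕ, (G.neighborSet v).Finite) (t : ℕ → ℝ)
    (v u u' : ℕ) (hu : G.Adj v u) (h : t u < t u') : nbRank G t v u < nbRank G t v u' := by
  unfold nbRank
  refine Set.ncard_lt_ncard ⟨fun w hw => ⟨hw.1, hw.2.trans h⟩, fun hsub => ?_⟩
    ((hfin v).subset fun w hw => hw.1)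
  exact lt_irrefl _ (hsub (⟨hu, h⟩ : u ∈ {w | G.Adj v w ∧ t w < t u'})).2

theorem noise_slot (G : SimpleGraph ℕ) (hfin : ∀ v : ℕ, (G.neighborSet v).Finite) (t : ℕ → ℝ)
    (ht : Function.Injective t) :
    ∃ g : G.edgeSet → ℕ × ℕ, Function.Injective g ∧
      ∀ (ξ : ℕ → ℕ → ℝ) (e : G.edgeSet), edgeNoise G t ξ e = ξ (g e).1 (g e).2 := by
  have h1 : ∀ e : G.edgeSet, ∃ u v, (e : Sym2 ℕ) = s(u, v) ∧ G.Adj v u ∧ t u < t v := by
    rintro ⟨e, he⟩
    induction e using Sym2.ind with
    | _ u v =>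
      have hadj : G.Adj u v := he
      rcases lt_or_gt_of_ne (ht.ne hadj.ne) with h | h
      · exact ⟨u, v, rfl, hadj.symm, h⟩
      · exact ⟨v, u, Sym2.eq_swap, hadj, h⟩
  choose u v he hadj hlt using h1
  refine ⟨fun e => (v e, nbRank G t (v e) (u e)), fun e e' h => ?_, fun ξ e => ?_⟩
  · have h2 : v e = v e' := congrArg Prod.fst h
    have h3 : nbRank G t (v e) (u e) = nbRank G t (v e') (u e') := congrArg Prod.snd h
    have h4 : u e = u e' := by
      by_contra hne
      rcases lt_or_gt_of_ne (ht.ne hne) with h5 | h5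
      · have := noise_nbRank_lt G hfin t (v e) (u e) (u e') (hadj e) h5
        rw [h3, h2] at this
        exact lt_irrefl _ this
      · have := noise_nbRank_lt G hfin t (v e') (u e') (u e) (hadj e') h5
        rw [← h3, h2] at this
        exact lt_irrefl _ this
    exact Subtype.ext (by rw [he e, he e', h2, h4])
  · rw [he e]
    simp only [edgeNoise, Sym2.lift_mk, if_pos (hlt e), if_neg (not_lt.2 (hlt e).le), add_zero]

theorem noise_measurable_term (G : SimpleGraph ℕ) (u v : ℕ) :
    Measurable fun p : (ℕ × ℕ → ℝ) × (ℕ × ℕ → ℝ) =>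
      if p.1 (u, 0) < p.1 (v, 0) then p.2 (v, nbRank G (fun w => p.1 (w, 0)) v u) else 0 := by
  have h1 : Measurable fun p : (ℕ × ℕ → ℝ) × (ℕ × ℕ → ℝ) => nbRank G (fun w => p.1 (w, 0)) v u := by
    unfold nbRank
    refine measurable_ncard.comp (measurable_set_iff.2 fun w => ?_)
    exact Measurable.and measurable_const
      (measurableSet_setOfPred.1 (measurableSet_lt (by fun_prop) (by fun_prop)))
  have h2 : Measurable fun r : ((ℕ × ℕ → ℝ) × (ℕ × ℕ → ℝ)) × ℕ => r.1.2 (v, r.2) :=
    measurable_from_prod_countable_left fun k => by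
      change Measurable fun p : (ℕ × ℕ → ℝ) × (ℕ × ℕ → ℝ) => p.2 (v, k)
      fun_prop
  have h3 := h2.comp (measurable_id.prodMk h1)
  exact Measurable.ite (measurableSet_lt (by fun_prop) (by fun_prop)) h3 measurable_const

theorem noise_ae_injective :
    ∀ᵐ t ∂(noiseLaw (ℕ × ℕ)), Function.Injective fun v : ℕ => t (v, 0) := by
  have h1 : ∀ u v : ℕ, ∀ᵐ t ∂(noiseLaw (ℕ × ℕ)), t (u, 0) = t (v, 0) → u = v := by
    intro u v
    by_cases huv : u = v
    · exact Eventually.of_forall fun _ _ => huv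
    · have h2 : (noiseLaw (ℕ × ℕ)).map (fun t => (t (u, 0), t (v, 0))) = lap.prod lap :=
        Measure.infinitePi_map_eval_prod (P := fun _ : ℕ × ℕ => lap) (by simpa using huv)
      have h3 : ∀ᵐ p ∂(lap.prod lap), p.1 ≠ p.2 := by
        have : NullSingletonClass lap := by unfold lap; infer_instance
        refine (Measure.ae_prod_iff_ae_ae
          (measurableSet_eq_fun measurable_fst measurable_snd).compl).2 ?_
        exact Eventually.of_forall fun x => (Measure.ae_ne lap x).mono fun y hy => hy.symm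
      rw [← h2] at h3
      filter_upwards [ae_of_ae_map (Measurable.aemeasurable (by fun_prop)) h3] with t ht h
      exact absurd h ht
  filter_upwards [ae_all_iff.2 fun u => ae_all_iff.2 (h1 u)] with t ht u v h
  exact ht u v h

theorem noise_edge_law (G : SimpleGraph ℕ) (hfin : ∀ v : ℕ, (G.neighborSet v).Finite) :
    Measurable (fun (p : (ℕ × ℕ → ℝ) × (ℕ × ℕ → ℝ)) (e : G.edgeSet) =>
        edgeNoise G (fun v => p.1 (v, 0)) (fun v k => p.2 (v, k)) e) ∧
    ((noiseLaw (ℕ × ℕ)).prod (noiseLaw (ℕ × ℕ))).map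
      (fun (p : (ℕ × ℕ → ℝ) × (ℕ × ℕ → ℝ)) (e : G.edgeSet) =>
        edgeNoise G (fun v => p.1 (v, 0)) (fun v k => p.2 (v, k)) e) = noiseLaw G.edgeSet := by
  have hm : Measurable (fun (p : (ℕ × ℕ → ℝ) × (ℕ × ℕ → ℝ)) (e : G.edgeSet) =>
      edgeNoise G (fun v => p.1 (v, 0)) (fun v k => p.2 (v, k)) e) := by
    refine measurable_pi_lambda _ ?_
    rintro ⟨e, he⟩
    induction e using Sym2.ind with
    | _ u v =>
      simp only [edgeNoise, Sym2.lift_mk]
      exact (noise_measurable_term G u v).add (noise_measurable_term G v u)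
  refine ⟨hm, ?_⟩
  ext s hs
  rw [Measure.map_apply hm hs, Measure.prod_apply (hm hs)]
  rw [lintegral_congr_ae (g := fun _ => noiseLaw G.edgeSet s)]
  · simp
  · filter_upwards [noise_ae_injective] with t ht
    obtain ⟨g, hg, hge⟩ := noise_slot G hfin _ ht
    have h1 : (noiseLaw (ℕ × ℕ)).map (fun ξ e => ξ (g e)) = noiseLaw G.edgeSet :=
      Measure.map_infinitePi_infinitePi_of_inj (P := fun _ : ℕ × ℕ => lap) hg
    rw [← h1, Measure.map_apply (by fun_prop) hs]
    congr 1
    ext ξ
    simp only [Set.mem_preimage, hge]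

/-- Independent Laplace noise on the edges of every locally finite graph, read from independent
uniform labels on the vertices. -/
theorem exists_split :
    ∃ (a : unitInterval → ℝ) (c : unitInterval → ℕ → ℝ), Measurable a ∧ Measurable c ∧
      ∀ G : SimpleGraph ℕ, (∀ v : ℕ, (G.neighborSet v).Finite) →
        (labelMeasure ℕ).map (fun (x : ℕ → unitInterval) (e : G.edgeSet) =>
          edgeNoise G (fun v => a (x v)) (fun v => c (x v)) e) = noiseLaw G.edgeSet := by
  obtain ⟨f, hf, hlaw⟩ := Measure.exists_measurable_map_eq (noiseLaw (Bool × ℕ))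
  refine ⟨fun u => f u (false, 0), fun u k => f u (true, k), by fun_prop, by fun_prop,
    fun G hfin => ?_⟩
  obtain ⟨hm, hG⟩ := noise_edge_law G hfin
  have h1 : (labelMeasure ℕ).map (fun x v => f (x v)) =
      Measure.infinitePi fun _ : ℕ => Measure.infinitePi fun _ : Bool × ℕ => lap := by
    unfold labelMeasure
    rw [Measure.infinitePi_map_pi (f := fun _ => f) _ (fun _ => hf)]
    simp only [hlaw]
    rfl
  have h2 := Measure.infinitePi_map_curry_symm (fun (_ : ℕ) (_ : Bool × ℕ) => lap)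
  have h3 := Measure.map_infinitePi_infinitePi_of_inj (P := fun _ : ℕ × (Bool × ℕ) => lap)
    (f := fun q : Bool × (ℕ × ℕ) => (q.2.1, (q.1, q.2.2))) (by
      rintro ⟨b, v, k⟩ ⟨b', v', k'⟩ h
      simp only [Prod.mk.injEq] at h
      obtain ⟨rfl, rfl, rfl⟩ := h
      rfl)
  have h4 := Measure.infinitePi_map_curry (fun (_ : Bool) (_ : ℕ × ℕ) => lap)
  have h5 := Measure.infinitePi_map_eval_prod
    (P := fun _ : Bool => Measure.infinitePi fun _ : ℕ × ℕ => lap) (i := false) (j := true)
    (by simp)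
  have hx : Measurable fun (x : ℕ → unitInterval) (v : ℕ) => f (x v) := by fun_prop
  rw [← h4, ← h3, ← h2, ← h1, Measure.map_map (by fun_prop) (by fun_prop),
    Measure.map_map (by fun_prop) (by fun_prop), Measure.map_map (by fun_prop) (by fun_prop),
    Measure.map_map (by fun_prop) hx] at h5
  unfold noiseLaw at hG ⊢
  rw [← hG, ← h5, Measure.map_map hm (by fun_prop)]
  rfl

end Crest.Agent.R168
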