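import Crest.Agent.R168.Tilt

set_option autoImplicit false

namespace Crest.Agent.R168

open MeasureTheory ProbabilityTheory Filter Topology

variable {V : Type*}

theorem measurable_obs (s : ℝ) : Measurable (obs s : (V → Bool) × (V → ℝ) → V → ℝ) := by
  refine measurable_pi_lambda _ fun j => ?_
  have : Measurable fun x : V → Bool => chi (x j) := measurable_chi.comp (measurable_pi_apply j)
  unfold obs
  fun_prop

instance mu_prob (ν : Measure (V → Bool)) [IsProbabilityMeasure ν] (s : ℝ) :
    IsProbabilityMeasure (mu ν s) :=
  Measure.isProbabilityMeasure_map (measurable_obs s).aemeasurable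

theorem posterior_pi_lap (ι : Type*) [Fintype ι] :
    Measure.pi (fun _ : ι => lap) = (volume : Measure (ι → ℝ)).withDensity
      fun z => ENNReal.ofReal (∏ j, Real.exp (-|z j|) / 2) := by
  refine Measure.pi_eq fun s hs => ?_
  have hint : Integrable (fun z : ℝ => Real.exp (-|z|) / 2) := integrable_exp_neg_abs.div_const 2
  rw [withDensity_apply _ (MeasurableSet.univ_pi hs), volume_pi, Measure.restrict_pi_pi,
    ← ofReal_integral_eq_lintegral_ofReal
      (Integrable.fintype_prod (f := fun _ z => Real.exp (-|z|) / 2) fun j => hint.restrict)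
      (Eventually.of_forall fun z => Finset.prod_nonneg fun j _ => by positivity),
    integral_fintype_prod_eq_prod (f := fun _ z => Real.exp (-|z|) / 2),
    ENNReal.ofReal_prod_of_nonneg fun j _ => integral_nonneg fun z => by positivity]
  refine Finset.prod_congr rfl fun j _ => ?_
  rw [lap, withDensity_apply _ (hs j), ← ofReal_integral_eq_lintegral_ofReal hint.restrict
    (Eventually.of_forall fun z => by positivity)]

theorem posterior_shift_fin (ι : Type*) [Fintype ι] (a : ι → ℝ) (G : (ι → ℝ) → ℝ) :
    ∫ z, G (a + z) ∂(Measure.pi fun _ : ι => lap) =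
      ∫ z, Real.exp (∑ j, (|z j| - |z j - a j|)) * G z ∂(Measure.pi fun _ : ι => lap) := by
  have hm : Measurable fun z : ι → ℝ => ENNReal.ofReal (∏ j, Real.exp (-|z j|) / 2) := by
    fun_prop
  have hnn : ∀ z : ι → ℝ, 0 ≤ ∏ j, Real.exp (-|z j|) / 2 :=
    fun z => Finset.prod_nonneg fun j _ => by positivity
  rw [posterior_pi_lap, integral_withDensity_eq_integral_toReal_smul hm
      (Eventually.of_forall fun _ => ENNReal.ofReal_lt_top),
    integral_withDensity_eq_integral_toReal_smul hm
      (Eventually.of_forall fun _ => ENNReal.ofReal_lt_top)]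
  simp only [ENNReal.toReal_ofReal (hnn _), smul_eq_mul]
  rw [← integral_add_left_eq_self (μ := (volume : Measure (ι → ℝ)))
    (fun z : ι → ℝ => (∏ j, Real.exp (-|z j|) / 2) *
      (Real.exp (∑ j, (|z j| - |z j - a j|)) * G z)) a]
  refine integral_congr_ae (Eventually.of_forall fun z => ?_)
  simp only [Pi.add_apply, add_sub_cancel_left]
  rw [← mul_assoc, Real.exp_sum, ← Finset.prod_mul_distrib]
  congr 1
  refine Finset.prod_congr rfl fun j _ => ?_
  rw [div_mul_eq_mul_div, ← Real.exp_add]
  congr 2
  ring

theorem posterior_shift (W : Finset V) (a : V → ℝ) (G : (V → ℝ) → ℝ) (hG : Measurable G)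
    (hdep : ∀ y y' : V → ℝ, (∀ j ∈ W, y j = y' j) → G y = G y') :
    ∫ z, G (a + z) ∂(noiseLaw V) =
      ∫ z, Real.exp (∑ j ∈ W, (|z j| - |z j - a j|)) * G z ∂(noiseLaw V) := by
  classical
  set ext : (W → ℝ) → V → ℝ := fun w j => if h : j ∈ W then w ⟨j, h⟩ else 0 with hext
  have hextm : Measurable ext := by
    refine measurable_pi_lambda _ fun j => ?_
    by_cases h : j ∈ W
    · simp only [hext, h, dif_pos]; fun_prop
    · simp only [hext, h, dif_neg, not_false_eq_true]; fun_prop
  have hGe : Measurable fun w : W → ℝ => G (ext w) := hG.comp hextm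
  have h1 := posterior_shift_fin W (W.restrict a) (fun w => G (ext w))
  unfold noiseLaw
  have hGe2 : Measurable fun w : W → ℝ => G (ext (W.restrict a + w)) :=
    hGe.comp (measurable_const_add _)
  rw [← integral_restrict_infinitePi (μ := fun _ : V => lap) hGe2.aestronglyMeasurable,
    ← integral_restrict_infinitePi (μ := fun _ : V => lap)
      (Measurable.aestronglyMeasurable (by fun_prop))] at h1
  convert h1 using 3 with z z
  · refine hdep _ _ fun j hj => ?_
    simp [hext, hj]
  · congr 1
    · congr 1
      rw [← Finset.sum_coe_sort W]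
      rfl
    · refine hdep _ _ fun j hj => ?_
      simp [hext, hj]

theorem posterior_abs_phi_le (s y : ℝ) : |phi s y| ≤ |s| := by
  have := abs_abs_sub_abs_le_abs_sub y (y - s)
  simpa [phi] using this

theorem posterior_measurable_field (s : ℝ) (j : V) : Measurable fun y : V → ℝ => field s y j := by
  unfold field phi
  fun_prop

theorem posterior_bayes (ν : Measure (V → Bool)) [IsProbabilityMeasure ν] (W : Finset V) (s : ℝ)
    (G : (V → ℝ) → ℝ) (hG : Measurable G) (hGb : ∀ y, |G y| ≤ 1)
    (hdep : ∀ y y' : V → ℝ, (∀ j ∈ W, y j = y' j) → G y = G y')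
    (u : (V → Bool) → ℝ) (hu : Measurable u) (hub : ∀ x, |u x| ≤ 1) :
    ∫ p, G (obs s p) * u p.1 ∂(ν.prod (noiseLaw V)) =
      ∫ z, G z * ∫ x, u x * Real.exp (∑ j ∈ W, field s z j * chi (x j)) ∂ν ∂(noiseLaw V) := by
  have hobs := measurable_obs (V := V) s
  have hchi : ∀ j, Measurable fun x : V → Bool => chi (x j) := fun j =>
    measurable_chi.comp (measurable_pi_apply j)
  have hI : Integrable (fun p : (V → Bool) × (V → ℝ) => G (obs s p) * u p.1)
      (ν.prod (noiseLaw V)) := by
    refine Integrable.of_bound (Measurable.aestronglyMeasurable (by fun_prop)) 1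
      (Eventually.of_forall fun p => ?_)
    rw [Real.norm_eq_abs, abs_mul]
    exact mul_le_one₀ (hGb _) (abs_nonneg _) (hub _)
  have hsum : Measurable fun p : (V → Bool) × (V → ℝ) => ∑ j ∈ W, field s p.2 j * chi (p.1 j) := by
    refine Finset.measurable_sum _ fun j _ => ?_
    have h1 := posterior_measurable_field (V := V) s j
    have h2 := hchi j
    fun_prop
  have hI2 : Integrable (Function.uncurry fun (x : V → Bool) (z : V → ℝ) =>
      G z * (u x * Real.exp (∑ j ∈ W, field s z j * chi (x j)))) (ν.prod (noiseLaw V)) := by
    refine Integrable.of_bound (Measurable.aestronglyMeasurable ?_) (Real.exp (∑ _j ∈ W, |s|))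
      (Eventually.of_forall fun p => ?_)
    · change Measurable fun p : (V → Bool) × (V → ℝ) =>
        G p.2 * (u p.1 * Real.exp (∑ j ∈ W, field s p.2 j * chi (p.1 j)))
      fun_prop
    · change ‖G p.2 * (u p.1 * Real.exp (∑ j ∈ W, field s p.2 j * chi (p.1 j)))‖ ≤ _
      rw [Real.norm_eq_abs, abs_mul, abs_mul, abs_of_pos (Real.exp_pos _)]
      have h3 : Real.exp (∑ j ∈ W, field s p.2 j * chi (p.1 j)) ≤ Real.exp (∑ _j ∈ W, |s|) := by
        refine Real.exp_le_exp.2 (Finset.sum_le_sum fun j _ => ?_)
        refine (le_abs_self _).trans ?_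
        rw [abs_mul, abs_of_nonneg (chi_nonneg _)]
        calc _ ≤ |s| * 1 := mul_le_mul (posterior_abs_phi_le _ _) (chi_le_one _) (chi_nonneg _)
              (abs_nonneg _)
          _ = _ := mul_one _
      calc _ ≤ 1 * (1 * Real.exp (∑ _j ∈ W, |s|)) :=
            mul_le_mul (hGb _) (mul_le_mul (hub _) h3 (Real.exp_pos _).le zero_le_one)
              (by positivity) zero_le_one
        _ = _ := by ring
  rw [integral_prod _ hI]
  simp_rw [← integral_const_mul]
  rw [← integral_integral_swap hI2]
  refine integral_congr_ae (Eventually.of_forall fun x => ?_)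
  have h4 := posterior_shift W (fun j => s * chi (x j)) G hG hdep
  simp only
  rw [integral_mul_const]
  have h5 : ∀ z : V → ℝ, obs s (x, z) = (fun j => s * chi (x j)) + z := fun z => rfl
  simp only [h5]
  rw [h4, ← integral_mul_const]
  refine integral_congr_ae (Eventually.of_forall fun z => ?_)
  have h6 : ∑ j ∈ W, (|z j| - |z j - s * chi (x j)|) = ∑ j ∈ W, field s z j * chi (x j) := by
    refine Finset.sum_congr rfl fun j _ => ?_
    unfold field phi chi
    split_ifs <;> simp
  simp only [h6]
  ring

theorem posterior_tiltMean_congr [DecidableEq V] (q : Finset V → ℝ) (W : Finset V) (i : V)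
    (h h' : V → ℝ) (hh : ∀ j ∈ W, h j = h' j) : tiltMean q W i h = tiltMean q W i h' := by
  unfold tiltMean tiltN tiltZ
  have : ∀ T ∈ W.powerset, ∏ j ∈ T, (Real.exp (h j) - 1) = ∏ j ∈ T, (Real.exp (h' j) - 1) :=
    fun T hT => Finset.prod_congr rfl fun j hj => by rw [hh j (Finset.mem_powerset.1 hT hj)]
  congr 1 <;> exact Finset.sum_congr rfl fun T hT => by rw [this T hT]

/-- Finite-window Bayes formula, tested against functions of the window. -/
theorem posterior_window [DecidableEq V] (ν : Measure (V → Bool)) [IsProbabilityMeasure ν]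
    (W : Finset V) (i : V) (s : ℝ) (G : (V → ℝ) → ℝ) (hG : Measurable G) (hGb : ∀ y, |G y| ≤ 1)
    (hdep : ∀ y y' : V → ℝ, (∀ j ∈ W, y j = y' j) → G y = G y') :
    ∫ y, G y * tiltMean (incl ν) W i (field s y) ∂(mu ν s) =
      ∫ p, G (obs s p) * chi (p.1 i) ∂(ν.prod (noiseLaw V)) := by
  have hm : Measurable fun y : V → ℝ => tiltMean (incl ν) W i (field s y) :=
    measurable_tiltMean (fun _ => incl ν) (fun _ => measurable_const) W i _
      (posterior_measurable_field s)
  rw [mu, integral_map (measurable_obs s).aemeasurable (hG.fun_mul hm).aestronglyMeasurable]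
  have h1 := posterior_bayes ν W s (fun y => G y * tiltMean (incl ν) W i (field s y)) (hG.mul hm)
    (fun y => by
      rw [abs_mul, abs_of_nonneg (tiltMean_incl_nonneg ν W i _)]
      exact mul_le_one₀ (hGb _) (tiltMean_incl_nonneg ν W i _) (tiltMean_incl_le_one ν W i _))
    (fun y y' hy => by
      rw [hdep y y' hy, posterior_tiltMean_congr _ W i (field s y) (field s y')
        fun j hj => by simp only [field, hy j hj]])
    (fun _ => 1) measurable_const (fun _ => by simp)
  have h2 := posterior_bayes ν W s G hG hGb hdep (fun x => chi (x i))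
    (measurable_chi.comp (measurable_pi_apply i))
    (fun x => by rw [abs_of_nonneg (chi_nonneg _)]; exact chi_le_one _)
  simp only [mul_one, one_mul] at h1
  rw [h1, h2]
  refine integral_congr_ae (Eventually.of_forall fun z => ?_)
  simp only
  rw [← tiltZ_incl, ← tiltN_incl, tiltMean, mul_assoc,
    div_mul_cancel₀ _ (tiltZ_incl_pos ν W _).ne']

/-- The posterior law of `X` given the observation at time `s`: adding `h` times a posterior sample
gives the observation law at time `s + h`, and the posterior means are the drift. -/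
theorem exists_posterior [Countable V] [DecidableEq V] (ν : Measure (V → Bool))
    [IsProbabilityMeasure ν] (F : V → ℕ → Finset V) (hmono : ∀ i, Monotone (F i))
    (hex : ∀ i j, ∃ n, j ∈ F i n) (s : ℝ) :
    ∃ κ : Kernel (V → ℝ) (V → Bool), IsMarkovKernel κ ∧
      (∀ h : ℝ, (mu ν s ⊗ₘ κ).map (fun p j => p.1 j + h * chi (p.2 j)) = mu ν (s + h)) ∧
      ∀ i, ∀ᵐ y ∂(mu ν s), ∫ x, chi (x i) ∂(κ y) = drift (incl ν) F i (field s y) := by
  have hobs := measurable_obs (V := V) s
  have hchi : ∀ j, Measurable fun x : V → Bool => chi (x j) := fun j =>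
    measurable_chi.comp (measurable_pi_apply j)
  set P := ν.prod (noiseLaw V) with hP
  set κ : Kernel (V → ℝ) (V → Bool) := condDistrib Prod.fst (obs s) P with hκ
  have hjoint : mu ν s ⊗ₘ κ = P.map fun p => (obs s p, p.1) :=
    compProd_map_condDistrib measurable_fst.aemeasurable
  have hjm : Measurable fun p : (V → Bool) × (V → ℝ) => (obs s p, p.1) := hobs.prodMk measurable_fst
  refine ⟨κ, inferInstance, fun h => ?_, fun i => ?_⟩
  · have hs : Measurable fun (p : (V → ℝ) × (V → Bool)) (j : V) => p.1 j + h * chi (p.2 j) := by
      refine measurable_pi_lambda _ fun j => ?_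
      have := hchi j
      fun_prop
    rw [hjoint, Measure.map_map hs hjm, mu]
    congr 1
    funext p j
    simp only [Function.comp_apply, obs]
    ring
  · set g : (V → ℝ) → ℝ := fun y => ∫ x, chi (x i) ∂(κ y) with hg
    have hgm : StronglyMeasurable g :=
      (hchi i).stronglyMeasurable.integral_kernel (κ := κ)
    have hgb : ∀ y, ‖g y‖ ≤ 1 := fun y => by
      have := norm_integral_le_of_norm_le_const (μ := κ y) (C := 1)
        (f := fun x : V → Bool => chi (x i)) (Eventually.of_forall fun x => by
          rw [Real.norm_eq_abs, abs_of_nonneg (chi_nonneg _)]; exact chi_le_one _)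
      simpa using this
    have hgint : Integrable g (mu ν s) :=
      Integrable.of_bound hgm.aestronglyMeasurable 1 (Eventually.of_forall hgb)
    let ℱ : Filtration ℕ (MeasurableSpace.pi : MeasurableSpace (V → ℝ)) :=
      { seq := fun n => Filtration.piFinset (X := fun _ : V => ℝ) (F i n)
        mono' := fun m n hmn => (Filtration.piFinset (X := fun _ : V => ℝ)).mono (hmono i hmn)
        le' := fun n => (Filtration.piFinset (X := fun _ : V => ℝ)).le _ }
    have hsup : (MeasurableSpace.pi : MeasurableSpace (V → ℝ)) ≤ ⨆ n, ℱ n := by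
      refine iSup_le fun j => ?_
      obtain ⟨n, hn⟩ := hex i j
      refine le_iSup_of_le n ?_
      have : (fun y : V → ℝ => y j) = (fun w : F i n → ℝ => w ⟨j, hn⟩) ∘ (F i n).restrict := rfl
      change MeasurableSpace.comap (fun y : V → ℝ => y j) _ ≤
        MeasurableSpace.comap (F i n).restrict _
      rw [this, ← MeasurableSpace.comap_comp]
      exact MeasurableSpace.comap_mono (measurable_pi_apply _).comap_le
    have hlim := hgint.tendsto_ae_condExp (ℱ := ℱ) (hgm.mono hsup)
    have hce : ∀ n, (fun y => tiltMean (incl ν) (F i n) i (field s y)) =ᵐ[mu ν s]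
        (mu ν s)[g | ℱ n] := by
      intro n
      have hm : Measurable fun y : V → ℝ => tiltMean (incl ν) (F i n) i (field s y) :=
        measurable_tiltMean (fun _ => incl ν) (fun _ => measurable_const) _ i _
          (posterior_measurable_field s)
      have hmi : Integrable (fun y : V → ℝ => tiltMean (incl ν) (F i n) i (field s y)) (mu ν s) :=
        Integrable.of_bound hm.aestronglyMeasurable 1 (Eventually.of_forall fun y => by
          rw [Real.norm_eq_abs, abs_of_nonneg (tiltMean_incl_nonneg ν _ i _)]
          exact tiltMean_incl_le_one ν _ i _)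
      refine ae_eq_condExp_of_forall_setIntegral_eq (ℱ.le n) hgint
        (fun A _ _ => hmi.integrableOn) (fun A hA _ => ?_) ?_
      · classical
        have hA' : MeasurableSet A := ℱ.le n A hA
        obtain ⟨B, -, rfl⟩ := hA
        set G : (V → ℝ) → ℝ := ((F i n).restrict ⁻¹' B).indicator 1 with hG
        have hGm : Measurable G := measurable_one.indicator hA'
        have hGb : ∀ y, |G y| ≤ 1 := fun y => by
          simp only [hG, Set.indicator_apply]; split_ifs <;> simp
        have hdep : ∀ y y' : V → ℝ, (∀ j ∈ F i n, y j = y' j) → G y = G y' := by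
          intro y y' hy
          have : (F i n).restrict y = (F i n).restrict y' := funext fun j => hy j j.2
          simp only [hG, Set.indicator_apply, Set.mem_preimage, this, Pi.one_apply]
        have h1 := posterior_window ν (F i n) i s G hGm hGb hdep
        have hI : Integrable (fun q : (V → ℝ) × (V → Bool) => G q.1 * chi (q.2 i))
            (mu ν s ⊗ₘ κ) := by
          have := hchi i
          refine Integrable.of_bound (Measurable.aestronglyMeasurable (by fun_prop)) 1
            (Eventually.of_forall fun p => ?_)
          rw [Real.norm_eq_abs, abs_mul, abs_of_nonneg (chi_nonneg _)]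
          exact mul_le_one₀ (hGb _) (chi_nonneg _) (chi_le_one _)
        have h2 : ∫ p, G (obs s p) * chi (p.1 i) ∂P = ∫ y, G y * g y ∂(mu ν s) := by
          have h3 := Measure.integral_compProd hI
          have h4 := hchi i
          rw [hjoint, integral_map hjm.aemeasurable
            (Measurable.aestronglyMeasurable (by fun_prop))] at h3
          rw [h3]
          simp only [hg, integral_const_mul]
        rw [← integral_indicator hA', ← integral_indicator hA']
        have h5 : ∀ u : (V → ℝ) → ℝ, ((F i n).restrict ⁻¹' B).indicator u = fun y => G y * u y := by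
          intro u
          funext y
          simp only [hG, Set.indicator_apply]; split_ifs <;> simp
        rw [h5, h5, h1, h2]
      · refine Measurable.aestronglyMeasurable ?_
        set ext : (F i n → ℝ) → V → ℝ := fun w j => if h : j ∈ F i n then w ⟨j, h⟩ else 0 with hext
        have hextm : Measurable ext := by
          refine measurable_pi_lambda _ fun j => ?_
          by_cases h : j ∈ F i n
          · simp only [hext, h, dif_pos]; fun_prop
          · simp only [hext, h, dif_neg, not_false_eq_true]; fun_prop
        have h6 : (fun y : V → ℝ => tiltMean (incl ν) (F i n) i (field s y)) =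
            ((fun y : V → ℝ => tiltMean (incl ν) (F i n) i (field s y)) ∘ ext) ∘
              (F i n).restrict := by
          funext y
          refine posterior_tiltMean_congr _ _ _ _ _ fun j hj => ?_
          simp [field, hext, hj]
        rw [h6]
        exact (hm.comp hextm).comp (comap_measurable _)
    filter_upwards [hlim, ae_all_iff.2 hce] with y hy hy2
    have : Tendsto (fun n => tiltMean (incl ν) (F i n) i (field s y)) atTop (𝓝 (g y)) := by
      simpa only [hy2] using hy
    exact this.limsup_eq.symm

end Crest.Agent.R168
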