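import Crest.Agent.R168.Trees
import Crest.Agent.R168.CauchyBinet

set_option autoImplicit false

namespace Crest.Agent.R168

open MeasureTheory ProbabilityTheory Filter Topology

open Crest.ProbabilityR.SpanningTrees

/-- Signed incidence numbers for an arbitrary orientation of the pairs. -/
noncomputable def tsInc (e : Sym2 ℕ) (v : ℕ) : ℤ :=
  (if v = (Quot.out e).1 then 1 else 0) - (if v = (Quot.out e).2 then 1 else 0)

theorem ts_mk_out (e : Sym2 ℕ) : s((Quot.out e).1, (Quot.out e).2) = e := Quot.out_eq e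

/-- Extension by zero of a vector indexed by a finite set. -/
noncomputable def tsExt {K : Type*} [Zero K] (W : Finset ℕ) (x : W → K) (v : ℕ) : K :=
  if h : v ∈ W then x ⟨v, h⟩ else 0

theorem ts_sum_ite {K : Type*} [CommRing K] (W : Finset ℕ) (x : W → K) (u : ℕ) :
    ∑ v : W, x v * (if (v : ℕ) = u then 1 else 0) = tsExt W x u := by
  unfold tsExt
  split_ifs with h
  · rw [Finset.sum_eq_single ⟨u, h⟩]
    · simp
    · intro b _ hb
      have : (b : ℕ) ≠ u := fun h' => hb (Subtype.ext h')
      simp [this]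
    · simp
  · refine Finset.sum_eq_zero fun v _ => ?_
    have : (v : ℕ) ≠ u := fun h' => h (h' ▸ v.2)
    simp [this]

theorem ts_sum_inc {K : Type*} [CommRing K] (W : Finset ℕ) (x : W → K) (e : Sym2 ℕ) :
    ∑ v : W, x v * ((tsInc e v : ℤ) : K) =
      tsExt W x (Quot.out e).1 - tsExt W x (Quot.out e).2 := by
  rw [← ts_sum_ite, ← ts_sum_ite, ← Finset.sum_sub_distrib]
  refine Finset.sum_congr rfl fun v _ => ?_
  unfold tsInc
  push_cast
  ring

theorem ts_eq_zero_of_conn {K : Type*} [Zero K] (S : Finset ℕ) (r : ℕ) (hr : r ∈ S)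
    (A : Finset (Sym2 ℕ)) (hA : Conn S A) (x : S.erase r → K)
    (hx : ∀ e ∈ A, tsExt (S.erase r) x (Quot.out e).1 = tsExt (S.erase r) x (Quot.out e).2) :
    x = 0 := by
  have h1 := hA (fun v => tsExt (S.erase r) x v = 0) (fun u v huv => by
    have h2 := hx _ huv
    have h3 := ts_mk_out s(u, v)
    rcases Sym2.eq_iff.1 h3 with ⟨h4, h5⟩ | ⟨h4, h5⟩
    · rw [h4, h5] at h2; simp only [h2]
    · rw [h4, h5] at h2; simp only [h2])
  funext v
  have h6 := (h1 r hr v (Finset.mem_of_mem_erase v.2)).1 (by simp [tsExt])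
  simpa [tsExt, v.2] using h6

theorem ts_det_eq_zero_iff (K : Type*) [Field K] (G : SimpleGraph ℕ) (S : Finset ℕ) (r : ℕ)
    (hr : r ∈ S) (f : S.erase r → Sym2 ℕ) (hf : ∀ i, f i ∈ edgesIn G S) :
    Matrix.det (Matrix.of fun i j : S.erase r => ((tsInc (f j) i : ℤ) : K)) = 0 ↔
      ¬ Conn S (Finset.univ.image f) := by
  classical
  rw [← Matrix.exists_vecMul_eq_zero_iff]
  constructor
  · rintro ⟨x, hx0, hx⟩ hconn
    refine hx0 (ts_eq_zero_of_conn S r hr _ hconn x fun e he => ?_)
    obtain ⟨j, -, rfl⟩ := Finset.mem_image.1 he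
    have := congrFun hx j
    simp only [Matrix.vecMul, dotProduct, Matrix.of_apply, Pi.zero_apply] at this
    rw [ts_sum_inc] at this
    exact sub_eq_zero.1 this
  · intro hconn
    unfold Conn at hconn
    push Not at hconn
    obtain ⟨φ, hφ, u, hu, v, hv, huv⟩ := hconn
    have hw : ∃ w ∈ S, ¬ (φ w ↔ φ r) := by
      by_contra hcon
      push Not at hcon
      have h1 := hcon u hu
      have h2 := hcon v hv
      tauto
    obtain ⟨w, hw, hwr⟩ := hw
    have hext : ∀ v ∈ S, tsExt (S.erase r) (fun v => if (φ v ↔ φ r) then (0 : K) else 1) v =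
        if (φ v ↔ φ r) then (0 : K) else 1 := by
      intro v hv
      unfold tsExt
      by_cases h : v = r
      · simp [h]
      · rw [dif_pos (Finset.mem_erase.2 ⟨h, hv⟩)]
    refine ⟨fun v => if (φ v ↔ φ r) then 0 else 1, fun h0 => ?_, ?_⟩
    · have hwne : w ≠ r := fun h => hwr (by rw [h])
      have := congrFun h0 ⟨w, Finset.mem_erase.2 ⟨hwne, hw⟩⟩
      simp [hwr] at this
    · funext j
      simp only [Matrix.vecMul, dotProduct, Matrix.of_apply, Pi.zero_apply]
      rw [ts_sum_inc]
      have h1 := hf j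
      rw [← ts_mk_out (f j), mem_edgesIn] at h1
      have h2 := hφ (Quot.out (f j)).1 (Quot.out (f j)).2 (by
        rw [ts_mk_out]; exact Finset.mem_image_of_mem _ (Finset.mem_univ j))
      rw [hext _ h1.2.1, hext _ h1.2.2, sub_eq_zero]
      simp only [h2]

open Classical in
theorem ts_det_sq (G : SimpleGraph ℕ) (S : Finset ℕ) (r : ℕ)
    (hr : r ∈ S) (f : S.erase r → Sym2 ℕ) (hf : ∀ i, f i ∈ edgesIn G S) :
    (Matrix.det (Matrix.of fun i j : S.erase r => tsInc (f j) i)) ^ 2 =
      if Conn S (Finset.univ.image f) then 1 else 0 := by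
  have hcast : ∀ (K : Type) [Field K],
      ((Matrix.det (Matrix.of fun i j : S.erase r => tsInc (f j) i) : ℤ) : K) =
      Matrix.det (Matrix.of fun i j : S.erase r => ((tsInc (f j) i : ℤ) : K)) := by
    intro K _
    have := RingHom.map_det (Int.castRingHom K) (Matrix.of fun i j : S.erase r => tsInc (f j) i)
    exact this
  split_ifs with h
  · set d := Matrix.det (Matrix.of fun i j : S.erase r => tsInc (f j) i) with hd
    have h1 : d.natAbs = 1 := by
      by_contra hne
      obtain ⟨p, hp, hpd⟩ := Nat.exists_prime_and_dvd hne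
      have : Fact p.Prime := ⟨hp⟩
      have h2 : ((d : ℤ) : ZMod p) = 0 :=
        (ZMod.intCast_zmod_eq_zero_iff_dvd d p).2 (Int.natCast_dvd.2 hpd)
      rw [hcast] at h2
      exact (ts_det_eq_zero_iff (ZMod p) G S r hr f hf).1 h2 (by convert h)
    rw [← Int.natAbs_sq, h1]; rfl
  · have h2 := (ts_det_eq_zero_iff ℚ G S r hr f hf).2 (by convert h)
    rw [← hcast] at h2
    have : Matrix.det (Matrix.of fun i j : S.erase r => tsInc (f j) i) = 0 := by exact_mod_cast h2
    rw [this]; rfl

open Classical in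
/-- Weighted matrix-tree theorem. -/
theorem ts_matrix_tree (G : SimpleGraph ℕ) (S : Finset ℕ) (r : ℕ) (hr : r ∈ S) (z : Sym2 ℕ → ℂ) :
    Matrix.det (Matrix.of fun i j : S.erase r =>
      ∑ e ∈ edgesIn G S, ((tsInc e i : ℤ) : ℂ) * (z e * ((tsInc e j : ℤ) : ℂ))) =
      ∑ A ∈ (edgesIn G S).powerset,
        (((if IsSpanningTreeOn G S A then 1 else 0 : ℝ) : ℝ) : ℂ) * ∏ e ∈ A, z e := by
  have hcard : Fintype.card (S.erase r) + 1 = S.card := by
    rw [Fintype.card_coe, Finset.card_erase_add_one hr]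
  refine cauchy_binet (edgesIn G S) (fun (i : S.erase r) e => ((tsInc e i : ℤ) : ℂ))
    (fun e (j : S.erase r) => z e * ((tsInc e j : ℤ) : ℂ)) _ (fun A _ hA => ?_)
    (fun f hinj hf => ?_)
  · rw [if_neg]
    · simp
    · rw [isSpanningTreeOn_iff]
      rintro ⟨-, h, -⟩
      omega
  · have h1 := ts_det_sq G S r hr f hf
    have h2 : ((Matrix.det (Matrix.of fun i j : S.erase r => tsInc (f j) i) : ℤ) : ℂ) =
        Matrix.det (Matrix.of fun i j : S.erase r => ((tsInc (f j) i : ℤ) : ℂ)) :=
      RingHom.map_det (Int.castRingHom ℂ) (Matrix.of fun i j : S.erase r => tsInc (f j) i)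
    have h3 : Matrix.det (Matrix.of fun i j : S.erase r => z (f i) * ((tsInc (f i) j : ℤ) : ℂ)) =
        (∏ i, z (f i)) *
          Matrix.det (Matrix.of fun i j : S.erase r => ((tsInc (f j) i : ℤ) : ℂ)) := by
      rw [← Matrix.det_transpose (Matrix.of fun i j : S.erase r => ((tsInc (f j) i : ℤ) : ℂ)),
        ← Matrix.det_mul_column]
      rfl
    have h4 : IsSpanningTreeOn G S (Finset.univ.image f) ↔ Conn S (Finset.univ.image f) := by
      rw [isSpanningTreeOn_iff]
      refine ⟨fun h => h.2.2, fun h => ⟨fun e he => ?_, ?_, h⟩⟩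
      · obtain ⟨j, -, rfl⟩ := Finset.mem_image.1 he
        exact hf j
      · rw [Finset.card_image_of_injective _ hinj, Finset.card_univ, hcard]
    rw [h3, ← h2, Finset.prod_image fun i _ j _ hij => hinj hij, mul_left_comm, ← sq,
      ← Int.cast_pow, h1, mul_comm]
    congr 1
    by_cases h : Conn S (Finset.univ.image f)
    · rw [if_pos (h4.2 h), if_pos (by convert h)]; simp
    · rw [if_neg (fun h' => h (h4.1 h')), if_neg (by convert h)]; simp

open Classical in
/-- The spanning tree polynomial of a connected finite piece is stable. -/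
theorem tree_stable (G : SimpleGraph ℕ) (S : Finset ℕ) (hS : (G.induce (S : Set ℕ)).Connected) :
    Stable (edgesIn G S) (fun A => if IsSpanningTreeOn G S A then 1 else 0) := by
  obtain ⟨⟨r, hr⟩, hconn⟩ := (induce_connected_iff G S).1 hS
  intro z hz h0
  rw [← ts_matrix_tree G S r hr z, ← Matrix.exists_mulVec_eq_zero_iff] at h0
  obtain ⟨x, hx0, hx⟩ := h0
  set d : Sym2 ℕ → ℂ := fun e => ∑ v : S.erase r, x v * ((tsInc e v : ℤ) : ℂ) with hd
  have h1 : ∑ e ∈ edgesIn G S, z e * (Complex.normSq (d e) : ℂ) = 0 := by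
    have h2 : ∑ v : S.erase r, (starRingEnd ℂ) (x v) * ∑ w : S.erase r,
        (∑ e ∈ edgesIn G S, ((tsInc e v : ℤ) : ℂ) * (z e * ((tsInc e w : ℤ) : ℂ))) * x w = 0 := by
      refine Finset.sum_eq_zero fun v _ => ?_
      have := congrFun hx v
      simp only [Matrix.mulVec, dotProduct, Matrix.of_apply, Pi.zero_apply] at this
      rw [this, mul_zero]
    rw [← h2]
    simp only [Complex.normSq_eq_conj_mul_self, hd, map_sum, map_mul, map_intCast, Finset.mul_sum,
      Finset.sum_mul]
    rw [Finset.sum_comm]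
    conv_rhs => rw [Finset.sum_comm]
    refine Finset.sum_congr rfl fun w _ => ?_
    rw [Finset.sum_comm]
    refine Finset.sum_congr rfl fun v _ => Finset.sum_congr rfl fun e _ => ?_
    ring
  have h3 : ∑ e ∈ edgesIn G S, (z e).im * Complex.normSq (d e) = 0 := by
    have := congrArg Complex.im h1
    simpa [Complex.im_sum] using this
  rw [Finset.sum_eq_zero_iff_of_nonneg fun e he =>
    mul_nonneg (hz e he).le (Complex.normSq_nonneg _)] at h3
  refine hx0 (ts_eq_zero_of_conn S r hr _ hconn x fun e he => ?_)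
  have h4 := (mul_eq_zero.1 (h3 e he)).resolve_left (hz e he).ne'
  rw [Complex.normSq_eq_zero, hd] at h4
  simp only at h4
  rw [ts_sum_inc] at h4
  exact sub_eq_zero.1 h4

end Crest.Agent.R168
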