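import Crest.Agent.R168.Defs

set_option autoImplicit false

namespace Crest.Agent.R168

open MeasureTheory ProbabilityTheory Filter Topology

open Crest.ProbabilityR.SpanningTrees

variable {V : Type*}

theorem mem_edgesIn (G : SimpleGraph V) (S : Finset V) (u v : V) :
    s(u, v) ∈ edgesIn G S ↔ G.Adj u v ∧ u ∈ S ∧ v ∈ S := by
  unfold edgesIn
  simp only [Finset.mem_filter, Finset.mk_mem_sym2_iff, SimpleGraph.mem_edgeSet]
  tauto

theorem edgesIn_mono (G : SimpleGraph V) {S S' : Finset V} (h : S ⊆ S') :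
    edgesIn G S ⊆ edgesIn G S' := by
  intro e he
  induction e using Sym2.ind with
  | _ u v =>
    rw [mem_edgesIn] at he ⊢
    exact ⟨he.1, h he.2.1, h he.2.2⟩

theorem induce_connected_iff (G : SimpleGraph V) (S : Finset V) :
    (G.induce (S : Set V)).Connected ↔ S.Nonempty ∧ Conn S (edgesIn G S) := by
  constructor
  · intro h
    obtain ⟨⟨u0, hu0⟩⟩ := h.nonempty
    refine ⟨⟨u0, hu0⟩, ?_⟩
    intro φ hφ u hu v hv
    have key : ∀ a b : (S : Set V), (G.induce (S : Set V)).Reachable a b → (φ a ↔ φ b) := by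
      intro a b hab
      obtain ⟨p⟩ := hab
      induction p with
      | nil => exact Iff.rfl
      | @cons a c b hac _ ih =>
        refine Iff.trans (hφ _ _ ?_) ih
        rw [mem_edgesIn]
        exact ⟨hac, a.2, c.2⟩
    exact key ⟨u, hu⟩ ⟨v, hv⟩ (h.preconnected _ _)
  · rintro ⟨⟨u0, hu0⟩, hC⟩
    have hne : Nonempty (S : Set V) := ⟨⟨u0, hu0⟩⟩
    refine ⟨?_⟩
    intro a b
    have := hC (fun v => ∃ hv : v ∈ (S : Set V), (G.induce (S : Set V)).Reachable a ⟨v, hv⟩)
      (by
        intro u v huv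
        rw [mem_edgesIn] at huv
        obtain ⟨hadj, hu, hv⟩ := huv
        have hadj' : (G.induce (S : Set V)).Adj ⟨u, hu⟩ ⟨v, hv⟩ := hadj
        constructor
        · rintro ⟨_, h⟩
          exact ⟨hv, h.trans hadj'.reachable⟩
        · rintro ⟨_, h⟩
          exact ⟨hu, h.trans hadj'.symm.reachable⟩) a a.2 b b.2
    obtain ⟨_, h⟩ := this.1 ⟨a.2, SimpleGraph.Reachable.refl _⟩
    exact h

theorem trees_edgesIn_fromEdgeSet (G : SimpleGraph V) (S : Finset V) (A : Finset (Sym2 V))
    (hA : A ⊆ edgesIn G S) :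
    edgesIn (SimpleGraph.fromEdgeSet (A : Set (Sym2 V))) S = A := by
  ext e
  induction e using Sym2.ind with
  | _ u v =>
    rw [mem_edgesIn, SimpleGraph.fromEdgeSet_adj]
    constructor
    · rintro ⟨⟨h, _⟩, _⟩
      exact h
    · intro h
      have := (mem_edgesIn G S u v).1 (hA h)
      exact ⟨⟨h, this.1.ne⟩, this.2⟩

theorem trees_card_edgeSet_induce (G : SimpleGraph V) (S : Finset V) :
    Nat.card (G.induce (S : Set V)).edgeSet = (edgesIn G S).card := by
  classical
  have hinj : Function.Injective (Sym2.map (Subtype.val : ↥(S : Set V) → V)) :=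
    Sym2.map.injective Subtype.val_injective
  have himg : Sym2.map (Subtype.val : ↥(S : Set V) → V) '' (G.induce (S : Set V)).edgeSet
      = (edgesIn G S : Set (Sym2 V)) := by
    ext e
    induction e using Sym2.ind with
    | _ u v =>
      rw [Finset.mem_coe, mem_edgesIn]
      constructor
      · rintro ⟨e', he', h⟩
        induction e' using Sym2.ind with
        | _ a b =>
          rw [SimpleGraph.mem_edgeSet] at he'
          have hab : G.Adj a b := he'
          rw [Sym2.map_mk, Sym2.eq_iff] at h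
          rcases h with ⟨rfl, rfl⟩ | ⟨rfl, rfl⟩
          · exact ⟨hab, a.2, b.2⟩
          · exact ⟨hab.symm, b.2, a.2⟩
      · rintro ⟨hadj, hu, hv⟩
        refine ⟨s(⟨u, hu⟩, ⟨v, hv⟩), ?_, ?_⟩
        · rw [SimpleGraph.mem_edgeSet]; exact hadj
        · rw [Sym2.map_mk]
  rw [Nat.card_coe_set_eq, ← Set.ncard_image_of_injective _ hinj, himg, Set.ncard_coe_finset]

theorem isSpanningTreeOn_iff (G : SimpleGraph V) (S : Finset V) (A : Finset (Sym2 V)) :
    IsSpanningTreeOn G S A ↔ A ⊆ edgesIn G S ∧ A.card + 1 = S.card ∧ Conn S A := by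
  unfold IsSpanningTreeOn
  refine and_congr_right fun hA => ?_
  rw [SimpleGraph.isTree_iff_connected_and_card, induce_connected_iff, trees_card_edgeSet_induce,
    trees_edgesIn_fromEdgeSet G S A hA, Nat.card_coe_set_eq, Set.ncard_coe_finset]
  constructor
  · rintro ⟨⟨_, h1⟩, h2⟩
    exact ⟨h2, h1⟩
  · rintro ⟨h2, h1⟩
    exact ⟨⟨Finset.card_pos.1 (by omega), h1⟩, h2⟩

theorem exists_isSpanningTreeOn (G : SimpleGraph V) (S : Finset V)
    (hS : (G.induce (S : Set V)).Connected) : ∃ A, IsSpanningTreeOn G S A := by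
  classical
  obtain ⟨T, hle, hT⟩ := hS.exists_isTree_le
  let A : Finset (Sym2 V) := (edgesIn G S).filter
    (fun e => e ∈ Sym2.map (Subtype.val : ↥(S : Set V) → V) '' T.edgeSet)
  refine ⟨A, Finset.filter_subset _ _, ?_⟩
  have : (SimpleGraph.fromEdgeSet (A : Set (Sym2 V))).induce (S : Set V) = T := by
    ext a b
    have hinj : Function.Injective (Sym2.map (Subtype.val : ↥(S : Set V) → V)) :=
      Sym2.map.injective Subtype.val_injective
    rw [SimpleGraph.induce_adj, SimpleGraph.fromEdgeSet_adj]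
    simp only [A, Finset.coe_filter, Set.mem_setOf_eq]
    constructor
    · rintro ⟨⟨_, e', he', h⟩, _⟩
      have : e' = s(a, b) := hinj (by rw [h, Sym2.map_mk])
      rw [this] at he'
      exact he'
    · intro h
      have hG : G.Adj a b := hle h
      refine ⟨⟨(mem_edgesIn G S _ _).2 ⟨hG, a.2, b.2⟩, s(a, b), h, by rw [Sym2.map_mk]⟩, hG.ne⟩
  rw [this]
  exact hT

theorem ustContains_nonneg (G : SimpleGraph V) (S : Finset V) (T : Finset (Sym2 V)) :
    0 ≤ ustContains G S T := by
  unfold ustContains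
  positivity

theorem ustContains_le_one (G : SimpleGraph V) (S : Finset V) (T : Finset (Sym2 V)) :
    ustContains G S T ≤ 1 := by
  unfold ustContains
  refine div_le_one_of_le₀ ?_ (by positivity)
  refine Nat.cast_le.2 (Finset.card_le_card ?_)
  intro A hA
  simp only [Finset.mem_filter] at hA ⊢
  exact ⟨hA.1, hA.2.1⟩

end Crest.Agent.R168
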