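import Crest.Agent.R168.TreeStable
import Crest.Agent.R168.NegCorr

set_option autoImplicit false

namespace Crest.Agent.R168

open MeasureTheory ProbabilityTheory Filter Topology

open Crest.ProbabilityR.SpanningTrees

open Classical in
/-- Number of spanning trees of the piece `S` containing `T`. -/
noncomputable def ustMonoCnt (G : SimpleGraph ℕ) (S : Finset ℕ) (T : Finset (Sym2 ℕ)) : ℕ :=
  ((edgesIn G S).powerset.filter (fun A => IsSpanningTreeOn G S A ∧ T ⊆ A)).card

theorem ustMono_eq (G : SimpleGraph ℕ) (S : Finset ℕ) (T : Finset (Sym2 ℕ)) :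
    ustContains G S T = (ustMonoCnt G S T : ℝ) / (ustMonoCnt G S ∅ : ℝ) := by
  unfold ustContains ustMonoCnt
  congr 2
  · congr 1
    ext A
    simp
  · congr 1
    ext A
    simp

theorem ustMono_pos (G : SimpleGraph ℕ) (S : Finset ℕ)
    (hS : (G.induce (S : Set ℕ)).Connected) : 0 < ustMonoCnt G S ∅ := by
  obtain ⟨A, hA⟩ := exists_isSpanningTreeOn G S hS
  unfold ustMonoCnt
  refine Finset.card_pos.2 ⟨A, ?_⟩
  simp only [Finset.mem_filter, Finset.mem_powerset]
  exact ⟨hA.1, hA, Finset.empty_subset _⟩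

theorem ustMono_not_mem (G : SimpleGraph ℕ) (S : Finset ℕ) (v : ℕ) (hv : v ∉ S) (e : Sym2 ℕ)
    (he : e ∈ edgesIn G S) : v ∉ e := by
  induction e using Sym2.ind with
  | h a b =>
    rw [mem_edgesIn] at he
    intro h
    rcases Sym2.mem_iff.1 h with rfl | rfl
    · exact hv he.2.1
    · exact hv he.2.2

theorem ustMono_mem_of_not_mem (G : SimpleGraph ℕ) (S : Finset ℕ) (v : ℕ) (e : Sym2 ℕ)
    (he : e ∈ edgesIn G (insert v S)) (hv : v ∉ e) : e ∈ edgesIn G S := by
  induction e using Sym2.ind with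
  | h a b =>
    rw [mem_edgesIn] at he ⊢
    have ha : a ≠ v := fun h => hv (h ▸ Sym2.mem_mk_left a b)
    have hb : b ≠ v := fun h => hv (h ▸ Sym2.mem_mk_right a b)
    refine ⟨he.1, ?_, ?_⟩
    · exact (Finset.mem_insert.1 he.2.1).resolve_left ha
    · exact (Finset.mem_insert.1 he.2.2).resolve_left hb

theorem ustMono_insert_tree (G : SimpleGraph ℕ) (S : Finset ℕ) (u v : ℕ) (hu : u ∈ S) (hv : v ∉ S)
    (huv : G.Adj u v) (A : Finset (Sym2 ℕ)) (hA : IsSpanningTreeOn G S A) :
    IsSpanningTreeOn G (insert v S) (insert s(u, v) A) := by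
  rw [isSpanningTreeOn_iff] at hA ⊢
  obtain ⟨h1, h2, h3⟩ := hA
  have hne : s(u, v) ∉ A := fun h =>
    ustMono_not_mem G S v hv _ (h1 h) (Sym2.mem_mk_right u v)
  refine ⟨?_, ?_, ?_⟩
  · intro e he
    rcases Finset.mem_insert.1 he with rfl | he
    · rw [mem_edgesIn]
      exact ⟨huv, Finset.mem_insert_of_mem hu, Finset.mem_insert_self _ _⟩
    · exact edgesIn_mono G (Finset.subset_insert v S) (h1 he)
  · rw [Finset.card_insert_of_notMem hne, Finset.card_insert_of_notMem hv, h2]
  · intro φ hφ
    have huv' : φ u ↔ φ v := hφ u v (Finset.mem_insert_self _ _)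
    have hS := h3 φ (fun a b hab => hφ a b (Finset.mem_insert_of_mem hab))
    have key : ∀ x ∈ insert v S, (φ x ↔ φ u) := by
      intro x hx
      rcases Finset.mem_insert.1 hx with rfl | hx
      · exact huv'.symm
      · exact hS x hx u hu
    intro x hx y hy
    exact (key x hx).trans (key y hy).symm

theorem ustMono_erase_tree (G : SimpleGraph ℕ) (S : Finset ℕ) (u v : ℕ) (hu : u ∈ S) (hv : v ∉ S)
    (A : Finset (Sym2 ℕ)) (hA : IsSpanningTreeOn G (insert v S) A)
    (hD : ∀ e ∈ A, v ∈ e → e = s(u, v)) :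
    s(u, v) ∈ A ∧ IsSpanningTreeOn G S (A.erase s(u, v)) := by
  rw [isSpanningTreeOn_iff] at hA ⊢
  obtain ⟨h1, h2, h3⟩ := hA
  have huv : u ≠ v := fun h => hv (h ▸ hu)
  have hmem : s(u, v) ∈ A := by
    by_contra hn
    have := h3 (fun x => x = v) (fun a b hab => by
      have hv' : v ∉ s(a, b) := fun h => hn (hD _ hab h ▸ hab)
      have ha : a ≠ v := fun h => hv' (h ▸ Sym2.mem_mk_left a b)
      have hb : b ≠ v := fun h => hv' (h ▸ Sym2.mem_mk_right a b)
      simp [ha, hb]) u (Finset.mem_insert_of_mem hu) v (Finset.mem_insert_self _ _)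
    exact huv (this.2 rfl)
  refine ⟨hmem, ?_, ?_, ?_⟩
  · intro e he
    obtain ⟨hne, he⟩ := Finset.mem_erase.1 he
    exact ustMono_mem_of_not_mem G S v e (h1 he) (fun h => hne (hD e he h))
  · rw [Finset.card_insert_of_notMem hv] at h2
    have := Finset.card_erase_add_one hmem
    omega
  · intro φ hφ
    have key := h3 (fun x => if x = v then φ u else φ x) (fun a b hab => by
      by_cases he : s(a, b) = s(u, v)
      · rcases Sym2.eq_iff.1 he with ⟨rfl, rfl⟩ | ⟨rfl, rfl⟩
        · simp [huv]
        · simp [huv]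
      · have hv' : v ∉ s(a, b) := fun h => he (hD _ hab h)
        have ha : a ≠ v := fun h => hv' (h ▸ Sym2.mem_mk_left a b)
        have hb : b ≠ v := fun h => hv' (h ▸ Sym2.mem_mk_right a b)
        simp only [ha, hb, if_false]
        exact hφ a b (Finset.mem_erase.2 ⟨he, hab⟩))
    intro x hx y hy
    have hx' : x ≠ v := fun h => hv (h ▸ hx)
    have hy' : y ≠ v := fun h => hv (h ▸ hy)
    have := key x (Finset.mem_insert_of_mem hx) y (Finset.mem_insert_of_mem hy)
    simpa only [hx', hy', if_false] using this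

open Classical in
theorem ustMono_card_eq (G : SimpleGraph ℕ) (S : Finset ℕ) (u v : ℕ) (hu : u ∈ S) (hv : v ∉ S)
    (huv : G.Adj u v) (T : Finset (Sym2 ℕ)) (hT : T ⊆ edgesIn G S) :
    ((edgesIn G (insert v S)).powerset.filter (fun A => IsSpanningTreeOn G (insert v S) A ∧
      (T ⊆ A ∧ Disjoint A ((edgesIn G (insert v S)).filter (fun e => v ∈ e ∧ e ≠ s(u, v)))))).card =
      ustMonoCnt G S T := by
  unfold ustMonoCnt
  symm
  refine Finset.card_bij' (fun A _ => insert s(u, v) A) (fun A _ => A.erase s(u, v)) ?_ ?_ ?_ ?_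
  · intro A hA
    simp only [Finset.mem_filter, Finset.mem_powerset] at hA ⊢
    obtain ⟨h1, h2, h3⟩ := hA
    have h4 := ustMono_insert_tree G S u v hu hv huv A h2
    refine ⟨h4.1, h4, h3.trans (Finset.subset_insert _ _), ?_⟩
    rw [Finset.disjoint_left]
    intro e he he'
    obtain ⟨-, h5, h6⟩ := Finset.mem_filter.1 he'
    rcases Finset.mem_insert.1 he with rfl | he
    · exact h6 rfl
    · exact ustMono_not_mem G S v hv e (h1 he) h5
  · intro A hA
    simp only [Finset.mem_filter, Finset.mem_powerset] at hA ⊢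
    obtain ⟨h1, h2, h3, h4⟩ := hA
    have hD : ∀ e ∈ A, v ∈ e → e = s(u, v) := by
      intro e he hve
      by_contra hne
      exact Finset.disjoint_left.1 h4 he (Finset.mem_filter.2 ⟨h1 he, hve, hne⟩)
    have h5 := ustMono_erase_tree G S u v hu hv A h2 hD
    refine ⟨h5.2.1, h5.2, ?_⟩
    intro e he
    refine Finset.mem_erase.2 ⟨?_, h3 he⟩
    rintro rfl
    exact ustMono_not_mem G S v hv _ (hT he) (Sym2.mem_mk_right u v)
  · intro A hA
    simp only [Finset.mem_filter, Finset.mem_powerset] at hA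
    refine Finset.erase_insert ?_
    intro h
    exact ustMono_not_mem G S v hv _ (hA.1 h) (Sym2.mem_mk_right u v)
  · intro A hA
    simp only [Finset.mem_filter, Finset.mem_powerset] at hA
    obtain ⟨h1, h2, h3, h4⟩ := hA
    have hD : ∀ e ∈ A, v ∈ e → e = s(u, v) := by
      intro e he hve
      by_contra hne
      exact Finset.disjoint_left.1 h4 he (Finset.mem_filter.2 ⟨h1 he, hve, hne⟩)
    exact Finset.insert_erase (ustMono_erase_tree G S u v hu hv A h2 hD).1

theorem ustMono_step (G : SimpleGraph ℕ) (S : Finset ℕ) (u v : ℕ) (hu : u ∈ S) (hv : v ∉ S)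
    (huv : G.Adj u v) (hS : (G.induce (S : Set ℕ)).Connected)
    (hS' : (G.induce ((insert v S : Finset ℕ) : Set ℕ)).Connected)
    (T : Finset (Sym2 ℕ)) (hT : T ⊆ edgesIn G S) :
    ustContains G (insert v S) T ≤ ustContains G S T := by
  classical
  set D := (edgesIn G (insert v S)).filter (fun e => v ∈ e ∧ e ≠ s(u, v)) with hDdef
  have hTD : Disjoint T D := by
    rw [Finset.disjoint_left]
    intro e he he'
    exact ustMono_not_mem G S v hv e (hT he) (Finset.mem_filter.1 he').2.1
  have key := negcorr_of_stable (edgesIn G (insert v S))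
    (fun A => if IsSpanningTreeOn G (insert v S) A then 1 else 0)
    (fun A => by split_ifs <;> norm_num) (tree_stable G (insert v S) hS') T D hTD
  have e1 : (∑ A ∈ (edgesIn G (insert v S)).powerset with T ⊆ A,
      (if IsSpanningTreeOn G (insert v S) A then (1 : ℝ) else 0)) =
      (ustMonoCnt G (insert v S) T : ℝ) := by
    rw [Finset.sum_boole, Finset.filter_filter]
    unfold ustMonoCnt
    congr 2
    ext A
    simp [and_comm]
  have e2 : (∑ A ∈ (edgesIn G (insert v S)).powerset,
      (if IsSpanningTreeOn G (insert v S) A then (1 : ℝ) else 0)) =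
      (ustMonoCnt G (insert v S) ∅ : ℝ) := by
    rw [Finset.sum_boole]
    unfold ustMonoCnt
    congr 2
    ext A
    simp
  have e3 : (∑ A ∈ (edgesIn G (insert v S)).powerset with (T ⊆ A ∧ Disjoint A D),
      (if IsSpanningTreeOn G (insert v S) A then (1 : ℝ) else 0)) =
      (ustMonoCnt G S T : ℝ) := by
    rw [Finset.sum_boole, Finset.filter_filter, ← ustMono_card_eq G S u v hu hv huv T hT]
    congr 2
    ext A
    simp only [Finset.mem_filter, hDdef]
    tauto
  have e4 : (∑ A ∈ (edgesIn G (insert v S)).powerset with Disjoint A D,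
      (if IsSpanningTreeOn G (insert v S) A then (1 : ℝ) else 0)) =
      (ustMonoCnt G S ∅ : ℝ) := by
    rw [Finset.sum_boole, Finset.filter_filter,
      ← ustMono_card_eq G S u v hu hv huv ∅ (Finset.empty_subset _)]
    congr 2
    ext A
    simp only [Finset.mem_filter, hDdef, Finset.empty_subset, true_and]
    tauto
  have key' : (ustMonoCnt G (insert v S) T : ℝ) * (ustMonoCnt G S ∅ : ℝ) ≤
      (ustMonoCnt G S T : ℝ) * (ustMonoCnt G (insert v S) ∅ : ℝ) := by
    rw [← e1, ← e2, ← e3, ← e4]
    convert key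
  have p1 : (0 : ℝ) < (ustMonoCnt G S ∅ : ℝ) := by exact_mod_cast ustMono_pos G S hS
  have p2 : (0 : ℝ) < (ustMonoCnt G (insert v S) ∅ : ℝ) := by
    exact_mod_cast ustMono_pos G _ hS'
  rw [ustMono_eq, ustMono_eq, div_le_div_iff₀ p2 p1]
  exact key'

theorem ustMono_insert_connected (G : SimpleGraph ℕ) (S : Finset ℕ) (u v : ℕ) (hu : u ∈ S)
    (huv : G.Adj u v) (hS : (G.induce (S : Set ℕ)).Connected) :
    (G.induce ((insert v S : Finset ℕ) : Set ℕ)).Connected := by
  rw [induce_connected_iff] at hS ⊢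
  refine ⟨Finset.insert_nonempty _ _, ?_⟩
  intro φ hφ
  have huv' : φ u ↔ φ v := hφ u v
    ((mem_edgesIn G _ u v).2 ⟨huv, Finset.mem_insert_of_mem hu, Finset.mem_insert_self _ _⟩)
  have hS' := hS.2 φ (fun a b hab => hφ a b (edgesIn_mono G (Finset.subset_insert v S) hab))
  have key : ∀ x ∈ insert v S, (φ x ↔ φ u) := by
    intro x hx
    rcases Finset.mem_insert.1 hx with rfl | hx
    · exact huv'.symm
    · exact hS' x hx u hu
  intro x hx y hy
  exact (key x hx).trans (key y hy).symm

theorem ustMono_exists_adj (G : SimpleGraph ℕ) (S S' : Finset ℕ) (hSS' : S ⊆ S') (hne : S ≠ S')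
    (hS : S.Nonempty) (hS' : (G.induce (S' : Set ℕ)).Connected) :
    ∃ u ∈ S, ∃ v ∈ S', v ∉ S ∧ G.Adj u v := by
  by_contra hcon
  push Not at hcon
  rw [induce_connected_iff] at hS'
  obtain ⟨u, hu⟩ := hS
  obtain ⟨w, hw, hwS⟩ : ∃ w ∈ S', w ∉ S := by
    by_contra h
    push Not at h
    exact hne (Finset.Subset.antisymm hSS' h)
  have := hS'.2 (fun x => x ∈ S) (fun a b hab => by
    rw [mem_edgesIn] at hab
    constructor
    · intro ha
      by_contra hb
      exact hcon a ha b hab.2.2 hb hab.1
    · intro hb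
      by_contra ha
      exact hcon b hb a hab.2.1 ha hab.1.symm) u (hSS' hu) w hw
  exact hwS (this.1 hu)

/-- Rayleigh monotonicity for uniform spanning trees of nested connected pieces. -/
theorem ust_antitone (G : SimpleGraph ℕ) (S S' : Finset ℕ) (hSS' : S ⊆ S')
    (hS : (G.induce (S : Set ℕ)).Connected) (hS' : (G.induce (S' : Set ℕ)).Connected)
    (T : Finset (Sym2 ℕ)) (hT : T ⊆ edgesIn G S) : ustContains G S' T ≤ ustContains G S T := by
  induction hn : (S' \ S).card generalizing S with
  | zero =>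
    have h : S' ⊆ S := Finset.sdiff_eq_empty_iff_subset.1 (Finset.card_eq_zero.1 hn)
    rw [Finset.Subset.antisymm hSS' h]
  | succ n ih =>
    have hne : S ≠ S' := by
      rintro rfl
      simp at hn
    obtain ⟨u, hu, v, hv, hvS, huv⟩ := ustMono_exists_adj G S S' hSS' hne
      ((induce_connected_iff G S).1 hS).1 hS'
    have hc := ustMono_insert_connected G S u v hu huv hS
    have hsub : insert v S ⊆ S' := Finset.insert_subset hv hSS'
    have hcard : (S' \ insert v S).card = n := by
      have : S' \ S = insert v (S' \ insert v S) := by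
        ext x
        simp only [Finset.mem_sdiff, Finset.mem_insert]
        constructor
        · rintro ⟨h1, h2⟩
          by_cases hx : x = v
          · exact Or.inl hx
          · exact Or.inr ⟨h1, fun h => h.elim hx h2⟩
        · rintro (rfl | ⟨h1, h2⟩)
          · exact ⟨hv, hvS⟩
          · exact ⟨h1, fun h => h2 (Or.inr h)⟩
      rw [this, Finset.card_insert_of_notMem (by simp)] at hn
      omega
    exact (ih (insert v S) hsub hc (hT.trans (edgesIn_mono G (Finset.subset_insert v S)))
      hcard).trans (ustMono_step G S u v hu hvS huv hS hc T hT)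

theorem ustMono_eventually_subset (S : ℕ → Finset ℕ) (hmono : Monotone S)
    (hex : ∀ v : ℕ, ∃ n, v ∈ S n) (S0 : Finset ℕ) : ∀ᶠ n in atTop, S0 ⊆ S n := by
  have : ∀ᶠ n in atTop, ∀ v ∈ S0, v ∈ S n := by
    rw [Filter.eventually_all_finset]
    intro v _
    obtain ⟨m, hm⟩ := hex v
    filter_upwards [eventually_ge_atTop m] with n hn
    exact hmono hn hm
  filter_upwards [this] with n hn
  exact fun v hv => hn v hv

theorem ust_tendsto (G : SimpleGraph ℕ) (S : ℕ → Finset ℕ) (hmono : Monotone S)
    (hex : ∀ v : ℕ, ∃ n, v ∈ S n) (hconn : ∀ n, (G.induce (S n : Set ℕ)).Connected)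
    (T : Finset (Sym2 ℕ)) (hT : (↑T : Set (Sym2 ℕ)) ⊆ G.edgeSet) :
    Tendsto (fun n => ustContains G (S n) T) atTop (𝓝 (fusfIncl G T)) := by
  classical
  have hTev : ∀ᶠ n in atTop, T ⊆ edgesIn G (S n) := by
    have : ∀ᶠ n in atTop, ∀ e ∈ T, e ∈ edgesIn G (S n) := by
      rw [Filter.eventually_all_finset]
      intro e he
      have he' : e ∈ G.edgeSet := hT (Finset.mem_coe.2 he)
      induction e using Sym2.ind with
      | h a b =>
        filter_upwards [ustMono_eventually_subset S hmono hex {a, b}] with n hn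
        rw [mem_edgesIn]
        exact ⟨he', hn (by simp), hn (by simp)⟩
    filter_upwards [this] with n hn
    exact fun e he => hn e he
  have hbdd : BddBelow (Set.range fun S : Finset ℕ =>
      if (G.induce (S : Set ℕ)).Connected ∧ T ⊆ edgesIn G S then ustContains G S T else 1) := by
    refine ⟨0, ?_⟩
    rintro _ ⟨S0, rfl⟩
    dsimp only
    split_ifs
    · exact ustContains_nonneg G S0 T
    · exact zero_le_one
  rw [tendsto_order]
  constructor
  · intro a ha
    filter_upwards [hTev] with n hn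
    refine ha.trans_le ?_
    unfold fusfIncl
    have := ciInf_le hbdd (S n)
    rw [if_pos ⟨hconn n, hn⟩] at this
    convert this
  · intro a ha
    unfold fusfIncl at ha
    obtain ⟨S0, hS0⟩ := exists_lt_of_ciInf_lt ha
    by_cases h : (G.induce (S0 : Set ℕ)).Connected ∧ T ⊆ edgesIn G S0
    · rw [if_pos (by convert h)] at hS0
      filter_upwards [ustMono_eventually_subset S hmono hex S0] with n hn
      exact (ust_antitone G S0 (S n) hn h.1 (hconn n) T h.2).trans_lt hS0
    · rw [if_neg (by convert h)] at hS0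
      exact Eventually.of_forall fun n => (ustContains_le_one G (S n) T).trans_lt hS0

end Crest.Agent.R168
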